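import Crest.Agent.R174.Spectral

/-!
# Row 174 (S0262): the cost calculus
-/

set_option autoImplicit false

namespace Crest.Agent.R174

open Monoid Matrix MeasureTheory Real

universe u

variable {R : Type*} [Ring R] [StarRing R] [Algebra ℂ R] [StarModule ℂ R] {T : Tr R}

omit [StarModule ℂ R] in
theorem Cost.mul {u v : R} {c d : ℝ} (hu : Cost T u c) (hv : Cost T v d) :
    Cost T (u * v) (c + d) := by
  induction hu with
  | one => simpa using hv
  | rot p hp s hs _ ih =>
    rw [mul_assoc, add_right_comm]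
    exact Cost.rot p hp s hs ih

omit [StarModule ℂ R] in
theorem Cost.conj {u v : R} {c : ℝ} (hu : Cost T u c) (hv : v ∈ unitary R) :
    Cost T (v * u * star v) c := by
  have h1 : star v * v = 1 := hv.1
  have h2 : v * star v = 1 := hv.2
  induction hu with
  | one => rw [mul_one, h2]; exact Cost.one
  | @rot p hp s hs u c _ ih =>
    have hp' : IsStarProjection (v * p * star v) := by
      rw [isStarProjection_iff']
      constructor
      · calc v * p * star v * (v * p * star v) = v * (p * (star v * v) * p) * star v := by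
              simp only [mul_assoc]
          _ = v * p * star v := by rw [h1, mul_one, hp.isIdempotentElem.eq]
      · rw [star_mul, star_mul, star_star, hp.isSelfAdjoint.star_eq, mul_assoc]
    have hτ : T.τ (v * p * star v) = T.τ p := by
      rw [T.comm, ← mul_assoc, h1, one_mul]
    have key := Cost.rot (T := T) _ hp' s hs ih
    rw [hτ] at key
    have e : v * ((1 + (Complex.exp (s * Complex.I) - 1) • p) * u) * star v =
        (1 + (Complex.exp (s * Complex.I) - 1) • (v * p * star v)) * (v * u * star v) := by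
      have : v * p * star v * (v * u * star v) = v * (p * u) * star v := by
        calc v * p * star v * (v * u * star v) = v * (p * (star v * v) * u) * star v := by
              simp only [mul_assoc]
          _ = v * (p * u) * star v := by rw [h1, mul_one]
      rw [add_mul, add_mul, one_mul, one_mul, smul_mul_assoc, smul_mul_assoc, this, mul_add,
        add_mul, mul_smul_comm, smul_mul_assoc]
    rw [e]
    exact key

namespace CostLemmas

omit [StarModule ℂ R] in
/-- A family of orthogonal projections, each rotated by its own angle. -/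
theorem family {κ : Type*} (S : Finset κ) (P : κ → R) (s : κ → ℝ)
    (hP : ∀ i ∈ S, IsStarProjection (P i)) (horth : ∀ i ∈ S, ∀ j ∈ S, i ≠ j → P i * P j = 0)
    (hs : ∀ i ∈ S, 0 ≤ s i) :
    Cost T (1 + ∑ i ∈ S, (Complex.exp (s i * Complex.I) - 1) • P i)
      (∑ i ∈ S, s i * (T.τ (P i)).re) := by
  classical
  induction S using Finset.induction_on with
  | empty => simpa using Cost.one
  | insert a S ha ih =>
    have ih' := ih (fun i hi => hP i (Finset.mem_insert_of_mem hi))
      (fun i hi j hj => horth i (Finset.mem_insert_of_mem hi) j (Finset.mem_insert_of_mem hj))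
      (fun i hi => hs i (Finset.mem_insert_of_mem hi))
    have key := Cost.rot (T := T) (P a) (hP a (Finset.mem_insert_self _ _)) (s a)
      (hs a (Finset.mem_insert_self _ _)) ih'
    have hz : P a * ∑ i ∈ S, (Complex.exp (s i * Complex.I) - 1) • P i = 0 := by
      rw [Finset.mul_sum]
      refine Finset.sum_eq_zero fun i hi => ?_
      rw [mul_smul_comm, horth a (Finset.mem_insert_self _ _) i (Finset.mem_insert_of_mem hi)
        (fun h => ha (h ▸ hi)), smul_zero]
    rw [Finset.sum_insert ha, Finset.sum_insert ha, add_comm (s a * _)]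
    convert key using 1
    rw [add_mul, one_mul, smul_mul_assoc, mul_add, mul_one, hz, add_zero]
    abel

omit [StarModule ℂ R] in
theorem proj_nonneg {p : R} (hp : IsStarProjection p) : 0 ≤ (T.τ p).re := by
  have := T.pos p
  rwa [hp.isSelfAdjoint.star_eq, hp.isIdempotentElem.eq] at this

omit [Algebra ℂ R] [StarModule ℂ R] in
theorem sum_proj {κ : Type*} (S : Finset κ) (P : κ → R)
    (hP : ∀ i ∈ S, IsStarProjection (P i)) (horth : ∀ i ∈ S, ∀ j ∈ S, i ≠ j → P i * P j = 0) :
    IsStarProjection (∑ i ∈ S, P i) := by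
  classical
  induction S using Finset.induction_on with
  | empty => simpa using IsStarProjection.zero R
  | insert a S ha ih =>
    rw [Finset.sum_insert ha]
    refine (hP a (Finset.mem_insert_self _ _)).add
      (ih (fun i hi => hP i (Finset.mem_insert_of_mem hi))
        (fun i hi j hj => horth i (Finset.mem_insert_of_mem hi) j (Finset.mem_insert_of_mem hj))) ?_
    rw [Finset.mul_sum]
    exact Finset.sum_eq_zero fun i hi =>
      horth a (Finset.mem_insert_self _ _) i (Finset.mem_insert_of_mem hi) (fun h => ha (h ▸ hi))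

/-- The spectral projection of an element of order three. -/
noncomputable def pr3 (e x : R) (a : ℂ) : R := (1 / 3 : ℂ) • (e + a • x + a ^ 2 • x ^ 2)

omit [StarRing R] [StarModule ℂ R] in
theorem pr3_mul {e x : R} (hee : e * e = e) (hex : e * x = x) (h3 : x ^ 3 = e) (a b : ℂ) :
    pr3 e x a * pr3 e x b = (1 / 9 : ℂ) • ((1 + a * b ^ 2 + a ^ 2 * b) • e +
      (a + b + a ^ 2 * b ^ 2) • x + (a ^ 2 + b ^ 2 + a * b) • x ^ 2) := by
  have hxe : x * e = x := by
    rw [← h3, ← pow_succ', pow_succ, h3, hex]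
  have h1 : e * x ^ 2 = x ^ 2 := by rw [pow_two, ← mul_assoc, hex]
  have h2 : x ^ 2 * e = x ^ 2 := by rw [pow_two, mul_assoc, hxe]
  have h4 : x * x = x ^ 2 := (pow_two x).symm
  have h5 : x * x ^ 2 = e := by rw [← pow_succ', h3]
  have h6 : x ^ 2 * x = e := by rw [← pow_succ, h3]
  have h7 : x ^ 2 * x ^ 2 = x := by rw [pow_two x, mul_assoc, ← pow_two x, h5, hxe]
  simp only [pr3, mul_add, add_mul, smul_mul_assoc, mul_smul_comm, hee, hex, hxe, h1, h2, h4, h5,
    h6, h7]
  module

theorem pr3_proj {e x : R} (he : IsStarProjection e) (hex : e * x = x) (h3 : x ^ 3 = e)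
    (hs : star x = x ^ 2) {a : ℂ} (ha : a ^ 3 = 1) (ha' : star a = a ^ 2) :
    IsStarProjection (pr3 e x a) := by
  rw [isStarProjection_iff']
  constructor
  · rw [pr3_mul he.isIdempotentElem.eq hex h3, pr3]
    have e1 : 1 + a * a ^ 2 + a ^ 2 * a = 3 := by linear_combination 2 * ha
    have e2 : a + a + a ^ 2 * a ^ 2 = 3 * a := by linear_combination a * ha
    have e3 : a ^ 2 + a ^ 2 + a * a = 3 * a ^ 2 := by ring
    rw [e1, e2, e3]
    module
  · have hx4 : (x ^ 2) ^ 2 = x := by
      rw [← pow_mul, show 2 * 2 = 3 + 1 from rfl, pow_succ, h3, hex]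
    have ha4 : (a ^ 2) ^ 2 = a := by linear_combination a * ha
    have h13 : star (1 / 3 : ℂ) = 1 / 3 := by simp
    simp only [pr3, star_smul, star_add, star_pow, he.isSelfAdjoint.star_eq, hs, ha', hx4, ha4, h13]
    module

omit [StarRing R] [StarModule ℂ R] in
theorem pr3_orth {e x : R} (hee : e * e = e) (hex : e * x = x) (h3 : x ^ 3 = e) {a b : ℂ}
    (ha : a ^ 3 = 1) (hb : b ^ 3 = 1) (hab : a ≠ b) : pr3 e x a * pr3 e x b = 0 := by
  have h0 : a ^ 2 + b ^ 2 + a * b = 0 := by
    have : (a - b) * (a ^ 2 + b ^ 2 + a * b) = 0 := by linear_combination ha - hb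
    exact (mul_eq_zero.1 this).resolve_left (sub_ne_zero.2 hab)
  have h1 : 1 + a * b ^ 2 + a ^ 2 * b = 0 := by linear_combination b * h0 - hb
  have h2 : a + b + a ^ 2 * b ^ 2 = 0 := by linear_combination a * b * h0 - b * ha - a * hb
  rw [pr3_mul hee hex h3, h0, h1, h2]
  simp

omit [StarModule ℂ R] in
theorem pr3_τ {e x : R} (hs : star x = x ^ 2) (hτ : T.τ x = 0) (a : ℂ) :
    (T.τ (pr3 e x a)).re = (T.τ e).re / 3 := by
  have h2 : T.τ (x ^ 2) = 0 := by rw [← hs, T.map_star, hτ, star_zero]
  simp only [pr3, map_smul, map_add, hτ, h2, smul_zero, add_zero, smul_eq_mul]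
  simp
  ring

end CostLemmas

open CostLemmas

theorem Cost.invol {s : R} (hs : IsSelfAdjoint s) (h2 : s * s = 1) :
    Cost T s (π * ((T.τ 1).re - (T.τ s).re) / 2) := by
  have hp : IsStarProjection ((1 / 2 : ℂ) • (1 - s)) := by
    rw [isStarProjection_iff']
    constructor
    · simp only [smul_mul_assoc, mul_smul_comm, sub_mul, mul_sub, one_mul, mul_one, h2]
      module
    · have h12 : star (1 / 2 : ℂ) = 1 / 2 := by simp
      rw [star_smul, star_sub, star_one, hs.star_eq, h12]
  have key := Cost.rot (T := T) _ hp π pi_pos.le Cost.one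
  rw [Complex.exp_pi_mul_I] at key
  convert key using 1
  · rw [mul_one]
    module
  · simp only [map_smul, map_sub, smul_eq_mul]
    simp
    ring

theorem Cost.order3 {e x : R} (he : IsStarProjection e) (hex : e * x = x) (h3 : x ^ 3 = e)
    (hs : star x = x ^ 2) (hτ : T.τ x = 0) (θ : ℝ) (h0 : 0 ≤ θ) (h1 : θ ≤ 2 * π / 3) :
    Cost T (1 - e + Complex.exp (-(θ * Complex.I)) • x) ((4 * π / 3 - θ) * (T.τ e).re) := by
  set ω : ℂ := Complex.exp ((2 * π / 3 : ℝ) * Complex.I) with hω
  set c : ℂ := Complex.exp (-(θ * Complex.I)) with hc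
  have hω3 : ω ^ 3 = 1 := by
    rw [hω, ← Complex.exp_nat_mul, ← Complex.exp_two_pi_mul_I]
    congr 1
    push_cast
    ring
  have hω1 : ω ≠ 1 := by
    intro h
    have := congrArg Complex.im h
    rw [hω, Complex.exp_ofReal_mul_I_im, Complex.one_im] at this
    have h' : 0 < Real.sin (2 * π / 3) :=
      Real.sin_pos_of_pos_of_lt_pi (by positivity) (by linarith [pi_pos])
    linarith
  have hω0 : ω ^ 2 + ω + 1 = 0 := by
    have : (ω - 1) * (ω ^ 2 + ω + 1) = 0 := by linear_combination hω3
    exact (mul_eq_zero.1 this).resolve_left (sub_ne_zero.2 hω1)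
  have hωs : star ω = ω ^ 2 := by
    have hn : ‖ω‖ = 1 := by rw [hω]; exact Complex.norm_exp_ofReal_mul_I _
    have : ω * star ω = 1 := by
      rw [Complex.star_def, Complex.mul_conj', hn]; simp
    linear_combination (-star ω) * hω3 + ω ^ 2 * this
  have hω21 : ω ^ 2 ≠ 1 := fun h => hω1 (by linear_combination hω3 - ω * h)
  have hω2ω : ω ^ 2 ≠ ω := fun h => hω21 (by linear_combination hω3 - ω * h)
  let a : Fin 3 → ℂ := ![1, ω ^ 2, ω]
  let s : Fin 3 → ℝ := ![2 * π - θ, 2 * π / 3 - θ, 4 * π / 3 - θ]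
  have ha3 : ∀ i, a i ^ 3 = 1 := by
    intro i
    fin_cases i
    · simp [a]
    · simp only [a]
      change (ω ^ 2) ^ 3 = 1
      rw [← pow_mul, mul_comm, pow_mul, hω3, one_pow]
    · exact hω3
  have has : ∀ i, star (a i) = a i ^ 2 := by
    intro i
    fin_cases i
    · simp [a]
    · change star (ω ^ 2) = (ω ^ 2) ^ 2
      rw [star_pow, hωs]
    · exact hωs
  have hinj : ∀ i j, i ≠ j → a i ≠ a j := by
    intro i j hij
    fin_cases i <;> fin_cases j <;>
      first
        | exact absurd rfl hij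
        | exact hω21.symm
        | exact hω1.symm
        | exact hω21
        | exact hω2ω
        | exact hω1
        | exact hω2ω.symm
  have key := family (T := T) Finset.univ (fun i => pr3 e x (a i)) s
    (fun i _ => pr3_proj he hex h3 hs (ha3 i) (has i))
    (fun i _ j _ hij => pr3_orth he.isIdempotentElem.eq hex h3 (ha3 i) (ha3 j) (hinj i j hij))
    (by
      intro i _
      have := pi_pos
      fin_cases i
      · change 0 ≤ 2 * π - θ
        linarith
      · change 0 ≤ 2 * π / 3 - θ
        linarith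
      · change 0 ≤ 4 * π / 3 - θ
        linarith)
  have e0 : Complex.exp (((2 * π - θ : ℝ) : ℂ) * Complex.I) = c := by
    rw [hc, ← mul_one (Complex.exp (-(θ * Complex.I))), ← Complex.exp_two_pi_mul_I,
      ← Complex.exp_add]
    congr 1
    push_cast
    ring
  have e1 : Complex.exp (((2 * π / 3 - θ : ℝ) : ℂ) * Complex.I) = c * ω := by
    rw [hc, hω, ← Complex.exp_add]
    congr 1
    push_cast
    ring
  have e2 : Complex.exp (((4 * π / 3 - θ : ℝ) : ℂ) * Complex.I) = c * ω ^ 2 := by
    rw [hc, hω, ← Complex.exp_nat_mul, ← Complex.exp_add]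
    congr 1
    push_cast
    ring
  simp only [Fin.sum_univ_three, pr3_τ hs hτ] at key
  change Cost T (1 + ((Complex.exp (((2 * π - θ : ℝ) : ℂ) * Complex.I) - 1) • pr3 e x 1 +
      (Complex.exp (((2 * π / 3 - θ : ℝ) : ℂ) * Complex.I) - 1) • pr3 e x (ω ^ 2) +
      (Complex.exp (((4 * π / 3 - θ : ℝ) : ℂ) * Complex.I) - 1) • pr3 e x ω))
      ((2 * π - θ) * ((T.τ e).re / 3) + (2 * π / 3 - θ) * ((T.τ e).re / 3) +
        (4 * π / 3 - θ) * ((T.τ e).re / 3)) at key
  rw [e0, e1, e2] at key
  convert key using 1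
  · simp only [pr3]
    match_scalars
    · ring
    · linear_combination (-c / 3) * hω0
    · linear_combination (-2 * c / 3) * hω3 + (1 / 3) * hω0
    · linear_combination (-c * (ω + ω ^ 2) / 3 + ω / 3) * hω3 + (1 / 3 - c / 3) * hω0
  · ring

theorem Cost.spectral {ι : Type} [Fintype ι] [DecidableEq ι] (φ : Matrix ι ι ℂ →⋆ₐ[ℂ] R)
    (hφ : ∀ a, T.τ (φ a) = a.trace) {V W Q : Matrix ι ι ℂ} (hV : V ∈ unitary (Matrix ι ι ℂ))
    (hW : W ∈ unitary (Matrix ι ι ℂ)) (hWV : W * V * star W = star V) (hQ : IsStarProjection Q)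
    (hVQ : V * Q = Q) : ∃ c ≤ π * (Fintype.card ι - Q.trace.re), Cost T (φ V) c := by
  classical
  obtain ⟨S, P, hS, hP, horth, hsum, hVs, -⟩ := exists_spectral hV
  set S' := S.erase 1 with hS'
  have hS'1 : ∀ z ∈ S', ‖z‖ = 1 := fun z hz => hS z (Finset.mem_of_mem_erase hz)
  -- angles
  let a : ℂ → ℝ := fun z => π + Complex.arg (-z)
  have ha0 : ∀ z, 0 ≤ a z := fun z => by
    have := Complex.neg_pi_lt_arg (-z)
    simp only [a]; linarith
  have ha1 : ∀ z, 0 ≤ 2 * π - a z := fun z => by
    have := Complex.arg_le_pi (-z)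
    simp only [a]; linarith
  have hae : ∀ z : ℂ, ‖z‖ = 1 → Complex.exp (a z * Complex.I) = z := by
    intro z hz
    have h := Complex.norm_mul_exp_arg_mul_I (-z)
    rw [norm_neg, hz, Complex.ofReal_one, one_mul] at h
    simp only [a]
    push_cast
    rw [add_mul, Complex.exp_add, Complex.exp_pi_mul_I, h]
    ring
  have hae' : ∀ z : ℂ, ‖z‖ = 1 →
      Complex.exp (((2 * π - a z : ℝ) : ℂ) * Complex.I) = star z := by
    intro z hz
    rw [← hae z hz, Complex.star_def, ← Complex.exp_conj, map_mul, Complex.conj_ofReal,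
      Complex.conj_I, ← mul_one (Complex.exp (_ * -Complex.I)), ← Complex.exp_two_pi_mul_I,
      ← Complex.exp_add, hae z hz]
    congr 1
    push_cast
    ring
  have hV1 : V = 1 + ∑ z ∈ S', (z - 1) • P z := by
    have : ∑ z ∈ S', (z - 1) • P z = ∑ z ∈ S, (z - 1) • P z := by
      refine Finset.sum_erase _ ?_
      simp
    rw [this]
    simp only [sub_smul, one_smul, Finset.sum_sub_distrib, hsum, hVs]
    abel
  have hV2 : star V = 1 + ∑ z ∈ S', (star z - 1) • P z := by
    conv_lhs => rw [hV1]
    rw [star_add, star_one, star_sum]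
    congr 1
    refine Finset.sum_congr rfl fun z _ => ?_
    rw [star_smul, (hP z).isSelfAdjoint.star_eq, star_sub, star_one]
  have hPφ : ∀ z ∈ S', IsStarProjection (φ (P z)) := fun z _ => (hP z).map φ
  have horthφ : ∀ z ∈ S', ∀ w ∈ S', z ≠ w → φ (P z) * φ (P w) = 0 := fun z _ w _ h => by
    rw [← map_mul, horth z w h, map_zero]
  have c1 := family (T := T) S' (fun z => φ (P z)) a hPφ horthφ (fun z _ => ha0 z)
  have c2 := family (T := T) S' (fun z => φ (P z)) (fun z => 2 * π - a z) hPφ horthφ
    (fun z _ => ha1 z)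
  have r1 : (1 + ∑ z ∈ S', (Complex.exp (a z * Complex.I) - 1) • φ (P z)) = φ V := by
    conv_rhs => rw [hV1]
    rw [map_add, map_one, map_sum]
    congr 1
    refine Finset.sum_congr rfl fun z hz => ?_
    rw [hae z (hS'1 z hz), map_smul]
  have r2 : (1 + ∑ z ∈ S', (Complex.exp (((2 * π - a z : ℝ) : ℂ) * Complex.I) - 1) • φ (P z)) =
      φ (star V) := by
    rw [hV2, map_add, map_one, map_sum]
    congr 1
    refine Finset.sum_congr rfl fun z hz => ?_
    rw [hae' z (hS'1 z hz), map_smul]
  rw [r1] at c1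
  rw [r2] at c2
  have hW1 : star W * W = 1 := hW.1
  have hW2 : W * star W = 1 := hW.2
  have hWφ : φ (star W) ∈ unitary R := by
    constructor
    · rw [← map_star, star_star, ← map_mul, hW2, map_one]
    · rw [← map_star, star_star, ← map_mul, hW1, map_one]
  have c3 := c2.conj hWφ
  have r3 : φ (star W) * φ (star V) * star (φ (star W)) = φ V := by
    rw [← map_star, star_star, ← map_mul, ← map_mul, ← hWV]
    congr 1
    calc star W * (W * V * star W) * W = (star W * W) * V * (star W * W) := by
          simp only [mul_assoc]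
      _ = V := by rw [hW1, one_mul, mul_one]
  rw [r3] at c3
  -- the trace bound
  have hPQ : ∀ z ∈ S', P z * Q = 0 := by
    intro z hz
    have hz1 : z - 1 ≠ 0 := sub_ne_zero.2 (Finset.ne_of_mem_erase hz)
    have h1 : P z * V = z • P z := by
      rw [← hVs, Finset.mul_sum, Finset.sum_eq_single z]
      · rw [mul_smul_comm, (hP z).isIdempotentElem.eq]
      · intro w _ hw
        rw [mul_smul_comm, horth z w (Ne.symm hw), smul_zero]
      · intro h
        exact absurd (Finset.mem_of_mem_erase hz) h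
    have h2 : (z - 1) • (P z * Q) = 0 := by
      rw [sub_smul, one_smul, ← smul_mul_assoc, ← h1, mul_assoc, hVQ, sub_self]
    exact (smul_eq_zero.1 h2).resolve_left hz1
  have hP' : IsStarProjection (∑ z ∈ S', P z) :=
    sum_proj S' P (fun z _ => hP z) (fun z _ w _ h => horth z w h)
  have hP'Q : (∑ z ∈ S', P z) * Q = 0 := by
    rw [Finset.sum_mul]
    exact Finset.sum_eq_zero hPQ
  have hpos := proj_nonneg (T := T) (((hP'.add hQ hP'Q).one_sub).map φ)
  rw [hφ, Matrix.trace_sub, Matrix.trace_add, Matrix.trace_one, Matrix.trace_sum, Complex.sub_re,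
    Complex.add_re, Complex.re_sum, Complex.natCast_re] at hpos
  have hsum12 : ∑ z ∈ S', a z * (T.τ (φ (P z))).re +
      ∑ z ∈ S', (2 * π - a z) * (T.τ (φ (P z))).re = 2 * π * ∑ z ∈ S', (P z).trace.re := by
    rw [← Finset.sum_add_distrib, Finset.mul_sum]
    refine Finset.sum_congr rfl fun z _ => ?_
    rw [hφ]
    ring
  have hle : π * ∑ z ∈ S', (P z).trace.re ≤ π * (Fintype.card ι - Q.trace.re) :=
    mul_le_mul_of_nonneg_left (by linarith) pi_pos.le
  rcases le_total (∑ z ∈ S', a z * (T.τ (φ (P z))).re)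
    (∑ z ∈ S', (2 * π - a z) * (T.τ (φ (P z))).re) with h | h
  · exact ⟨_, by linarith, c1⟩
  · exact ⟨_, by linarith, c3⟩

end Crest.Agent.R174
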