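import Crest.Agent.R174.WordHtp
import Crest.Agent.R174.CostLemmas

/-!
# Row 174, part C4: the degree theorem produces a large fixed space
-/

set_option autoImplicit false

namespace Crest.Agent.R174

open Matrix WordHtp

variable {ι : Type} [Fintype ι] [DecidableEq ι] {m p : ℕ}

theorem Word.mem_unitary {e : Fin m → ℤ} {W : Sp m p → Matrix ι ι ℂ} (h : Word e W) {σ : Sp m p}
    (hσ : IsU σ) : W σ ∈ unitary (Matrix ι ι ℂ) := by
  induction h with
  | const a ha => exact ha
  | gen j f => exact blk_mem f (hσ j)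
  | mul _ _ ih ih' => exact mul_mem ih ih'
  | star _ ih => exact Unitary.star_mem ih

/-- The opposite class. -/
def negC : Option (Fin m × Bool) → Option (Fin m × Bool)
  | none => none
  | some (v, b) => some (v, !b)

/-- The exponent of the variable `v` in a class. -/
def exC (v : Fin m) (x : Option (Fin m × Bool)) : ℤ :=
  (if x = some (v, true) then 1 else 0) - (if x = some (v, false) then 1 else 0)

/-- The diagonal projection onto a class. -/
def Ecl (cl : ι → Option (Fin m × Bool)) (x : Option (Fin m × Bool)) : Matrix ι ι ℂ :=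
  diagonal fun i => if cl i = x then 1 else 0

theorem Ecl_proj (cl : ι → Option (Fin m × Bool)) (x : Option (Fin m × Bool)) :
    IsStarProjection (Ecl cl x) := by
  constructor
  · change _ * _ = _
    simp only [Ecl, diagonal_mul_diagonal]
    congr 1; funext i; split_ifs <;> simp
  · change star _ = _
    simp only [Ecl, star_eq_conjTranspose, diagonal_conjTranspose]
    congr 1; funext i; simp only [Pi.star_apply]; split_ifs <;> simp

theorem Ecl_orth (cl : ι → Option (Fin m × Bool)) {x y : Option (Fin m × Bool)} (h : x ≠ y) :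
    Ecl cl x * Ecl cl y = 0 := by
  simp only [Ecl, diagonal_mul_diagonal]
  rw [← diagonal_zero]
  congr 1; funext i
  split_ifs with h1 h2
  · exact absurd (h1.symm.trans h2) h
  all_goals simp

variable {Dp : Type} [Fintype Dp] [DecidableEq Dp]

/-- The unitary acting by `σ (ty d)` on the block `f d`, for `d ∈ A`. -/
noncomputable def Sig (ty : Dp → Fin m) (f : Dp → (Fin p ↪ ι)) (A : Finset Dp) (σ : Sp m p) :
    Matrix ι ι ℂ :=
  1 + ∑ d ∈ A, emb (f d) * (σ (ty d) - 1) * (emb (f d))ᴴ

omit [Fintype Dp] in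
theorem Sig_word (ty : Dp → Fin m) (f : Dp → (Fin p ↪ ι))
    (hf : ∀ d d' r r', f d r = f d' r' → d = d') (A : Finset Dp) :
    Word (∑ d ∈ A, Pi.single (ty d) 1) (Sig ty f A) := by
  induction A using Finset.induction_on with
  | empty =>
    have : Sig ty f ∅ = fun _ => 1 := by funext σ; simp [Sig]
    rw [this, Finset.sum_empty]
    exact Word.const 1 (one_mem _)
  | insert d A hd ih =>
    have : Sig ty f (insert d A) = fun σ => blk (f d) (σ (ty d)) * Sig ty f A σ := by
      funext σ
      have h0 : emb (f d) * (σ (ty d) - 1) * (emb (f d))ᴴ *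
          ∑ d ∈ A, emb (f d) * (σ (ty d) - 1) * (emb (f d))ᴴ = 0 := by
        rw [Finset.mul_sum]
        refine Finset.sum_eq_zero fun d' hd' => ?_
        have : (emb (f d))ᴴ * emb (f d') = 0 :=
          emb_ct_mul_emb_of_ne fun r s h => hd (hf _ _ _ _ h ▸ hd')
        simp only [Matrix.mul_assoc]
        rw [← Matrix.mul_assoc (emb (f d))ᴴ, this]
        simp
      simp only [Sig, blk, Finset.sum_insert hd, add_mul, mul_add, one_mul, mul_one, h0]
      abel
    rw [this, Finset.sum_insert hd]
    exact (Word.gen _ _).mul ih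

theorem emb_ct_mul_diagonal (f : Fin p ↪ ι) (δ : ι → ℂ) (c : ℂ) (h : ∀ r, δ (f r) = c) :
    (emb f)ᴴ * diagonal δ = c • (emb f)ᴴ := by
  ext r i
  simp only [emb, mul_diagonal, conjTranspose_apply, of_apply, Matrix.smul_apply, smul_eq_mul]
  split_ifs with hi
  · simp [hi, h]
  · simp

theorem diagonal_mul_emb (f : Fin p ↪ ι) (δ : ι → ℂ) (c : ℂ) (h : ∀ r, δ (f r) = c) :
    diagonal δ * emb f = c • emb f := by
  ext i r
  simp only [emb, diagonal_mul, of_apply, Matrix.smul_apply, smul_eq_mul]
  split_ifs with hi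
  · simp [hi, h]
  · simp

section
variable (ty : Dp → Fin m) (f : Dp → (Fin p ↪ ι)) (cl : ι → Option (Fin m × Bool))
  (clD : Dp → Option (Fin m × Bool)) (hcl : ∀ d r, cl (f d r) = clD d)
include hcl

omit [Fintype Dp] [DecidableEq Dp] in
theorem Sig_mul_Ecl (A : Finset Dp) (σ : Sp m p) (x : Option (Fin m × Bool)) :
    Sig ty f A σ * Ecl cl x = Ecl cl x +
      ∑ d ∈ A with clD d = x, emb (f d) * (σ (ty d) - 1) * (emb (f d))ᴴ := by
  rw [Sig, add_mul, one_mul, Finset.sum_mul, Finset.sum_filter]
  congr 1
  refine Finset.sum_congr rfl fun d _ => ?_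
  rw [Matrix.mul_assoc, Ecl, emb_ct_mul_diagonal _ _ (if clD d = x then 1 else 0)
    (fun r => by rw [hcl])]
  split_ifs <;> simp

omit [Fintype Dp] [DecidableEq Dp] in
theorem Ecl_mul_Sig (A : Finset Dp) (σ : Sp m p) (x : Option (Fin m × Bool)) :
    Ecl cl x * Sig ty f A σ = Ecl cl x +
      ∑ d ∈ A with clD d = x, emb (f d) * (σ (ty d) - 1) * (emb (f d))ᴴ := by
  rw [Sig, mul_add, mul_one, Finset.mul_sum, Finset.sum_filter]
  congr 1
  refine Finset.sum_congr rfl fun d _ => ?_
  rw [← Matrix.mul_assoc, ← Matrix.mul_assoc, Ecl, diagonal_mul_emb _ _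
    (if clD d = x then 1 else 0) (fun r => by rw [hcl])]
  split_ifs <;> simp

omit [Fintype Dp] [DecidableEq Dp] in
theorem Sig_comm_Ecl (A : Finset Dp) (σ : Sp m p) (x : Option (Fin m × Bool)) :
    Sig ty f A σ * Ecl cl x = Ecl cl x * Sig ty f A σ := by
  rw [Sig_mul_Ecl ty f cl clD hcl, Ecl_mul_Sig ty f cl clD hcl]

omit [Fintype Dp] [DecidableEq Dp] in
theorem star_Sig_comm_Ecl (A : Finset Dp) (σ : Sp m p) (x : Option (Fin m × Bool)) :
    star (Sig ty f A σ) * Ecl cl x = Ecl cl x * star (Sig ty f A σ) := by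
  have := congrArg star (Sig_comm_Ecl ty f cl clD hcl A σ x)
  rw [star_mul, star_mul, (Ecl_proj cl x).isSelfAdjoint.star_eq] at this
  exact this.symm

theorem exists_fixed (hD : Degree) (hf : ∀ d d' r r', f d r = f d' r' → d = d')
    (f₀ f₁ : Fin p ↪ ι) (h01 : ∀ r s, f₀ r ≠ f₁ s)
    (hdet : (Matrix.of fun v j => ∑ d with ty d = j, exC v (clD d)).det ≠ 0)
    {J M : Matrix ι ι ℂ} (hJ : J ∈ unitary (Matrix ι ι ℂ)) (hM : M ∈ unitary (Matrix ι ι ℂ))
    (hJJ : J * J = 1) (hMM : M * M = 1)
    (hJE : ∀ x, J * Ecl cl x = Ecl cl (negC x) * J) (hME : ∀ x, M * Ecl cl x = Ecl cl (negC x) * M)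
    (hJ0 : J * Ecl cl none = Ecl cl none) (hM0 : M * Ecl cl none = Ecl cl none) :
    ∃ σ : Sp m p, IsU σ ∧ ∃ Q : Matrix ι ι ℂ, IsStarProjection Q ∧
      Q.trace = ((Finset.univ.filter fun i => cl i = none).card : ℂ) + 2 * m * p ∧
      J * (star (Sig ty f Finset.univ σ) * M * Sig ty f Finset.univ σ) * Q = Q := by
  let A : Option (Fin m × Bool) → Finset Dp := fun x => Finset.univ.filter fun d => clD d = x
  let α : Fin m → Matrix ι ι ℂ := fun v =>
    J * M * Ecl cl (some (v, true)) - (1 - Ecl cl (some (v, true)))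
  have hJM : ∀ x, J * M * Ecl cl x = Ecl cl x * (J * M) := by
    intro x
    have : negC (negC x) = x := by rcases x with _ | ⟨v, b⟩ <;> simp [negC]
    rw [mul_assoc, hME, ← mul_assoc, hJE, this, mul_assoc]
  have hα : ∀ v, α v ∈ unitary (Matrix ι ι ℂ) := by
    intro v
    have hU := mul_mem hJ hM
    have h1 := hJM (some (v, true))
    have hE := Ecl_proj cl (some (v, true))
    have h2 := hE.isIdempotentElem.eq
    have h3 := hE.isSelfAdjoint.star_eq
    have h4 : star (J * M) * Ecl cl (some (v, true)) = Ecl cl (some (v, true)) * star (J * M) := by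
      have := congrArg star h1
      rw [star_mul (J * M), star_mul _ (J * M), h3] at this
      exact this.symm
    have h5 : star (J * M) * (J * M) = 1 := hU.1
    have h6 : (J * M) * star (J * M) = 1 := hU.2
    simp only [α]
    generalize J * M = U at *
    generalize Ecl cl (some (v, true)) = E at *
    constructor
    · rw [star_sub, star_mul, star_sub, star_one, h3]
      have a1 : E * star U * (U * E) = E := by
        rw [mul_assoc, ← mul_assoc (star U), h5, one_mul, h2]
      have a2 : E * star U * (1 - E) = 0 := by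
        rw [← h4, mul_assoc, mul_sub, mul_one, h2, sub_self, mul_zero]
      have a3 : (1 - E) * (U * E) = 0 := by
        rw [h1, ← mul_assoc, sub_mul, one_mul, h2, sub_self, zero_mul]
      have a4 : (1 - E) * (1 - E) = 1 - E := hE.one_sub.isIdempotentElem.eq
      rw [sub_mul, mul_sub _ (U * E), mul_sub _ (U * E), a1, a2, a3, a4]
      abel
    · rw [star_sub, star_mul, star_sub, star_one, h3]
      have a1 : U * E * (E * star U) = E := by
        rw [mul_assoc, ← mul_assoc E, h2, ← mul_assoc, h1, mul_assoc, h6, mul_one]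
      have a2 : U * E * (1 - E) = 0 := by
        rw [mul_assoc, mul_sub, mul_one, h2, sub_self, mul_zero]
      have a3 : (1 - E) * (E * star U) = 0 := by
        rw [← mul_assoc, sub_mul, one_mul, h2, sub_self, zero_mul]
      have a4 : (1 - E) * (1 - E) = 1 - E := hE.one_sub.isIdempotentElem.eq
      rw [sub_mul, mul_sub _ (E * star U), mul_sub _ (E * star U), a1, a2, a3, a4]
      abel
  let W : Fin m → Sp m p → Matrix ι ι ℂ := fun v σ =>
    J * star (Sig ty f (A (some (v, false))) σ) * J * α v * Sig ty f (A (some (v, true))) σ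
  have hW : ∀ v, Word ((Matrix.of fun v j => ∑ d with ty d = j, exC v (clD d)) v) (W v) := by
    intro v
    have := ((((Word.const J hJ).mul (Sig_word ty f hf (A (some (v, false)))).star).mul
      (Word.const J hJ)).mul (Word.const _ (hα v))).mul (Sig_word ty f hf (A (some (v, true))))
    convert this using 1
    funext j
    simp only [of_apply, exC, Finset.sum_sub_distrib, zero_add, add_zero, Pi.add_apply,
      Pi.neg_apply, Finset.sum_apply, A, Finset.sum_filter]
    rw [sub_eq_neg_add]
    congr 1
    · congr 1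
      refine Finset.sum_congr rfl fun d _ => ?_
      by_cases h1 : ty d = j <;> by_cases h2 : clD d = some (v, false) <;> simp [h1, h2]
    · refine Finset.sum_congr rfl fun d _ => ?_
      by_cases h1 : ty d = j <;> by_cases h2 : clD d = some (v, true) <;> simp [h1, h2]
  obtain ⟨σ, hσ, hQ⟩ := hD ι m p f₀ f₁ h01 _ hdet W hW
  choose Q hQp hQt hQW using hQ
  refine ⟨σ, hσ, ?_⟩
  set S := Sig ty f Finset.univ σ with hS
  have hSu : S ∈ unitary (Matrix ι ι ℂ) := (Sig_word ty f hf _).mem_unitary hσ
  have hSE : ∀ x, S * Ecl cl x = Sig ty f (A x) σ * Ecl cl x := by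
    intro x
    rw [hS, Sig_mul_Ecl ty f cl clD hcl, Sig_mul_Ecl ty f cl clD hcl, Finset.filter_filter]
    simp
  have hSE' : ∀ x, (1 - Ecl cl x) * Sig ty f (A x) σ = 1 - Ecl cl x := by
    intro x
    rw [sub_mul, one_mul, Ecl_mul_Sig ty f cl clD hcl, Finset.filter_filter, Sig]
    simp [A]
  have hSE'' : ∀ x, (1 - Ecl cl x) * star (Sig ty f (A x) σ) = 1 - Ecl cl x := by
    intro x
    have h1 : Sig ty f (A x) σ * star (Sig ty f (A x) σ) = 1 :=
      ((Sig_word ty f hf _).mem_unitary hσ).2
    rw [← hSE', mul_assoc, h1, mul_one, hSE']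
  have hsSE : ∀ x, star S * Ecl cl x = star (Sig ty f (A x) σ) * Ecl cl x := by
    intro x
    have := congrArg star (hSE x)
    rw [star_mul, star_mul, (Ecl_proj cl x).isSelfAdjoint.star_eq] at this
    rw [hS, star_Sig_comm_Ecl ty f cl clD hcl, star_Sig_comm_Ecl ty f cl clD hcl]
    exact this
  set M' := star S * M * S with hM'
  have hMs : star M = M := by
    have h1 : star M * M = 1 := hM.1
    rw [← mul_one (star M), ← hMM, ← mul_assoc, h1, one_mul]
  have hM's : star M' = M' := by simp [hM', hMs, mul_assoc]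
  have hM'M' : M' * M' = 1 := by
    have h1 : S * star S = 1 := hSu.2
    have h2 : star S * S = 1 := hSu.1
    calc M' * M' = star S * (M * (S * star S) * M) * S := by simp only [hM', mul_assoc]
      _ = 1 := by rw [h1, mul_one, hMM, mul_one, h2]
  have hM'E : ∀ x, M' * Ecl cl x = Ecl cl (negC x) * M' := by
    intro x
    rw [hM', mul_assoc, hS, Sig_comm_Ecl ty f cl clD hcl, ← mul_assoc, mul_assoc _ M, hME,
      ← mul_assoc, star_Sig_comm_Ecl ty f cl clD hcl]
    simp only [mul_assoc]
  have hM'0 : M' * Ecl cl none = Ecl cl none := by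
    have h2 : star S * S = 1 := hSu.1
    rw [hM', mul_assoc, hS, Sig_comm_Ecl ty f cl clD hcl, ← mul_assoc, mul_assoc _ M, hM0,
      star_Sig_comm_Ecl ty f cl clD hcl, mul_assoc, ← hS, h2, mul_one]
  have hEQ : ∀ v, Ecl cl (some (v, true)) * Q v = Q v := by
    intro v
    have hE := Ecl_proj cl (some (v, true))
    have h1 : (1 - Ecl cl (some (v, true))) * J = J * (1 - Ecl cl (some (v, false))) := by
      rw [sub_mul, mul_sub, hJE]; simp [negC]
    have h1' : (1 - Ecl cl (some (v, false))) * J = J * (1 - Ecl cl (some (v, true))) := by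
      rw [sub_mul, mul_sub, hJE]; simp [negC]
    have h2 : (1 - Ecl cl (some (v, true))) * α v = -(1 - Ecl cl (some (v, true))) := by
      simp only [α]
      rw [mul_sub, hJM, ← mul_assoc, hE.one_sub_mul_self, hE.one_sub.isIdempotentElem.eq]
      simp
    have h3 : (1 - Ecl cl (some (v, true))) * W v σ = -(1 - Ecl cl (some (v, true))) := by
      simp only [W, ← mul_assoc]
      rw [h1, mul_assoc J, hSE'', mul_assoc J, h1', ← mul_assoc J, hJJ, one_mul, h2, neg_mul, hSE']
    have h4 : (1 - Ecl cl (some (v, true))) * Q v = -((1 - Ecl cl (some (v, true))) * Q v) := by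
      conv_lhs => rw [← hQW v, ← mul_assoc, h3, neg_mul]
    have h5 : (1 - Ecl cl (some (v, true))) * Q v = 0 := by
      have : (2 : ℂ) • ((1 - Ecl cl (some (v, true))) * Q v) = 0 := by
        rw [two_smul]; nth_rewrite 1 [h4]; simp
      simpa using this
    rw [sub_mul, one_mul, sub_eq_zero] at h5
    exact h5.symm
  have hVQ : ∀ v, J * M' * Q v = Q v := by
    intro v
    have hE := Ecl_proj cl (some (v, true))
    have h2 : α v * Ecl cl (some (v, true)) = J * M * Ecl cl (some (v, true)) := by
      simp only [α]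
      rw [sub_mul, mul_assoc _ (Ecl _ _), hE.isIdempotentElem.eq, hE.one_sub_mul_self, sub_zero]
    have h1 : J * M' * Ecl cl (some (v, true)) = W v σ * Ecl cl (some (v, true)) := by
      calc J * M' * Ecl cl (some (v, true))
          = J * star S * M * (S * Ecl cl (some (v, true))) := by simp only [hM', mul_assoc]
        _ = J * star S * (M * Ecl cl (some (v, true))) * Sig ty f (A (some (v, true))) σ := by
          rw [hSE, Sig_comm_Ecl ty f cl clD hcl]; simp only [mul_assoc]
        _ = J * (star S * Ecl cl (some (v, false))) * M * Sig ty f (A (some (v, true))) σ := by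
          rw [hME]; simp only [mul_assoc, negC, Bool.not_true]
        _ = J * star (Sig ty f (A (some (v, false))) σ) * (Ecl cl (negC (some (v, true))) * M) *
            Sig ty f (A (some (v, true))) σ := by
          rw [hsSE]; simp only [mul_assoc, negC, Bool.not_true]
        _ = J * star (Sig ty f (A (some (v, false))) σ) * (J * J) * M * Ecl cl (some (v, true)) *
            Sig ty f (A (some (v, true))) σ := by
          rw [← hME, hJJ]; simp only [mul_assoc, mul_one]
        _ = J * star (Sig ty f (A (some (v, false))) σ) * J * (α v * Ecl cl (some (v, true))) *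
            Sig ty f (A (some (v, true))) σ := by
          rw [h2]; simp only [mul_assoc]
        _ = _ := by
          simp only [W, mul_assoc]
          rw [Sig_comm_Ecl ty f cl clD hcl]
    rw [← hEQ v, ← mul_assoc, h1, mul_assoc, hEQ, hQW]
  clear_value M'
  let q : Option (Fin m × Bool) → Matrix ι ι ℂ := fun x =>
    match x with
    | none => Ecl cl none
    | some (v, true) => Q v
    | some (v, false) => M' * Q v * M'
  have hq : ∀ x, IsStarProjection (q x) := by
    rintro (_ | ⟨v, _ | _⟩)
    · exact Ecl_proj cl none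
    · constructor
      · change M' * Q v * M' * (M' * Q v * M') = M' * Q v * M'
        calc M' * Q v * M' * (M' * Q v * M') = M' * (Q v * (M' * M') * Q v) * M' := by
              simp only [mul_assoc]
          _ = _ := by rw [hM'M', mul_one, (hQp v).isIdempotentElem.eq]
      · change star (M' * Q v * M') = M' * Q v * M'
        rw [star_mul, star_mul, hM's, (hQp v).isSelfAdjoint.star_eq, mul_assoc]
    · exact hQp v
  have hEq : ∀ x, Ecl cl x * q x = q x := by
    rintro (_ | ⟨v, _ | _⟩)
    · exact (Ecl_proj cl none).isIdempotentElem.eq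
    · change Ecl cl (negC (some (v, true))) * (M' * Q v * M') = M' * Q v * M'
      rw [← mul_assoc, ← mul_assoc, ← hM'E, mul_assoc M', hEQ]
    · exact hEQ v
  have hqE : ∀ x, q x * Ecl cl x = q x := by
    intro x
    have := congrArg star (hEq x)
    rwa [star_mul, (hq x).isSelfAdjoint.star_eq, (Ecl_proj cl x).isSelfAdjoint.star_eq] at this
  refine ⟨∑ x, q x, CostLemmas.sum_proj _ _ (fun x _ => hq x) fun x _ y _ hxy => ?_, ?_, ?_⟩
  · rw [← hqE x, ← hEq y, mul_assoc, ← mul_assoc (Ecl _ _), Ecl_orth cl hxy]; simp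
  · have h1 : ∀ v, (M' * Q v * M').trace = p := by
      intro v
      rw [trace_mul_comm, ← mul_assoc, hM'M', one_mul, hQt]
    rw [trace_sum, Fintype.sum_option, Fintype.sum_prod_type]
    simp only [q, Fintype.sum_bool, h1, hQt, Ecl, trace_diagonal]
    simp
    ring
  · rw [Finset.mul_sum]
    refine Finset.sum_congr rfl ?_
    rintro (_ | ⟨v, _ | _⟩) -
    · change J * M' * Ecl cl none = Ecl cl none
      rw [mul_assoc, hM'0, hJ0]
    · change J * M' * (M' * Q v * M') = M' * Q v * M'
      have : M' * Q v = J * Q v := by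
        conv_rhs => rw [← hVQ v, ← mul_assoc, ← mul_assoc, hJJ, one_mul]
      calc J * M' * (M' * Q v * M') = J * (M' * M') * Q v * M' := by simp only [mul_assoc]
        _ = _ := by rw [hM'M', mul_one, this]
    · exact hVQ v

end

end Crest.Agent.R174
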