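import Crest.Agent.R174.Defs

/-!
# Row 174 (S0262): Lemma P, the Fejér trace inequality

A positive rotation path from `1` to `e^{-iη}` costs at least `(2π - η) τ(1)`.
-/

set_option autoImplicit false
set_option linter.unusedSectionVars false

namespace Crest.Agent.R174

open Monoid Matrix MeasureTheory Real

universe u

namespace LemmaP

/-- The Fejér identity, tested against a real additive functional that is star invariant. -/
theorem fejer {R : Type*} [Ring R] [StarRing R] (φ : R →+ ℝ) (hφ : ∀ a, φ (star a) = φ a)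
    (u : R) (hu : star u * u = 1) (n : ℕ) :
    φ (star (∑ j ∈ Finset.range n, u ^ j) * ∑ j ∈ Finset.range n, u ^ j) =
      ∑ j ∈ Finset.range n, 2 * ((n : ℝ) - j) * φ (u ^ j) - n * φ 1 := by
  induction n with
  | zero => simp
  | succ n ih =>
    set S := ∑ j ∈ Finset.range n, u ^ j with hS
    have h1 : ∑ j ∈ Finset.range (n + 1), u ^ j = 1 + u * S := by
      rw [Finset.sum_range_succ', hS, Finset.mul_sum, pow_zero, add_comm]
      congr 1
      exact Finset.sum_congr rfl fun j _ => pow_succ' u j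
    have h2 : star (1 + u * S) * (1 + u * S) =
        star S * S + (1 + u * S) + star (1 + u * S) - 1 := by
      have : star S * star u * (u * S) = star S * S := by
        rw [mul_assoc, ← mul_assoc (star u), hu, one_mul]
      rw [star_add, star_one, star_mul, add_mul, mul_add, mul_add, this]
      noncomm_ring
    have h3 : φ (1 + u * S) = ∑ j ∈ Finset.range (n + 1), φ (u ^ j) := by
      rw [← h1, map_sum]
    have h4 : ∑ j ∈ Finset.range (n + 1), 2 * (((n + 1 : ℕ) : ℝ) - j) * φ (u ^ j) =
        ∑ j ∈ Finset.range n, 2 * ((n : ℝ) - j) * φ (u ^ j) +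
          2 * ∑ j ∈ Finset.range (n + 1), φ (u ^ j) := by
      have : ∑ j ∈ Finset.range n, 2 * ((n : ℝ) - j) * φ (u ^ j) =
          ∑ j ∈ Finset.range (n + 1), 2 * ((n : ℝ) - j) * φ (u ^ j) := by
        rw [Finset.sum_range_succ]; simp
      rw [this, Finset.mul_sum, ← Finset.sum_add_distrib]
      refine Finset.sum_congr rfl fun j _ => ?_
      push_cast; ring
    rw [h1, h2, map_sub, map_add, map_add, hφ, h3, ih, h4]
    push_cast; ring

variable {R : Type*} [Ring R] [StarRing R] [Algebra ℂ R]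

/-- The formal derivative of `u ^ j` in the direction `D`. -/
def dpow (u D : R) : ℕ → R
  | 0 => 0
  | j + 1 => D * u ^ j + u * dpow u D j

theorem dpow_zero (u D : R) : dpow u D 0 = 0 := rfl

theorem dpow_succ (u D : R) (j : ℕ) : dpow u D (j + 1) = D * u ^ j + u * dpow u D j := rfl

theorem tr_dpow (T : Tr R) (u E : R) (j k : ℕ) :
    T.τ (u ^ k * dpow u (E * u) j) = j * T.τ (E * u ^ (k + j)) := by
  induction j generalizing k with
  | zero => simp [dpow_zero]
  | succ j ih =>
    rw [dpow_succ, mul_add, map_add, ← mul_assoc (u ^ k) u, ← pow_succ, ih, T.comm]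
    have e1 : E * u * u ^ j * u ^ k = E * u ^ (k + (j + 1)) := by
      rw [mul_assoc, mul_assoc, ← pow_add, ← pow_succ']
      congr 2; omega
    have e2 : k + 1 + j = k + (j + 1) := by omega
    rw [e1, e2]; push_cast; ring

theorem hasDerivAt_e (s : ℝ) :
    HasDerivAt (fun s : ℝ => Complex.exp (s * Complex.I))
      (Complex.exp (s * Complex.I) * Complex.I) s := by
  have h1 : HasDerivAt (fun s : ℝ => (s : ℂ) * Complex.I) Complex.I s := by
    simpa using (Complex.ofRealCLM.hasDerivAt (x := s)).mul_const Complex.I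
  exact h1.cexp

theorem hasDerivAt_pow (T : Tr R) (A B : R) (j : ℕ) (a : R) (s : ℝ) :
    HasDerivAt (fun s : ℝ => T.τ (a * (A + Complex.exp (s * Complex.I) • B) ^ j))
      (T.τ (a * dpow (A + Complex.exp (s * Complex.I) • B)
        ((Complex.exp (s * Complex.I) * Complex.I) • B) j)) s := by
  induction j generalizing a with
  | zero => simpa [dpow_zero] using hasDerivAt_const s (T.τ a)
  | succ j ih =>
    have e : (fun s : ℝ => T.τ (a * (A + Complex.exp (s * Complex.I) • B) ^ (j + 1))) =
        fun s : ℝ => T.τ (a * A * (A + Complex.exp (s * Complex.I) • B) ^ j) +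
          Complex.exp (s * Complex.I) *
            T.τ (a * B * (A + Complex.exp (s * Complex.I) • B) ^ j) := by
      funext s
      rw [pow_succ']
      generalize (A + Complex.exp (s * Complex.I) • B) ^ j = w
      simp only [add_mul, mul_add, smul_mul_assoc, mul_smul_comm, mul_assoc, map_add, map_smul,
        smul_eq_mul]
    rw [e]
    refine ((ih (a * A)).add ((hasDerivAt_e s).mul (ih (a * B)))).congr_deriv ?_
    rw [dpow_succ]
    generalize (A + Complex.exp (s * Complex.I) • B) ^ j = w
    generalize dpow (A + Complex.exp (s * Complex.I) • B)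
      ((Complex.exp (s * Complex.I) * Complex.I) • B) j = d
    simp only [add_mul, mul_add, smul_mul_assoc, mul_smul_comm, mul_assoc, map_add, map_smul,
      smul_eq_mul]
    ring

/-- The rotation path. -/
noncomputable def rt (p u : R) (s : ℝ) : R := (1 + (Complex.exp (s * Complex.I) - 1) • p) * u

theorem rt_zero (p u : R) : rt p u 0 = u := by simp [rt]

theorem hasDerivAt_rt (T : Tr R) {p : R} (hp : IsStarProjection p) (u : R) (j : ℕ) (s : ℝ) :
    HasDerivAt (fun s : ℝ => T.τ (rt p u s ^ j))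
      (j * (Complex.I * T.τ (p * rt p u s ^ j))) s := by
  have hpp : p * p = p := hp.isIdempotentElem
  have e : ∀ s : ℝ, rt p u s = (u - p * u) + Complex.exp (s * Complex.I) • (p * u) := by
    intro s
    simp only [rt, add_mul, one_mul, smul_mul_assoc, sub_smul, one_smul, sub_mul]
    abel
  have e2 : (Complex.exp (s * Complex.I) * Complex.I) • (p * u) = (Complex.I • p) * rt p u s := by
    rw [e s]
    simp only [mul_add, mul_sub, smul_mul_assoc, mul_smul_comm, ← mul_assoc, hpp, sub_self,
      zero_add, smul_smul]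
  have h := hasDerivAt_pow T (u - p * u) (p * u) j 1 s
  rw [← e s, e2] at h
  have h2 := tr_dpow T (rt p u s) (Complex.I • p) j 0
  rw [pow_zero] at h2
  rw [h2] at h
  simp only [one_mul, ← e, zero_add, smul_mul_assoc, map_smul, smul_eq_mul] at h
  exact h

/-- The Fejér mean (times `n`) of the argument. -/
noncomputable def H (T : Tr R) (n : ℕ) (u : R) : ℝ :=
  ∑ j ∈ Finset.range n, ((n : ℝ) - j) * (2 / j) * (T.τ (u ^ j)).im

theorem sum_aux (n : ℕ) (f : ℕ → ℝ) :
    ∑ j ∈ Finset.range n, ((n : ℝ) - j) * (2 / j) * (j * f j) =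
      ∑ j ∈ Finset.range n, 2 * ((n : ℝ) - j) * f j - 2 * n * f 0 := by
  rcases n with _ | n
  · simp
  · rw [Finset.sum_range_succ', Finset.sum_range_succ' (fun j => 2 * (((n + 1 : ℕ) : ℝ) - j) * f j)]
    have : ∑ k ∈ Finset.range n, (((n + 1 : ℕ) : ℝ) - ((k + 1 : ℕ) : ℝ)) * (2 / ((k + 1 : ℕ) : ℝ)) *
        (((k + 1 : ℕ) : ℝ) * f (k + 1)) =
        ∑ k ∈ Finset.range n, 2 * (((n + 1 : ℕ) : ℝ) - ((k + 1 : ℕ) : ℝ)) * f (k + 1) := by
      refine Finset.sum_congr rfl fun k _ => ?_
      have : ((k + 1 : ℕ) : ℝ) ≠ 0 := by positivity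
      field_simp
    rw [this]
    simp

variable [StarModule ℂ R]

theorem exp_unit (s : ℝ) :
    star (Complex.exp (s * Complex.I)) * Complex.exp (s * Complex.I) = 1 := by
  rw [Complex.star_def, ← Complex.exp_conj, ← Complex.exp_add]
  simp

theorem rt_unit {p : R} (hp : IsStarProjection p) {u : R} (hu : star u * u = 1) (s : ℝ) :
    star (rt p u s) * rt p u s = 1 := by
  have hpp : p * p = p := hp.isIdempotentElem
  have hs : star p = p := hp.isSelfAdjoint
  have he := exp_unit s
  unfold rt
  set e := Complex.exp (s * Complex.I)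
  have : star (1 + (e - 1) • p) * (1 + (e - 1) • p) = 1 := by
    rw [star_add, star_one, star_smul, hs]
    simp only [add_mul, mul_add, one_mul, mul_one, smul_mul_assoc, mul_smul_comm, hpp, smul_add,
      smul_smul]
    rw [add_assoc, ← add_smul, ← add_smul]
    have : star (e - 1) + (e - 1 + (e - 1) * star (e - 1)) = 0 := by
      rw [star_sub, star_one]; linear_combination he
    rw [this, zero_smul, add_zero]
  rw [star_mul, mul_assoc, ← mul_assoc (star (1 + (e - 1) • p)), this, one_mul, hu]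

theorem H_rt (T : Tr R) (n : ℕ) {p : R} (hp : IsStarProjection p) {u : R} (hu : star u * u = 1)
    {s : ℝ} (hs : 0 ≤ s) : H T n u ≤ H T n (rt p u s) + n * (s * (T.τ p).re) := by
  have hpp : p * p = p := hp.isIdempotentElem
  have hps : star p = p := hp.isSelfAdjoint
  let φ : R →+ ℝ :=
    { toFun := fun a => (T.τ (p * a)).re
      map_zero' := by simp
      map_add' := fun a b => by simp [mul_add] }
  have hφ : ∀ a, φ (star a) = φ a := by
    intro a
    change (T.τ (p * star a)).re = (T.τ (p * a)).re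
    have : p * star a = star (a * p) := by rw [star_mul, hps]
    rw [this, T.map_star, T.comm]
    simp
  have hpos : ∀ a, 0 ≤ φ (star a * a) := by
    intro a
    change 0 ≤ (T.τ (p * (star a * a))).re
    have : T.τ (p * (star a * a)) = T.τ (star (a * p) * (a * p)) := by
      rw [star_mul, hps, ← mul_assoc (p * star a), T.comm (p * star a * a) p, ← mul_assoc,
        ← mul_assoc, ← mul_assoc, hpp]
    rw [this]
    exact T.pos _
  have hd : ∀ t : ℝ, HasDerivAt (fun t : ℝ => H T n (rt p u t) + n * (t * (T.τ p).re))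
      (φ (star (∑ j ∈ Finset.range n, rt p u t ^ j) * ∑ j ∈ Finset.range n, rt p u t ^ j)) t := by
    intro t
    have h1 : ∀ j ∈ Finset.range n, HasDerivAt
        (fun t : ℝ => ((n : ℝ) - j) * (2 / j) * (T.τ (rt p u t ^ j)).im)
        (((n : ℝ) - j) * (2 / j) * (j * φ (rt p u t ^ j))) t := by
      intro j _
      have h := Complex.imCLM.hasFDerivAt.comp_hasDerivAt t (hasDerivAt_rt T hp u j t)
      refine HasDerivAt.const_mul _ (h.congr_deriv ?_)
      simp [φ]
    have h2 := (HasDerivAt.fun_sum h1).add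
      (((hasDerivAt_id t).mul_const (T.τ p).re).const_mul (n : ℝ))
    refine h2.congr_deriv ?_
    rw [fejer φ hφ _ (rt_unit hp hu t), sum_aux n (fun j => φ (rt p u t ^ j))]
    have : φ 1 = (T.τ p).re := by simp [φ]
    simp only [pow_zero, this]
    ring
  have hm : Monotone (fun t : ℝ => H T n (rt p u t) + n * (t * (T.τ p).re)) :=
    monotone_of_hasDerivAt_nonneg hd (fun t => hpos _)
  have := hm hs
  simpa [rt_zero] using this

theorem H_cost (T : Tr R) (n : ℕ) {u : R} {c : ℝ} (h : Cost T u c) (ζ : ℂ)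
    (hζ : star ζ * ζ = 1) :
    star (ζ • u) * (ζ • u) = 1 ∧ H T n (ζ • (1 : R)) ≤ H T n (ζ • u) + n * c := by
  induction h with
  | one =>
    refine ⟨?_, by simp⟩
    rw [star_smul, smul_mul_smul_comm, hζ]; simp
  | @rot p hp s hs u c _ ih =>
    have e : ζ • ((1 + (Complex.exp (s * Complex.I) - 1) • p) * u) = rt p (ζ • u) s := by
      rw [rt, mul_smul_comm]
    rw [e]
    refine ⟨rt_unit hp ih.1 s, ?_⟩
    have := H_rt T n hp ih.1 hs
    have h2 := ih.2
    linarith

/-- The scalar Fejér mean. -/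
noncomputable def hh (n : ℕ) (θ : ℝ) : ℝ :=
  ∑ j ∈ Finset.range n, ((n : ℝ) - j) * (2 / j) * Real.sin (j * θ)

omit [StarModule ℂ R] in
theorem H_scalar (T : Tr R) (n : ℕ) (θ : ℝ) :
    H T n (Complex.exp (θ * Complex.I) • (1 : R)) = hh n θ * (T.τ 1).re := by
  have h1 : (T.τ 1).im = 0 := by
    have := congrArg Complex.im (T.map_star 1)
    rw [star_one] at this
    simp only [Complex.star_def, Complex.conj_im] at this
    linarith
  rw [H, hh, Finset.sum_mul]
  refine Finset.sum_congr rfl fun j _ => ?_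
  rw [_root_.smul_pow, one_pow, map_smul, smul_eq_mul, ← Complex.exp_nat_mul, Complex.mul_im, h1,
    ← mul_assoc (j : ℂ)]
  have : ((j : ℂ) * θ) = ((j * θ : ℝ) : ℂ) := by push_cast; ring
  rw [this, Complex.exp_ofReal_mul_I_im]
  ring

theorem hh_neg (n : ℕ) (θ : ℝ) : hh n (-θ) = -hh n θ := by
  rw [hh, hh, ← Finset.sum_neg_distrib]
  refine Finset.sum_congr rfl fun j _ => ?_
  rw [mul_neg, Real.sin_neg]; ring

theorem hh_pi (n : ℕ) : hh n π = 0 := by
  rw [hh]
  refine Finset.sum_eq_zero fun j _ => ?_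
  rw [Real.sin_nat_mul_pi, mul_zero]

theorem hasDerivAt_hh (n : ℕ) (s : ℝ) :
    HasDerivAt (hh n)
      (‖∑ j ∈ Finset.range n, Complex.exp (s * Complex.I) ^ j‖ ^ 2 - n) s := by
  have h1 : ∀ j ∈ Finset.range n, HasDerivAt
      (fun t : ℝ => ((n : ℝ) - j) * (2 / j) * Real.sin (j * t))
      (((n : ℝ) - j) * (2 / j) * (j * Real.cos (j * s))) s := by
    intro j _
    have h := ((hasDerivAt_id s).const_mul (j : ℝ)).sin
    refine HasDerivAt.const_mul _ (h.congr_deriv ?_)
    simp [mul_comm]
  refine (HasDerivAt.fun_sum h1).congr_deriv ?_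
  have hf := fejer (R := ℂ) Complex.reAddGroupHom (by simp) _ (exp_unit s) n
  have e1 : ∀ z : ℂ, Complex.reAddGroupHom (star z * z) = ‖z‖ ^ 2 := by
    intro z
    rw [Complex.star_def, Complex.conj_mul']
    simp only [Complex.coe_reAddGroupHom]
    norm_cast
  have e2 : ∀ j : ℕ, Complex.reAddGroupHom (Complex.exp (s * Complex.I) ^ j) =
      Real.cos (j * s) := by
    intro j
    have : ((j : ℂ) * s) = ((j * s : ℝ) : ℂ) := by push_cast; ring
    rw [← Complex.exp_nat_mul, ← mul_assoc, this]
    exact Complex.exp_ofReal_mul_I_re _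
  rw [e1] at hf
  simp only [e2] at hf
  rw [hf, sum_aux n (fun j => Real.cos (j * s))]
  simp
  ring

theorem fejer_bound (n : ℕ) (s : ℝ) :
    ‖∑ j ∈ Finset.range n, Complex.exp (s * Complex.I) ^ j‖ ^ 2 * (1 - Real.cos s) ≤ 2 := by
  have h1 := geom_sum_mul (Complex.exp (s * Complex.I)) n
  have h2 : ‖Complex.exp (s * Complex.I) ^ n - 1‖ ≤ 2 := by
    refine (norm_sub_le _ _).trans ?_
    rw [norm_pow, Complex.norm_exp_ofReal_mul_I]
    norm_num
  have h3 : ‖Complex.exp (s * Complex.I) - 1‖ ^ 2 = 2 * (1 - Real.cos s) := by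
    rw [Complex.sq_norm, Complex.normSq_apply]
    simp only [Complex.sub_re, Complex.sub_im, Complex.exp_ofReal_mul_I_re,
      Complex.exp_ofReal_mul_I_im, Complex.one_re, Complex.one_im]
    linear_combination Real.sin_sq_add_cos_sq s
  rw [← h1, norm_mul] at h2
  have h4 := pow_le_pow_left₀ (by positivity) h2 2
  rw [mul_pow, h3] at h4
  linarith

theorem hh_lower (n : ℕ) {θ : ℝ} (h0 : 0 < θ) (h1 : θ < π) :
    ((n : ℝ) - 2 / (1 - Real.cos θ)) * (π - θ) ≤ hh n θ := by
  have hc : Real.cos θ < 1 := by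
    have := Real.cos_lt_cos_of_nonneg_of_le_pi le_rfl h1.le h0
    simpa using this
  set C := 2 / (1 - Real.cos θ) with hC
  have hd : ∀ s : ℝ, HasDerivAt (fun s => hh n s + (n - C) * s)
      (‖∑ j ∈ Finset.range n, Complex.exp (s * Complex.I) ^ j‖ ^ 2 - C) s := by
    intro s
    refine ((hasDerivAt_hh n s).add ((hasDerivAt_id s).const_mul ((n : ℝ) - C))).congr_deriv ?_
    ring
  have ha : AntitoneOn (fun s => hh n s + (n - C) * s) (Set.Icc θ π) := by
    refine antitoneOn_of_deriv_nonpos (convex_Icc _ _)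
      (fun s _ => (hd s).continuousAt.continuousWithinAt)
      (fun s _ => (hd s).differentiableAt.differentiableWithinAt) ?_
    intro s hs
    rw [interior_Icc] at hs
    rw [(hd s).deriv, sub_nonpos, hC, le_div_iff₀ (by linarith)]
    have hcs : Real.cos s ≤ Real.cos θ :=
      Real.cos_le_cos_of_nonneg_of_le_pi h0.le hs.2.le hs.1.le
    refine le_trans ?_ (fejer_bound n s)
    exact mul_le_mul_of_nonneg_left (by linarith) (by positivity)
  have := ha ⟨le_rfl, h1.le⟩ ⟨h1.le, le_rfl⟩ h1.le
  simp only [hh_pi] at this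
  linarith

end LemmaP

open LemmaP in
/-- **Lemma P.** -/
theorem lemmaP {R : Type*} [Ring R] [StarRing R] [Algebra ℂ R] [StarModule ℂ R] (T : Tr R)
    (η c : ℝ) (h0 : 0 < η) (h1 : η < 2 * π)
    (h : Cost T (Complex.exp (-(η * Complex.I)) • (1 : R)) c) :
    (2 * π - η) * (T.τ 1).re ≤ c := by
  have hτ : 0 ≤ (T.τ 1).re := by simpa using T.pos 1
  set C := 2 / (1 - Real.cos (η / 2)) with hC
  set X := (2 * π - η) * (T.τ 1).re with hX
  have key : ∀ n : ℕ, (n - C) * X ≤ n * c := by
    intro n
    have h2 := (H_cost T n h _ (exp_unit (η / 2))).2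
    have e : Complex.exp (((η / 2 : ℝ) : ℂ) * Complex.I) • Complex.exp (-(η * Complex.I)) • (1 : R) =
        Complex.exp (((-(η / 2) : ℝ) : ℂ) * Complex.I) • (1 : R) := by
      rw [smul_smul, ← Complex.exp_add]
      congr 2
      push_cast; ring
    rw [e, H_scalar, H_scalar, hh_neg] at h2
    have h3 := mul_le_mul_of_nonneg_right
      (hh_lower n (θ := η / 2) (by linarith) (by linarith)) hτ
    rw [← hC] at h3
    have e2 : (n - C) * X = 2 * ((n - C) * (π - η / 2) * (T.τ 1).re) := by rw [hX]; ring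
    rw [e2]
    linarith
  by_contra hlt
  rw [not_le] at hlt
  obtain ⟨n, hn⟩ := exists_nat_gt (C * X / (X - c))
  rw [div_lt_iff₀ (by linarith)] at hn
  have := key n
  linarith

end Crest.Agent.R174
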