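import Crest.Agent.R174.Outer
import Crest.Agent.R174.Fixed
import Crest.Agent.R174.LemmaP

/-!
# Row 174, part C3: the cost count
-/

set_option autoImplicit false
set_option maxHeartbeats 400000

namespace Crest.Agent.R174

open Equiv Real

variable {G : Type*} [Group G] {m : ℕ}
variable {R : Type*} [Ring R] [StarRing R] [Algebra ℂ R] [StarModule ℂ R]
variable {ι : Type} [Fintype ι] [DecidableEq ι] {T : Tr R}

/-- Complex matrices inside matrices over `R`. -/
noncomputable def phi (R : Type*) [Ring R] [StarRing R] [Algebra ℂ R] [StarModule ℂ R]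
    (ι : Type) [Fintype ι] [DecidableEq ι] : Matrix ι ι ℂ →⋆ₐ[ℂ] Matrix ι ι R :=
  { (Algebra.ofId ℂ R).mapMatrix with
    map_star' := fun a => by
      ext i j
      simp [Matrix.star_apply, Algebra.ofId_apply, ← algebraMap_star_comm] }

theorem phi_apply (a : Matrix ι ι ℂ) (i j : ι) : phi R ι a i j = a i j • (1 : R) :=
  Algebra.algebraMap_eq_smul_one _

theorem tau_phi (hT : T.τ 1 = 1) (a : Matrix ι ι ℂ) : (T.matrix ι).τ (phi R ι a) = a.trace := by
  simp [Tr.matrix_τ, phi_apply, hT, Matrix.trace]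

/-- Complex unitaries inside unitaries over `R`. -/
noncomputable def phiU (R : Type*) [Ring R] [StarRing R] [Algebra ℂ R] [StarModule ℂ R]
    (ι : Type) [Fintype ι] [DecidableEq ι] :
    unitary (Matrix ι ι ℂ) →* unitary (Matrix ι ι R) where
  toFun a := ⟨phi R ι a, by
    constructor
    · rw [← map_star, ← map_mul, a.2.1, map_one]
    · rw [← map_star, ← map_mul, a.2.2, map_one]⟩
  map_one' := Subtype.ext (map_one (phi R ι))
  map_mul' a b := Subtype.ext (map_mul (phi R ι) _ _)

theorem phiU_val (a : unitary (Matrix ι ι ℂ)) :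
    ((phiU R ι a : unitary (Matrix ι ι R)) : Matrix ι ι R) = phi R ι a := rfl

theorem phiU_PM (σ : Perm ι) : phiU R ι (PM ℂ σ) = PM R σ := by
  refine Subtype.ext (Matrix.ext fun i j => ?_)
  rw [phiU_val, phi_apply, PM_val, PM_val, pm, pm, Matrix.of_apply, Matrix.of_apply]
  split_ifs <;> simp

theorem phiU_DG (z : ι → Circle) :
    phiU R ι (DG fun i => sc ℂ (z i)) = DG fun i => sc R (z i) := by
  refine Subtype.ext (Matrix.ext fun i j => ?_)
  rw [phiU_val, phi_apply, DG_val, DG_val, Matrix.diagonal_apply, Matrix.diagonal_apply]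
  split_ifs
  · rw [sc_val, sc_val]; simp
  · simp

theorem phiU_comm_DG {Λ : Type*} (lab : ι → Λ) (a : unitary (Matrix ι ι ℂ))
    (ha : ∀ i j, (a : Matrix ι ι ℂ) i j ≠ 0 → lab i = lab j) (β : Λ → unitary R) :
    Commute (phiU R ι a) (DG fun i => β (lab i)) := by
  refine Subtype.ext (Matrix.ext fun i j => ?_)
  rw [Submonoid.coe_mul, Submonoid.coe_mul, phiU_val, DG_val, Matrix.mul_diagonal,
    Matrix.diagonal_mul, phi_apply]
  by_cases h : (a : Matrix ι ι ℂ) i j = 0
  · simp [h]
  · simp [ha i j h]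

theorem comm_diagonal {Λ : Type*} (lab : ι → Λ) (a : Matrix ι ι ℂ)
    (ha : ∀ i j, a i j ≠ 0 → lab i = lab j) (β : Λ → ℂ) :
    a * (Matrix.diagonal fun i => β (lab i)) = (Matrix.diagonal fun i => β (lab i)) * a := by
  ext i j
  simp only [Matrix.mul_diagonal, Matrix.diagonal_mul]
  by_cases h : a i j = 0
  · simp [h]
  · simp [ha i j h, mul_comm]

theorem comm_of_fix {A : Type*} [Ring A] [StarRing A] {u v e : A} (hu : u ∈ unitary A)
    (hv : v ∈ unitary A) (he : IsStarProjection e) (h1 : u * e = e) (h2 : v * (1 - e) = 1 - e) :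
    u * v = v * u := by
  have key : ∀ {x f : A}, x ∈ unitary A → IsStarProjection f → x * f = f → f * x = f := by
    intro x f hx hf h
    have h3 := congrArg star h
    rw [star_mul, hf.isSelfAdjoint.star_eq] at h3
    have h4 : star x * x = 1 := hx.1
    rw [← h3, mul_assoc, h4, mul_one, h3]
  have h3 := key hu he h1
  have h4 := key hv he.one_sub h2
  have h5 : u * (1 - e) = (1 - e) * u := by rw [mul_sub, sub_mul, h1, h3, mul_one, one_mul]
  have h6 : v * e = e * v := by
    have : v * (1 - e) = (1 - e) * v := by rw [h2, h4]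
    rw [mul_sub, sub_mul, mul_one, one_mul] at this
    exact sub_right_injective this
  calc u * v = u * (e + (1 - e)) * v := by simp
    _ = e * v + u * (1 - e) := by rw [mul_add, add_mul, h1, mul_assoc, h4]
    _ = v * (e + (1 - e)) * u := by
      rw [mul_add, add_mul, mul_assoc, h3, h2, h5, h6]
    _ = v * u := by simp

omit [Algebra ℂ R] [StarModule ℂ R] in
theorem mono_invol {σ : Perm ι} {β : ι → unitary R} (h1 : σ * σ = 1)
    (h2 : ∀ i, β (σ i) * β i = 1) : PM R σ * DG β * (PM R σ * DG β) = 1 := by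
  have h3 : DG β * PM R σ = PM R σ * DG fun i => β (σ i) := by
    rw [PM_mul_DG]; simp
  have h4 : ((fun i => β (σ i)) * β) = 1 := funext h2
  calc PM R σ * DG β * (PM R σ * DG β) = PM R σ * (DG β * PM R σ) * DG β := by
        simp only [mul_assoc]
    _ = PM R (σ * σ) * DG ((fun i => β (σ i)) * β) := by
        rw [h3, map_mul, map_mul]; simp only [mul_assoc]
    _ = 1 := by rw [h1, h4, map_one, map_one, mul_one]

/-- The class of a letter. -/
def clL : Lt G m → Option (Fin m × Bool)
  | .inl _ => none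
  | .inr x => some x

theorem clL_inv (x : Lt G m) : clL x.inv = negC (clL x) := by
  rcases x with c | ⟨v, b⟩ <;> rfl

theorem negC_negC (x : Option (Fin m × Bool)) : negC (negC x) = x := by
  rcases x with _ | ⟨v, b⟩ <;> simp [negC]

theorem pm_Ecl {cl : ι → Option (Fin m × Bool)} {σ : Perm ι} (h : ∀ i, cl (σ i) = negC (cl i))
    (x : Option (Fin m × Bool)) : pm ℂ σ * Ecl cl x = Ecl cl (negC x) * pm ℂ σ := by
  rw [Ecl, pm_mul_diagonal, Ecl]
  congr 2
  funext i
  have h1 : cl i = negC (cl (σ⁻¹ i)) := by simpa using h (σ⁻¹ i)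
  have : cl (σ⁻¹ i) = x ↔ cl i = negC x := by
    rw [h1]
    exact ⟨fun h => by rw [h], fun h => by rw [← negC_negC (cl _), h, negC_negC]⟩
  simp only [this]

theorem pm_mul_diag_fix {σ : Perm ι} (δ : ι → ℂ) (h : ∀ i, δ i ≠ 0 → σ i = i) :
    pm ℂ σ * Matrix.diagonal δ = Matrix.diagonal δ := by
  ext i j
  simp only [pm, Matrix.mul_diagonal, Matrix.of_apply, Matrix.diagonal_apply]
  by_cases hj : δ j = 0
  · rw [hj, mul_zero]
    split_ifs with h1
    · rw [h1, hj]
    · rfl
  · rw [h j hj]
    split_ifs with h1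
    · rw [h1, one_mul]
    · rw [zero_mul]

theorem cost_order3 (hT : T.τ 1 = 1) (o : ι) {y : unitary R} (h3 : y ^ 3 = 1) (hτ : T.τ y = 0)
    (θ : ℝ) (h0 : 0 ≤ θ) (h1 : θ ≤ 2 * π / 3) :
    CostU T (DG (Pi.mulSingle o (sc R (Circle.exp θ)⁻¹ * y))) (4 * π / 3 - θ) := by
  have hy3 : (y : R) ^ 3 = 1 := congrArg Subtype.val h3
  have hys : star (y : R) = (y : R) ^ 2 := by
    have h4 : star (y : R) * y = 1 := y.2.1
    rw [← mul_one (star (y : R)), ← hy3, pow_succ', ← mul_assoc, h4, one_mul]
  have := Cost.order3 (T := T.matrix ι) (e := Matrix.diagonal (Pi.single o 1))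
    (x := Matrix.diagonal (Pi.single o (y : R))) ?_ ?_ ?_ ?_ ?_ θ h0 h1
  · unfold CostU
    convert this using 1
    · ext i j
      simp only [DG_val, Matrix.diagonal_apply, Matrix.add_apply, Matrix.sub_apply,
        Matrix.smul_apply, Matrix.one_apply]
      split_ifs with hij
      · by_cases hi : i = o
        · subst hi
          rw [Pi.mulSingle_eq_same, Submonoid.coe_mul, sc_val]
          simp [Circle.coe_exp, Complex.exp_neg]
        · simp [hi]
      · simp
    · rw [Tr.matrix_τ, Finset.sum_eq_single o] <;> simp +contextual [hT]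
  · constructor
    · change _ * _ = _
      rw [Matrix.diagonal_mul_diagonal]
      congr 1; funext i
      by_cases hi : i = o <;> simp [hi]
    · change star _ = _
      rw [Matrix.star_eq_conjTranspose, Matrix.diagonal_conjTranspose]
      congr 1; funext i
      by_cases hi : i = o <;> simp [hi]
  · rw [Matrix.diagonal_mul_diagonal]
    congr 1; funext i
    by_cases hi : i = o <;> simp [hi]
  · rw [Matrix.diagonal_pow]
    congr 1; funext i
    by_cases hi : i = o <;> simp [hi, hy3]
  · rw [Matrix.diagonal_pow, Matrix.star_eq_conjTranspose, Matrix.diagonal_conjTranspose]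
    congr 1; funext i
    by_cases hi : i = o <;> simp [hi, hys]
  · rw [Tr.matrix_τ, Finset.sum_eq_single o] <;> simp +contextual [hτ]

/-- The part of an involution that moves the points of a stable set. -/
def partPerm (J : Perm ι) (hJ : J * J = 1) (P : ι → Prop) [DecidablePred P]
    (hP : ∀ i, P (J i) ↔ P i) : Perm ι :=
  Function.Involutive.toPerm (fun i => if P i then J i else i) (by
    intro i
    have : J (J i) = i := by rw [← Perm.mul_apply, hJ, Perm.one_apply]
    by_cases h : P i <;> simp [h, hP, this])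

theorem assemble (hT : T.τ 1 = 1) (lam : G →* unitary R) (g : G) (h3 : g ^ 3 = 1)
    (hτ : T.τ (lam g) = 0) (lab : ι → Lt G m) (o : ι) (hlo : lab o = .inl 1) (l : List ι)
    (hnd : l.Nodup) (hl : ∀ i, i ∈ l ↔ i ≠ o) (hN : Null g⁻¹ (l.map lab))
    (Y Z J : Perm ι) (n : ℕ) (hY : SL n Y) (hc : cyc o l = Y * Z) (hJJ : J * J = 1)
    (hJo : J o = o) (hJ : ∀ i, i ≠ o → J i ≠ i) (hlabJ : ∀ i, lab (J i) = (lab i).inv)
    (hZJ : Z * J * (Z * J) = 1) (A : Finset ι) (hA : ∀ i, i ∈ A ↔ (Z * J) i ≠ i) (κ : ℕ)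
    (hcount : 2 * n + A.card + 1 = Fintype.card ι + 2 * κ)
    (hS : ∀ {J' M : Matrix ι ι ℂ}, J' ∈ unitary (Matrix ι ι ℂ) → M ∈ unitary (Matrix ι ι ℂ) →
      J' * J' = 1 → M * M = 1 →
      (∀ x, J' * Ecl (fun i => clL (lab i)) x = Ecl (fun i => clL (lab i)) (negC x) * J') →
      (∀ x, M * Ecl (fun i => clL (lab i)) x = Ecl (fun i => clL (lab i)) (negC x) * M) →
      J' * Ecl (fun i => clL (lab i)) none = Ecl (fun i => clL (lab i)) none →
      M * Ecl (fun i => clL (lab i)) none = Ecl (fun i => clL (lab i)) none →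
      ∃ S ∈ unitary (Matrix ι ι ℂ), pm ℂ Z * S = S * pm ℂ Z ∧ (∀ i j, S i j ≠ 0 → lab i = lab j) ∧
        ∃ Q : Matrix ι ι ℂ, IsStarProjection Q ∧
          Q.trace = ((Finset.univ.filter fun i => clL (lab i) = none).card : ℂ) + κ ∧
          J' * (star S * M * S) * Q = Q) : False := by
  set N : ℕ := Fintype.card ι with hNdef
  have hN1 : 1 ≤ N := Fintype.card_pos_iff.2 ⟨o⟩
  have hN1' : (1 : ℝ) ≤ N := by exact_mod_cast hN1
  set η : ℝ := 1 / N with hη
  have hηN : η * N = 1 := by rw [hη]; field_simp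
  have hη0 : 0 < η := by rw [hη]; positivity
  have hη1 : η ≤ 1 := by rw [hη, div_le_one (by linarith)]; exact hN1'
  set ω : Circle := Circle.exp η with hω
  have hol : o ∉ l := fun h => (hl o).1 h rfl
  have hlen : l.length + 1 = N := by
    have : (o :: l).toFinset = Finset.univ := by
      ext i; by_cases hi : i = o <;> simp [hi, hl]
    rw [hNdef, ← Finset.card_univ, ← this,
      List.toFinset_card_of_nodup (List.nodup_cons.2 ⟨hol, hnd⟩), List.length_cons]
  obtain ⟨μ, z, YO, p1, p2, p3, p4, p5, p6, p7⟩ := outer hT lam lab ω o hN l rfl hnd hol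
  set cl : ι → Option (Fin m × Bool) := fun i => clL (lab i) with hcl
  have hclJ : ∀ i, cl (J i) = negC (cl i) := fun i => by simp only [hcl, hlabJ, clL_inv]
  have hneg : ∀ x : Option (Fin m × Bool), negC x = none ↔ x = none := by
    rintro (_ | ⟨v, b⟩) <;> simp [negC]
  have hcl0 : ∀ i, cl i = none → ∃ c, lab i = .inl c := by
    intro i hi
    rcases h : lab i with c | x
    · exact ⟨c, rfl⟩
    · simp [hcl, h, clL] at hi
  set JG := partPerm J hJJ (fun i => cl i = none) (fun i => by rw [hclJ, hneg]) with hJG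
  set Jt := partPerm J hJJ (fun i => cl i ≠ none) (fun i => by rw [hclJ, Ne, hneg]) with hJt
  have eG : ∀ i, JG i = if cl i = none then J i else i := fun i => rfl
  have et : ∀ i, Jt i = if cl i ≠ none then J i else i := fun i => rfl
  have hJGG : JG * JG = 1 := by
    ext i; exact Function.Involutive.toPerm_involutive _ i
  have hJtt : Jt * Jt = 1 := by
    ext i; exact Function.Involutive.toPerm_involutive _ i
  have hJtG : Jt * JG = J := by
    ext i
    rw [Perm.mul_apply, eG, et]
    by_cases h : cl i = none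
    · simp [h, hclJ, hneg]
    · simp [h]
  have hclμ : ∀ i, cl (μ i) = negC (cl i) := by
    intro i
    rcases h : lab i with c | ⟨v, b⟩
    · rw [(p3 i c h).1]; simp [hcl, h, clL, negC]
    · have hi : i ∈ l := (hl i).2 fun h' => by rw [h', hlo] at h; cases h
      simp [hcl, h, p4 i hi v b h, clL, negC]
  have hclt : ∀ i, cl (Jt i) = negC (cl i) := by
    intro i
    rw [et]
    split_ifs with h
    · exact hclJ i
    · rw [not_not.1 h]; rfl
  set Mu : unitary (Matrix ι ι ℂ) := PM ℂ μ * DG fun i => sc ℂ (z i) with hMu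
  have hMM : Mu * Mu = 1 := mono_invol p1 fun i => by rw [← map_mul, p5, map_one]
  have hMuv : (Mu : Matrix ι ι ℂ) = pm ℂ μ * Matrix.diagonal fun i => (z i : ℂ) := by
    rw [hMu, Submonoid.coe_mul, PM_val, DG_val]
    simp [sc_val]
  have hM0 : (Mu : Matrix ι ι ℂ) * Ecl cl none = Ecl cl none := by
    rw [hMuv, mul_assoc, Ecl, Matrix.diagonal_mul_diagonal, pm_mul_diag_fix]
    · congr 1; funext i
      split_ifs with h
      · obtain ⟨c, hc⟩ := hcl0 i h
        simp [(p3 i c hc).2]
      · simp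
    · intro i hi
      have h : cl i = none := by by_contra h; simp [h] at hi
      obtain ⟨c, hc⟩ := hcl0 i h
      exact (p3 i c hc).1
  obtain ⟨S, hSu, hSZ, hSl, Q, hQ, hQt, hVQ⟩ := hS (J' := pm ℂ Jt) (M := Mu) (PM ℂ Jt).2 Mu.2
    (by rw [← pm_mul, hJtt, pm_one]) (congrArg Subtype.val hMM) (pm_Ecl hclt)
    (by
      intro x
      rw [hMuv, mul_assoc, Ecl, Matrix.diagonal_mul_diagonal, ← mul_assoc, ← pm_Ecl hclμ, mul_assoc,
        Ecl, Matrix.diagonal_mul_diagonal]
      simp only [mul_comm])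
    (by
      refine pm_mul_diag_fix _ fun i hi => ?_
      have h : cl i = none := by by_contra h; simp [h] at hi
      simp [et, h])
    hM0
  set Su : unitary (Matrix ι ι ℂ) := ⟨S, hSu⟩ with hSu'
  set M' : unitary (Matrix ι ι ℂ) := Su⁻¹ * Mu * Su with hM'
  have hM'v : (M' : Matrix ι ι ℂ) = star S * Mu * S := rfl
  have hM'M' : M' * M' = 1 := by
    rw [hM']
    calc Su⁻¹ * Mu * Su * (Su⁻¹ * Mu * Su) = Su⁻¹ * (Mu * Mu) * Su := by group
      _ = 1 := by rw [hMM]; group
  have hSE : S * Ecl cl none = Ecl cl none * S :=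
    comm_diagonal lab S hSl fun x => if clL x = none then 1 else 0
  have hM'0 : (M' : Matrix ι ι ℂ) * Ecl cl none = Ecl cl none := by
    have h1 : star S * S = 1 := hSu.1
    rw [hM'v, mul_assoc, hSE, ← mul_assoc, mul_assoc _ _ (Ecl cl none), hM0, mul_assoc, ← hSE,
      ← mul_assoc, h1, one_mul]
  have hcomm : M' * PM ℂ JG = PM ℂ JG * M' := by
    refine Subtype.ext (comm_of_fix M'.2 (PM ℂ JG).2 (Ecl_proj cl none) hM'0 ?_)
    have : 1 - Ecl cl none = Matrix.diagonal fun i => if cl i = none then 0 else 1 := by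
      rw [Ecl, ← Matrix.diagonal_one, Matrix.diagonal_sub]
      congr 1; funext i; split_ifs <;> simp
    rw [this, PM_val]
    refine pm_mul_diag_fix _ fun i hi => ?_
    have h : cl i ≠ none := by intro h; simp [h] at hi
    simp [eG, h]
  -- the costs
  have c2 := CostU.of_SL hT hY
  have c3 : CostU T (PM R (Z * J)) (π * A.card / 2) := by
    refine CostU.invol hT (by rw [← map_mul, hZJ, map_one]) A (fun i hi => ?_) fun i hi => ?_
    · rw [PM_val, pm, Matrix.of_apply, if_neg ((hA i).1 hi).symm]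
    · rw [PM_val, pm, Matrix.of_apply, if_pos (not_not.1 (mt (hA i).2 hi)).symm]
  obtain ⟨cV, hcV, c4⟩ : ∃ c ≤ π * (Fintype.card ι - Q.trace.re),
      CostU T (phiU R ι (PM ℂ Jt * M')) c := by
    refine Cost.spectral (phi R ι) (tau_phi hT) (PM ℂ Jt * M').2 M'.2 ?_ hQ hVQ
    have h1 : M' * (PM ℂ Jt * M') * M'⁻¹ = (PM ℂ Jt * M')⁻¹ := by
      have h2 : (PM ℂ Jt)⁻¹ = PM ℂ Jt :=
        inv_eq_of_mul_eq_one_right (by rw [← map_mul, hJtt, map_one])
      rw [mul_inv_rev (PM ℂ Jt), h2, inv_eq_of_mul_eq_one_right hM'M', mul_assoc M',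
        mul_assoc (PM ℂ Jt), hM'M', mul_one]
    exact congrArg Subtype.val h1
  set Lb : unitary (Matrix ι ι R) := DG fun i => labU lam (lab i) with hLb
  set B : Finset ι := (Finset.univ.filter fun i => cl i = none).erase o with hB
  have c5 : CostU T (PM R JG * Lb) (π * B.card / 2) := by
    refine CostU.invol hT (mono_invol hJGG fun i => ?_) B (fun i hi => ?_) fun i hi => ?_
    · rw [eG]
      rcases h : lab i with c | x
      · have : cl i = none := by simp [hcl, h, clL]
        rw [if_pos this, hlabJ, h]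
        simp [Lt.inv, labU]
      · have : cl i ≠ none := by simp [hcl, h, clL]
        rw [if_neg this, h]
        simp [labU]
    · simp only [hB, Finset.mem_erase, Finset.mem_filter, Finset.mem_univ, true_and] at hi
      rw [Submonoid.coe_mul, PM_val, DG_val, Matrix.mul_diagonal, pm, Matrix.of_apply, eG,
        if_pos hi.2, if_neg (hJ i hi.1).symm, zero_mul]
    · simp only [hB, Finset.mem_erase, Finset.mem_filter, Finset.mem_univ, true_and, not_and] at hi
      rw [Submonoid.coe_mul, PM_val, DG_val, Matrix.mul_diagonal, pm, Matrix.of_apply, eG]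
      by_cases hio : i = o
      · subst hio
        simp [hJo, hlo, labU]
      · have h1 := hi hio
        rcases h : lab i with c | x
        · simp [hcl, h, clL] at h1
        · simp [h1, labU]
  have c6 := cost_order3 hT o (y := lam g) (by rw [← map_pow, h3, map_one]) hτ 1 zero_le_one
    (by linarith [pi_gt_three])
  -- the identity
  set SC : unitary (Matrix ι ι R) := DG fun _ => sc R ω with hSC
  have hSCv : (SC : Matrix ι ι R) = (ω : ℂ) • (1 : Matrix ι ι R) := by
    rw [hSC, DG_val, sc_val, ← Matrix.diagonal_one, ← Matrix.diagonal_smul]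
    rfl
  have hSCc : ∀ u, SC * u = u * SC := fun u => Subtype.ext (by simp [hSCv])
  have hβ : (fun i => if i ∈ l then sc R (ω * z i) * labU lam (lab i) else 1) =
      (fun i => sc R (z i)) * (fun i => labU lam (lab i)) * (fun _ => sc R ω) *
        Pi.mulSingle o (sc R ω⁻¹) := by
    funext i
    by_cases hi : i = o
    · subst hi
      simp [hol, (p2 i hol).2, hlo, labU]
    · simp only [(hl i).2 hi, if_true, Pi.mul_apply, Pi.mulSingle_eq_of_ne hi, mul_one]
      rw [← sc_comm, map_mul, mul_assoc]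
  have hD : DG (Pi.mulSingle o (sc R ω⁻¹)) *
      (DG (Pi.mulSingle o (sc R (ω ^ l.length) * lam g⁻¹)))⁻¹ =
      DG (Pi.mulSingle o (sc R (Circle.exp 1)⁻¹ * lam g)) := by
    rw [mul_inv_eq_iff_eq_mul, DG_single_mul]
    congr 2
    have : Circle.exp 1 = ω ^ (l.length + 1) := by
      rw [hlen, hω, ← Circle.exp_nsmul, nsmul_eq_mul, mul_comm, hηN]
    rw [this, mul_assoc, ← mul_assoc (lam g), ← sc_comm, mul_assoc, ← map_mul lam, mul_inv_cancel,
      map_one, mul_one, ← map_mul]
    congr 1
    group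
  have hSZ' : PM R Z * phiU R ι Su = phiU R ι Su * PM R Z := by
    rw [← phiU_PM, ← map_mul, ← map_mul]
    congr 1
    exact Subtype.ext hSZ
  have hSL : phiU R ι Su * Lb = Lb * phiU R ι Su := (phiU_comm_DG lab Su hSl (labU lam)).eq
  have hMR : PM R μ * DG (fun i => sc R (z i)) = phiU R ι Mu := by
    rw [hMu, map_mul, phiU_PM, phiU_DG]
  have hcomm' : phiU R ι M' * PM R JG = PM R JG * phiU R ι M' := by
    rw [← phiU_PM, ← map_mul, ← map_mul, hcomm]
  have hZ : PM R (Z * J) * PM R Jt * PM R JG = PM R Z := by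
    rw [← map_mul, ← map_mul, mul_assoc, hJtG, mul_assoc, hJJ, mul_one]
  have hid : SC⁻¹ = YO * PM R Y * (phiU R ι Su *
      (PM R (Z * J) * phiU R ι (PM ℂ Jt * M') * (PM R JG * Lb)) * (phiU R ι Su)⁻¹) *
      DG (Pi.mulSingle o (sc R (Circle.exp 1)⁻¹ * lam g)) := by
    have hM'' : phiU R ι M' = (phiU R ι Su)⁻¹ * phiU R ι Mu * phiU R ι Su := by
      rw [hM', map_mul, map_mul, map_inv]
    rw [hβ, hc, map_mul, map_mul, map_mul, map_mul, ← hLb, ← hSC, ← mul_assoc (PM R μ),
      ← mul_assoc (PM R μ), ← mul_assoc (PM R μ), hMR] at p7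
    rw [← hD, ← p7, map_mul (phiU R ι), phiU_PM]
    have hSCc' := hSCc (DG (Pi.mulSingle o (sc R ω⁻¹)))
    have hSCc'' := hSCc (YO * PM R Y * PM R Z * phiU R ι Mu * Lb)
    generalize DG (Pi.mulSingle o (sc R ω⁻¹)) = D at *
    generalize phiU R ι M' = M'' at *
    generalize phiU R ι Mu = M at *
    generalize phiU R ι Su = S' at *
    generalize PM R (Z * J) = ZJ at *
    generalize PM R JG = JG' at *
    generalize PM R Jt = Jt' at *
    generalize PM R Y = Y' at *
    generalize PM R Z = Z' at *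
    have e1 : S' * (ZJ * (Jt' * M'') * (JG' * Lb)) * S'⁻¹ = Z' * M * Lb := by
      calc S' * (ZJ * (Jt' * M'') * (JG' * Lb)) * S'⁻¹
          = S' * (ZJ * Jt' * (M'' * JG') * Lb) * S'⁻¹ := by simp only [mul_assoc]
        _ = S' * ((ZJ * Jt' * JG') * M'' * Lb) * S'⁻¹ := by rw [hcomm']; simp only [mul_assoc]
        _ = (S' * Z') * S'⁻¹ * M * (S' * Lb) * S'⁻¹ := by rw [hZ, hM'']; simp only [mul_assoc]
        _ = _ := by rw [← hSZ', hSL]; group
    rw [e1]
    calc SC⁻¹ = SC⁻¹ * (SC * (YO * Y' * Z' * M * Lb)) * (SC * (YO * Y' * Z' * M * Lb))⁻¹ := by group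
      _ = _ := by nth_rewrite 2 [hSCc'']; group
  have hcost := ((p6.mul c2).mul (((c3.mul c4).mul c5).conj (phiU R ι Su))).mul c6
  rw [← hid] at hcost
  have hval : ((SC⁻¹ : unitary (Matrix ι ι R)) : Matrix ι ι R) =
      Complex.exp (-(η * Complex.I)) • (1 : Matrix ι ι R) := by
    change star (SC : Matrix ι ι R) = _
    rw [hSCv, star_smul, star_one, Complex.star_def, ← Circle.coe_inv_eq_conj, hω]
    simp [Complex.exp_neg]
  unfold CostU at hcost
  rw [hval] at hcost
  have hP := lemmaP (T.matrix ι) η _ hη0 (by linarith [pi_gt_three]) hcost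
  have hτ1 : ((T.matrix ι).τ 1).re = N := by
    simp [Tr.matrix_τ, hT, hNdef]
  set a : ℕ := (Finset.univ.filter fun i => cl i = none).card with ha
  have hoB : o ∈ Finset.univ.filter fun i => cl i = none := by simp [hcl, hlo, clL]
  have hBc : (B.card : ℝ) + 1 = a := by
    rw [hB, ha]
    exact_mod_cast Finset.card_erase_add_one hoB
  have hw : ((l.map lab).map wt).sum = (N + a) / 2 - 1 := by
    have h1 : (o :: l).toFinset = Finset.univ := by
      ext i; by_cases hi : i = o <;> simp [hi, hl]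
    have h2 := List.sum_toFinset (fun i => wt (lab i)) (List.nodup_cons.2 ⟨hol, hnd⟩)
    have h4 : ∀ i, wt (lab i) = 1 / 2 + (if cl i = none then 1 / 2 else 0) := by
      intro i
      rcases h : lab i with c | x <;> simp [hcl, h, clL, wt]
      norm_num
    rw [h1, List.map_cons, List.sum_cons, hlo, Finset.sum_congr rfl fun i _ => h4 i,
      Finset.sum_add_distrib, ← Finset.sum_filter, Finset.sum_const, Finset.sum_const,
      Finset.card_univ, ← ha, ← hNdef] at h2
    rw [List.map_map]
    have h6 : wt (Sum.inl 1 : Lt G m) = 1 := rfl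
    rw [h6, nsmul_eq_mul, nsmul_eq_mul] at h2
    have h5 : (wt ∘ lab) = fun i => wt (lab i) := rfl
    rw [h5]
    linarith
  have hQr : Q.trace.re = a + κ := by rw [hQt]; simp
  have hcount' : (2 * n + A.card + 1 : ℝ) = N + 2 * κ := by exact_mod_cast hcount
  rw [hτ1, hw] at hP
  rw [hQr, ← hNdef] at hcV
  have hA' : (A.card : ℝ) = N + 2 * κ - 2 * n - 1 := by linarith
  have hB' : (B.card : ℝ) = a - 1 := by linarith
  rw [hA', hB'] at hP
  nlinarith [pi_gt_three]

end Crest.Agent.R174
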