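import Mathlib

/-!
# Row 174 (S0262): shared definitions

* `Tr`, `Cost`: positive traces and the cost of positive rotation paths (part A);
* `Lt`, `evL`, `Null`, `NoDiagram`: letters, the bracket grammar, the diagram statement (parts R, C);
* `emb`, `blk`, `prj`, `Word`, `Htp`, `Degree`: words in unitary blocks (part B);
* `Gam`, `fld`, `Lin`, `Jac`, `Fm`, `Int`: the degree integral (part B).
-/

set_option autoImplicit false

namespace Crest.Agent.R174

open Monoid Matrix MeasureTheory

universe u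

/-! ## Part A: traces and cost -/

/-- A positive tracial functional on a complex star algebra. -/
structure Tr (R : Type*) [Ring R] [StarRing R] [Algebra ℂ R] where
  τ : R →ₗ[ℂ] ℂ
  comm : ∀ a b, τ (a * b) = τ (b * a)
  pos : ∀ a, 0 ≤ (τ (star a * a)).re
  map_star : ∀ a, τ (star a) = star (τ a)

/-- `Cost T u c`: `u` is a product of rotations `1 + (e^{is} - 1) p` (`p` a projection, `0 ≤ s`)
with total cost `c = ∑ s τ(p)`. -/
inductive Cost {R : Type*} [Ring R] [StarRing R] [Algebra ℂ R] (T : Tr R) : R → ℝ → Prop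
  | one : Cost T 1 0
  | rot (p : R) (hp : IsStarProjection p) (s : ℝ) (hs : 0 ≤ s) {u : R} {c : ℝ} :
      Cost T u c →
      Cost T ((1 + (Complex.exp (s * Complex.I) - 1) • p) * u) (c + s * (T.τ p).re)

/-- The trace `τ ∘ trace` on matrices. -/
noncomputable def Tr.matrix {R : Type*} [Ring R] [StarRing R] [Algebra ℂ R] (T : Tr R)
    (ι : Type*) [Fintype ι] [DecidableEq ι] : Tr (Matrix ι ι R) where
  τ := T.τ ∘ₗ Matrix.traceLinearMap ι ℂ R
  comm a b := by
    simp only [LinearMap.comp_apply, Matrix.traceLinearMap_apply, Matrix.trace, Matrix.diag,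
      Matrix.mul_apply, map_sum]
    rw [Finset.sum_comm]
    exact Finset.sum_congr rfl fun i _ => Finset.sum_congr rfl fun j _ => T.comm _ _
  pos a := by
    simp only [LinearMap.comp_apply, Matrix.traceLinearMap_apply, Matrix.trace, Matrix.diag,
      Matrix.mul_apply, map_sum, Complex.re_sum, Matrix.star_apply]
    exact Finset.sum_nonneg fun i _ => Finset.sum_nonneg fun j _ => T.pos _
  map_star a := by
    simp only [LinearMap.comp_apply, Matrix.traceLinearMap_apply, Matrix.trace, Matrix.diag,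
      map_sum, Matrix.star_apply, star_sum, T.map_star]

theorem Tr.matrix_τ {R : Type*} [Ring R] [StarRing R] [Algebra ℂ R] (T : Tr R)
    (ι : Type*) [Fintype ι] [DecidableEq ι] (a : Matrix ι ι R) :
    (T.matrix ι).τ a = ∑ i, T.τ (a i i) := by
  simp [Tr.matrix, Matrix.trace]

/-! ## Letters and diagrams -/

/-- Letters: an element of `G`, or a variable with a sign (`true` = `+1`). -/
abbrev Lt (G : Type*) (m : ℕ) := G ⊕ (Fin m × Bool)

section Letters
variable {G : Type*} [Group G] {m : ℕ}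

/-- The formal inverse of a letter. -/
def Lt.inv : Lt G m → Lt G m
  | .inl g => .inl g⁻¹
  | .inr (v, b) => .inr (v, !b)

/-- The value of a letter in the free product. -/
def Lt.ev : Lt G m → Coprod G (FreeGroup (Fin m))
  | .inl g => Coprod.inl g
  | .inr (v, true) => Coprod.inr (FreeGroup.of v)
  | .inr (v, false) => Coprod.inr (FreeGroup.of v)⁻¹

/-- The exponent of the variable `v` in a letter. -/
def Lt.ex (v : Fin m) : Lt G m → ℤ
  | .inl _ => 0
  | .inr (v', b) => if v' = v then (if b then 1 else -1) else 0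

/-- The value of a word. -/
def evL (l : List (Lt G m)) : Coprod G (FreeGroup (Fin m)) := (l.map Lt.ev).prod

/-- The bracket grammar of words whose value lies in `G`. -/
inductive Null : G → List (Lt G m) → Prop
  | nil : Null 1 []
  | cons (c x : G) (l : List (Lt G m)) : Null x l → Null (c * x) (.inl c :: l)
  | br (v : Fin m) (b : Bool) (x : G) (l₁ l₂ : List (Lt G m)) :
      Null 1 l₁ → Null x l₂ → Null x (.inr (v, b) :: (l₁ ++ .inr (v, !b) :: l₂))

end Letters

/-- No balanced van Kampen product of a nonsingular square system equals an element of order 3. -/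
def NoDiagram : Prop :=
  ∀ (G : Type u) [Group G] (m p : ℕ) (g : G), 1 ≤ m → g ^ 3 = 1 → g ≠ 1 →
    ∀ (w : Fin m → List (Lt G m)),
      (Matrix.of fun v j => ((w j).map (Lt.ex v)).sum).det ≠ 0 →
      ∀ (ord : List (Fin m × Fin p × Bool)), ord.Nodup → (∀ k, k ∈ ord) →
        ∀ u : Fin m × Fin p × Bool → List (Lt G m),
          (ord.map fun k => evL (u k) * (if k.2.2 then evL (w k.1) else (evL (w k.1))⁻¹) *
            (evL (u k))⁻¹).prod ≠ Coprod.inl g⁻¹

/-! ## Part B: words in unitary blocks -/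

section Words
variable {ι : Type} [Fintype ι] [DecidableEq ι] {m p : ℕ}

/-- The isometry `ℂ^p → ℂ^ι` of an embedding. -/
def emb (f : Fin p ↪ ι) : Matrix ι (Fin p) ℂ := Matrix.of fun i r => if i = f r then 1 else 0

/-- The projection onto the coordinates in the range of `f`. -/
def prj (f : Fin p ↪ ι) : Matrix ι ι ℂ := emb f * (emb f)ᴴ

/-- `σ` acting on the coordinates in the range of `f`, the identity elsewhere. -/
def blk (f : Fin p ↪ ι) (σ : Matrix (Fin p) (Fin p) ℂ) : Matrix ι ι ℂ :=
  1 + emb f * (σ - 1) * (emb f)ᴴ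

/-- `m`-tuples of `p × p` matrices. -/
abbrev Sp (m p : ℕ) := Fin m → Matrix (Fin p) (Fin p) ℂ

/-- All entries of the tuple are unitary. -/
def IsU (σ : Sp m p) : Prop := ∀ j, σ j ∈ unitary (Matrix (Fin p) (Fin p) ℂ)

/-- Words in constant unitaries and blocks, with their exponent vectors. -/
inductive Word : (Fin m → ℤ) → (Sp m p → Matrix ι ι ℂ) → Prop
  | const (a : Matrix ι ι ℂ) (ha : a ∈ unitary (Matrix ι ι ℂ)) : Word 0 (fun _ => a)
  | gen (j : Fin m) (f : Fin p ↪ ι) : Word (Pi.single j 1) (fun σ => blk f (σ j))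
  | mul {e e' : Fin m → ℤ} {W W' : Sp m p → Matrix ι ι ℂ} :
      Word e W → Word e' W' → Word (e + e') (fun σ => W σ * W' σ)
  | star {e : Fin m → ℤ} {W : Sp m p → Matrix ι ι ℂ} :
      Word e W → Word (-e) (fun σ => star (W σ))

open scoped Matrix.Norms.Operator in
/-- A `C²` homotopy that is unitary on unitary tuples, between the restrictions of `W` and `W'`. -/
def Htp (W W' : Sp m p → Matrix ι ι ℂ) : Prop :=
  ∃ H : ℝ × Sp m p → Matrix ι ι ℂ, ContDiff ℝ 2 H ∧
    (∀ t σ, IsU σ → H (t, σ) ∈ unitary (Matrix ι ι ℂ)) ∧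
    (∀ σ, IsU σ → H (0, σ) = W σ) ∧ (∀ σ, IsU σ → H (1, σ) = W' σ)

end Words

/-- The degree theorem. -/
def Degree : Prop :=
  ∀ (ι : Type) [Fintype ι] [DecidableEq ι] (m p : ℕ) (f₀ f₁ : Fin p ↪ ι), (∀ r s, f₀ r ≠ f₁ s) →
    ∀ (e : Matrix (Fin m) (Fin m) ℤ), e.det ≠ 0 →
      ∀ (W : Fin m → Sp m p → Matrix ι ι ℂ), (∀ v, Word (e v) (W v)) →
        ∃ σ : Sp m p, IsU σ ∧ ∀ v, ∃ Q : Matrix ι ι ℂ,
          IsStarProjection Q ∧ Q.trace = p ∧ W v σ * Q = Q

/-! ## Part B: the degree integral -/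

section Integral
variable {E : Type} [NormedRing E] [NormedAlgebra ℝ E] [StarRing E] [StarModule ℝ E]

/-- Pairs of unitaries `(g, h)` with `h` commuting with `q`. -/
def Gam (q : E) : Subgroup (unitary (E × E)) where
  carrier := {γ | Commute q (γ : E × E).2}
  one_mem' := Commute.one_right q
  mul_mem' ha hb := Commute.mul_right ha hb
  inv_mem' := by
    intro γ hγ
    have h1 : (γ : E × E).2 * (star γ : E × E).2 = 1 := congrArg Prod.snd γ.2.2
    have h2 : (star γ : E × E).2 * (γ : E × E).2 = 1 := congrArg Prod.snd γ.2.1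
    have h : q * (γ : E × E).2 = (γ : E × E).2 * q := hγ
    change q * (star γ : E × E).2 = (star γ : E × E).2 * q
    calc q * (star γ : E × E).2
        = ((star γ : E × E).2 * (γ : E × E).2) * q * (star γ : E × E).2 := by rw [h2, one_mul]
      _ = (star γ : E × E).2 * (q * (γ : E × E).2) * (star γ : E × E).2 := by
          rw [h]; simp only [mul_assoc]
      _ = (star γ : E × E).2 * q * ((γ : E × E).2 * (star γ : E × E).2) := by
          simp only [mul_assoc]
      _ = (star γ : E × E).2 * q := by rw [h1, mul_one]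

instance (q : E) : MeasurableSpace (Gam q) := borel _
instance (q : E) : BorelSpace (Gam q) := ⟨rfl⟩

/-- The underlying pair of an element of `Gam q`. -/
def Gam.val {q : E} (γ : Gam q) : E × E := ((γ : unitary (E × E)) : E × E)

/-- The block diagonal part. -/
def hPart (q ξ : E) : E := q * ξ * q + (1 - q) * ξ * (1 - q)

/-- The right invariant vector field on `E × E` attached to `ξ`. -/
def fld (q ξ : E) (a : E × E) : E × E := ((ξ - hPart q ξ) * a.1, hPart q ξ * a.2)

/-- The right-trivialised derivative of `F` along the fields `fld q ξ`. -/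
noncomputable def Lin (q : E) (F : E × E → E) (a : E × E) :
    skewAdjoint E →ₗ[ℝ] skewAdjoint E where
  toFun ξ := skewAdjointPart ℝ (fderiv ℝ F a (fld q ξ a) * star (F a))
  map_add' ξ η := by
    have : fld q ((ξ + η : skewAdjoint E) : E) a = fld q ξ a + fld q η a := by
      ext <;> simp only [fld, hPart, AddSubgroup.coe_add, Prod.fst_add, Prod.snd_add] <;>
        noncomm_ring
    rw [this, map_add, add_mul, map_add]
  map_smul' c ξ := by
    have : fld q ((c • ξ : skewAdjoint E) : E) a = c • fld q ξ a := by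
      ext <;> simp [fld, hPart, smul_sub, smul_add, sub_mul, add_mul]
    rw [this, map_smul, smul_mul_assoc, map_smul, RingHom.id_apply]

/-- The Jacobian determinant. -/
noncomputable def Jac (q : E) (F : E × E → E) (a : E × E) : ℝ := LinearMap.det (Lin q F a)

/-- The map `(g, h) ↦ g* (q + (1 - q) h) g · W (q h)`. -/
def Fm (q : E) (W : E → E) (a : E × E) : E :=
  star a.1 * (q + (1 - q) * a.2) * a.1 * W (q * a.2)

/-- The degree integral. -/
noncomputable def Int {q : E} (μ : Measure (Gam q)) (φ : E → ℝ) (F : E × E → E) : ℝ :=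
  ∫ γ, φ (F γ.val) * Jac q F γ.val ∂μ

end Integral

/-! ## The three steps of the degree theorem -/

/-- Step B1: after a substitution, the words are homotopic to a power map. -/
def WordHtp : Prop :=
  ∀ (ι : Type) [Fintype ι] [DecidableEq ι] (m p : ℕ) (f₀ f₁ : Fin p ↪ ι), (∀ r s, f₀ r ≠ f₁ s) →
    ∀ (e : Matrix (Fin m) (Fin m) ℤ), e.det ≠ 0 →
      ∀ (W : Fin m → Sp m p → Matrix ι ι ℂ), (∀ v, Word (e v) (W v)) →
        ∃ (k : ℕ) (s : Sp m p → Sp m p), 1 ≤ k ∧ (∀ σ, IsU σ → IsU (s σ)) ∧
          ∀ v, ∀ y ∈ unitary (Matrix ι ι ℂ),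
            Htp (fun σ => star (W v (s σ)) * y) (fun σ => blk f₀ (σ v) ^ k)

/-- Step B2: homotopy invariance of the degree integral. -/
def IntHtp : Prop :=
  ∀ (E : Type) [NormedRing E] [NormedAlgebra ℝ E] [StarRing E] [StarModule ℝ E]
    [ContinuousStar E] [FiniteDimensional ℝ E]
    (β : E →ₗ[ℝ] ℝ), (∀ a b, β (a * b) = β (b * a)) → (∀ a, a ≠ 0 → 0 < β (star a * a)) →
    ∀ (q : E), IsStarProjection q → ∀ [CompactSpace (Gam q)]
      (μ : Measure (Gam q)) [IsFiniteMeasure μ] [μ.IsMulLeftInvariant]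
      (φ : E → ℝ), ContDiff ℝ 1 φ → ∀ (H : ℝ × E → E), ContDiff ℝ 2 H →
      (∀ t, ∀ h ∈ unitary E, Commute q h → H (t, q * h) ∈ unitary E) →
        Int μ φ (Fm q fun x => H (0, x)) = Int μ φ (Fm q fun x => H (1, x))

open scoped Matrix.Norms.Operator in
/-- Step B3: the degree integral of the power map does not vanish near a good point. -/
def IntStd : Prop :=
  ∀ (ι : Type) [Fintype ι] [DecidableEq ι] (m p : ℕ) (f : Fin p ↪ ι) (k : ℕ), 1 ≤ k →
    ∀ [CompactSpace (Gam (E := Fin m → Matrix ι ι ℂ) fun _ => prj f)]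
      (μ : Measure (Gam (E := Fin m → Matrix ι ι ℂ) fun _ => prj f)) [IsFiniteMeasure μ]
      [μ.IsOpenPosMeasure],
      ∃ y₀ ∈ unitary (Fin m → Matrix ι ι ℂ), ∃ ε > 0, ∀ φ : (Fin m → Matrix ι ι ℂ) → ℝ,
        Continuous φ → (∀ y, 0 ≤ φ y) → 0 < φ y₀ → (∀ y, ε ≤ dist y y₀ → φ y = 0) →
          Int μ φ (Fm (fun _ => prj f) fun x => (x + (1 - fun _ => prj f)) ^ k) ≠ 0

end Crest.Agent.R174
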