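import Crest.Agent.R174.Defs

/-!
# Row 174, step B4: the degree theorem from its three steps
-/

set_option autoImplicit false
set_option linter.unusedSectionVars false

namespace Crest.Agent.R174

open Monoid Matrix MeasureTheory Real

namespace DegreeB4

open scoped Matrix.Norms.Operator

variable {ι : Type} [Fintype ι] [DecidableEq ι] {m p : ℕ}

theorem emb_adj_mul (f : Fin p ↪ ι) : (emb f)ᴴ * emb f = 1 := by
  ext r s
  simp only [emb, Matrix.mul_apply, Matrix.conjTranspose_apply, Matrix.of_apply, Matrix.one_apply]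
  rw [Finset.sum_eq_single (f r)]
  · simp [f.injective.eq_iff]
  · intro i _ hi
    simp [hi]
  · simp

theorem prj_mul_emb (f : Fin p ↪ ι) : prj f * emb f = emb f := by
  rw [prj, Matrix.mul_assoc, emb_adj_mul, Matrix.mul_one]

theorem adj_mul_prj (f : Fin p ↪ ι) : (emb f)ᴴ * prj f = (emb f)ᴴ := by
  rw [prj, ← Matrix.mul_assoc, emb_adj_mul, Matrix.one_mul]

theorem prj_mul_prj (f : Fin p ↪ ι) : prj f * prj f = prj f := by
  conv_lhs => rhs; rw [prj]
  rw [← Matrix.mul_assoc, prj_mul_emb]; rfl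

theorem star_prj (f : Fin p ↪ ι) : star (prj f) = prj f := by
  rw [prj, Matrix.star_eq_conjTranspose, Matrix.conjTranspose_mul,
    Matrix.conjTranspose_conjTranspose]

theorem prj_proj (f : Fin p ↪ ι) : IsStarProjection (prj f) :=
  ⟨prj_mul_prj f, star_prj f⟩

theorem prj_trace (f : Fin p ↪ ι) : (prj f).trace = p := by
  rw [prj, Matrix.trace_mul_comm, emb_adj_mul]
  simp

theorem compress_unitary (f : Fin p ↪ ι) {h : Matrix ι ι ℂ} (hu : h ∈ unitary (Matrix ι ι ℂ))
    (hc : Commute (prj f) h) :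
    (emb f)ᴴ * (prj f * h) * emb f ∈ unitary (Matrix (Fin p) (Fin p) ℂ) := by
  have e1 : (emb f)ᴴ * (prj f * h) * emb f = (emb f)ᴴ * h * emb f := by
    rw [← Matrix.mul_assoc, adj_mul_prj]
  rw [e1]
  have h1 : hᴴ * h = 1 := hu.1
  have hc' : prj f * h = h * prj f := hc
  apply Matrix.mem_unitaryGroup_iff'.2
  rw [Matrix.star_eq_conjTranspose, Matrix.conjTranspose_mul, Matrix.conjTranspose_mul,
    Matrix.conjTranspose_conjTranspose]
  calc (emb f)ᴴ * (hᴴ * emb f) * ((emb f)ᴴ * h * emb f)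
      = (emb f)ᴴ * (hᴴ * ((emb f * (emb f)ᴴ) * h)) * emb f := by simp only [Matrix.mul_assoc]
    _ = (emb f)ᴴ * (hᴴ * (h * prj f)) * emb f := by rw [← hc']; rfl
    _ = (emb f)ᴴ * ((hᴴ * h) * (prj f * emb f)) := by simp only [Matrix.mul_assoc]
    _ = 1 := by rw [h1, prj_mul_emb, Matrix.one_mul, emb_adj_mul]

theorem blk_compress (f : Fin p ↪ ι) {h : Matrix ι ι ℂ} (hc : Commute (prj f) h) :
    blk f ((emb f)ᴴ * (prj f * h) * emb f) = prj f * h + (1 - prj f) := by
  have hc' : prj f * h = h * prj f := hc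
  have e1 : emb f * ((emb f)ᴴ * (prj f * h) * emb f) * (emb f)ᴴ = prj f * h := by
    calc emb f * ((emb f)ᴴ * (prj f * h) * emb f) * (emb f)ᴴ
        = (emb f * (emb f)ᴴ) * (prj f * h) * (emb f * (emb f)ᴴ) := by
          simp only [Matrix.mul_assoc]
      _ = prj f * (prj f * h) * prj f := rfl
      _ = prj f * (prj f * (h * prj f)) := by simp only [Matrix.mul_assoc]
      _ = prj f * h := by
          rw [← hc', ← Matrix.mul_assoc, ← Matrix.mul_assoc, prj_mul_prj, prj_mul_prj]
  rw [blk, Matrix.mul_sub, Matrix.sub_mul, e1, Matrix.mul_one]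
  change 1 + (prj f * h - prj f) = _
  abel

theorem norm_le_of_unitary {g : Matrix ι ι ℂ} (hg : g ∈ unitary (Matrix ι ι ℂ)) :
    ‖g‖ ≤ Fintype.card ι := by
  have : ‖g‖₊ ≤ (Fintype.card ι : NNReal) := by
    rw [Matrix.linfty_opNNNorm_def]
    refine Finset.sup_le fun i _ => ?_
    calc ∑ j, ‖g i j‖₊ ≤ ∑ _j : ι, (1 : NNReal) :=
          Finset.sum_le_sum fun j _ => by
            have := entry_norm_bound_of_unitary (𝕜 := ℂ) hg i j
            exact_mod_cast this
      _ = Fintype.card ι := by simp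
  exact_mod_cast this

theorem unitary_apply {g : Fin m → Matrix ι ι ℂ} (hg : g ∈ unitary (Fin m → Matrix ι ι ℂ))
    (v : Fin m) : g v ∈ unitary (Matrix ι ι ℂ) :=
  ⟨congrFun hg.1 v, congrFun hg.2 v⟩

theorem unitary_of_apply {g : Fin m → Matrix ι ι ℂ} (hg : ∀ v, g v ∈ unitary (Matrix ι ι ℂ)) :
    g ∈ unitary (Fin m → Matrix ι ι ℂ) :=
  ⟨funext fun v => (hg v).1, funext fun v => (hg v).2⟩

theorem unitary_fst {E : Type} [Monoid E] [StarMul E] {a : E × E} (ha : a ∈ unitary (E × E)) :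
    a.1 ∈ unitary E := ⟨congrArg Prod.fst ha.1, congrArg Prod.fst ha.2⟩

theorem unitary_snd {E : Type} [Monoid E] [StarMul E] {a : E × E} (ha : a ∈ unitary (E × E)) :
    a.2 ∈ unitary E := ⟨congrArg Prod.snd ha.1, congrArg Prod.snd ha.2⟩

theorem norm_pi_le {g : Fin m → Matrix ι ι ℂ} (hg : g ∈ unitary (Fin m → Matrix ι ι ℂ)) :
    ‖g‖ ≤ Fintype.card ι :=
  (pi_norm_le_iff_of_nonneg (by positivity)).2 fun v => norm_le_of_unitary (unitary_apply hg v)

theorem compact_unitary :
    CompactSpace (unitary ((Fin m → Matrix ι ι ℂ) × (Fin m → Matrix ι ι ℂ))) := by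
  have : ProperSpace ((Fin m → Matrix ι ι ℂ) × (Fin m → Matrix ι ι ℂ)) :=
    FiniteDimensional.proper_real _
  have hc : IsClosed (unitary ((Fin m → Matrix ι ι ℂ) × (Fin m → Matrix ι ι ℂ)) :
      Set ((Fin m → Matrix ι ι ℂ) × (Fin m → Matrix ι ι ℂ))) := isClosed_unitary
  refine isCompact_iff_compactSpace.1 (Metric.isCompact_of_isClosed_isBounded hc ?_)
  refine (Metric.isBounded_closedBall (x := 0) (r := Fintype.card ι)).subset fun a ha => ?_
  rw [mem_closedBall_zero_iff, Prod.norm_def]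
  exact max_le (norm_pi_le (unitary_fst ha)) (norm_pi_le (unitary_snd ha))

theorem compact_Gam (q : Fin m → Matrix ι ι ℂ) : CompactSpace (Gam q) := by
  have := compact_unitary (ι := ι) (m := m)
  have hc : IsClosed {γ : unitary ((Fin m → Matrix ι ι ℂ) × (Fin m → Matrix ι ι ℂ)) |
      q * (γ : (Fin m → Matrix ι ι ℂ) × (Fin m → Matrix ι ι ℂ)).2 =
        (γ : (Fin m → Matrix ι ι ℂ) × (Fin m → Matrix ι ι ℂ)).2 * q} :=
    isClosed_eq (by fun_prop) (by fun_prop)
  exact isCompact_iff_compactSpace.1 hc.isCompact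

/-- The real trace on tuples of matrices. -/
noncomputable def beta : (Fin m → Matrix ι ι ℂ) →ₗ[ℝ] ℝ where
  toFun a := ∑ v, (a v).trace.re
  map_add' a b := by simp [Finset.sum_add_distrib]
  map_smul' c a := by simp [Finset.mul_sum]

theorem beta_comm (a b : Fin m → Matrix ι ι ℂ) : beta (a * b) = beta (b * a) := by
  change ∑ v, (a v * b v).trace.re = ∑ v, (b v * a v).trace.re
  exact Finset.sum_congr rfl fun v _ => by rw [Matrix.trace_mul_comm]

theorem trace_star_mul (a : Matrix ι ι ℂ) :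
    (star a * a).trace.re = ∑ i, ∑ j, Complex.normSq (a j i) := by
  simp only [Matrix.trace, Matrix.diag, Matrix.mul_apply, Matrix.star_apply, Complex.re_sum]
  refine Finset.sum_congr rfl fun i _ => Finset.sum_congr rfl fun j _ => ?_
  rw [Complex.normSq_apply]
  simp

theorem beta_pos (a : Fin m → Matrix ι ι ℂ) (ha : a ≠ 0) : 0 < beta (star a * a) := by
  obtain ⟨v, hv⟩ := Function.ne_iff.1 ha
  have hv' : ∃ j i, a v j i ≠ 0 := by
    by_contra hcon
    push Not at hcon
    exact hv (Matrix.ext fun j i => hcon j i)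
  obtain ⟨j, i, hji⟩ := hv'
  change 0 < ∑ v, (star (a v) * a v).trace.re
  simp only [trace_star_mul]
  refine Finset.sum_pos' (fun w _ => Finset.sum_nonneg fun _ _ => Finset.sum_nonneg fun _ _ =>
    Complex.normSq_nonneg _) ⟨v, Finset.mem_univ _, ?_⟩
  refine Finset.sum_pos' (fun w _ => Finset.sum_nonneg fun _ _ =>
    Complex.normSq_nonneg _) ⟨i, Finset.mem_univ _, ?_⟩
  exact Finset.sum_pos' (fun w _ => Complex.normSq_nonneg _)
    ⟨j, Finset.mem_univ _, Complex.normSq_pos.2 hji⟩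

/-- Compression of a tuple, as a real linear map. -/
noncomputable def cmp (f : Fin p ↪ ι) : (Fin m → Matrix ι ι ℂ) →ₗ[ℝ] Sp m p where
  toFun x := fun j => (emb f)ᴴ * x j * emb f
  map_add' x y := by
    funext j
    simp [Matrix.mul_add, Matrix.add_mul]
  map_smul' c x := by
    funext j
    simp

theorem contDiff_cmp (f : Fin p ↪ ι) :
    ContDiff ℝ 2 (cmp (m := m) f) :=
  (LinearMap.toContinuousLinearMap (cmp (m := m) f)).contDiff

theorem isU_cmp (f : Fin p ↪ ι) {h : Fin m → Matrix ι ι ℂ}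
    (hu : h ∈ unitary (Fin m → Matrix ι ι ℂ)) (hc : Commute (fun _ => prj f) h) :
    IsU (cmp f ((fun _ => prj f) * h)) := fun j =>
  compress_unitary f (unitary_apply hu j) (congrFun hc j)

theorem fixed_of_eq {g h q W y : Matrix ι ι ℂ} (hg : g ∈ unitary (Matrix ι ι ℂ))
    (hy : y ∈ unitary (Matrix ι ι ℂ)) (hq : IsStarProjection q)
    (he : star g * (q + (1 - q) * h) * g * (star W * y) = y) :
    IsStarProjection (star g * q * g) ∧ (star g * q * g).trace = q.trace ∧
      W * (star g * q * g) = star g * q * g := by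
  have g1 : star g * g = 1 := hg.1
  have g2 : g * star g = 1 := hg.2
  have y2 : y * star y = 1 := hy.2
  have q2 : q * q = q := hq.isIdempotentElem
  have qs : star q = q := hq.isSelfAdjoint
  refine ⟨⟨?_, ?_⟩, ?_, ?_⟩
  · change star g * q * g * (star g * q * g) = star g * q * g
    calc star g * q * g * (star g * q * g) = star g * q * (g * star g) * q * g := by
          simp only [mul_assoc]
      _ = star g * (q * q) * g := by rw [g2]; simp only [mul_assoc, one_mul]
      _ = _ := by rw [q2]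
  · change star (star g * q * g) = star g * q * g
    simp only [star_mul, star_star, qs, mul_assoc]
  · rw [Matrix.trace_mul_comm, ← Matrix.mul_assoc]
    change (g * star g * q).trace = _
    rw [g2, one_mul]
  · have e1 : star g * (q + (1 - q) * h) * g * star W = 1 := by
      have := congrArg (· * star y) he
      simpa only [mul_assoc, y2, mul_one] using this
    have e2 : W * (star g * (q + star h * (1 - q)) * g) = 1 := by
      have := congrArg star e1
      simpa only [star_mul, star_star, star_add, star_sub, star_one, qs, mul_assoc] using this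
    have e3 : (q + star h * (1 - q)) * q = q := by
      rw [add_mul, mul_assoc, sub_mul, q2, one_mul, sub_self, mul_zero, add_zero]
    calc W * (star g * q * g) = W * (star g * ((q + star h * (1 - q)) * q) * g) := by
          rw [e3]
      _ = W * (star g * (q + star h * (1 - q)) * (g * star g) * q * g) := by
          rw [g2]; simp only [mul_assoc, one_mul]
      _ = (W * (star g * (q + star h * (1 - q)) * g)) * (star g * q * g) := by
          simp only [mul_assoc]
      _ = _ := by rw [e2, one_mul]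

theorem int_congr {E : Type} [NormedRing E] [NormedAlgebra ℝ E] [StarRing E] [StarModule ℝ E]
    {q : E} (μ : Measure (Gam q)) (φ : E → ℝ) (F : E × E → E) (h : ∀ γ : Gam q, φ (F γ.val) = 0) :
    Int μ φ F = 0 := by
  simp [Int, h]

theorem exists_haar {E : Type} [NormedRing E] [NormedAlgebra ℝ E] [StarRing E] [StarModule ℝ E]
    [ContinuousStar E] (q : E) [CompactSpace (Gam q)] :
    ∃ μ : Measure (Gam q), IsFiniteMeasure μ ∧ μ.IsMulLeftInvariant ∧ μ.IsOpenPosMeasure :=
  ⟨Measure.haar, inferInstance, inferInstance, inferInstance⟩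

theorem abstract (h2 : IntHtp) {E : Type} [NormedRing E] [NormedAlgebra ℝ E] [StarRing E]
    [StarModule ℝ E] [ContinuousStar E] [FiniteDimensional ℝ E]
    (β : E →ₗ[ℝ] ℝ) (hβ : ∀ a b, β (a * b) = β (b * a)) (hβ' : ∀ a, a ≠ 0 → 0 < β (star a * a))
    (q : E) (hq : IsStarProjection q) [CompactSpace (Gam q)]
    (μ : Measure (Gam q)) [IsFiniteMeasure μ] [μ.IsMulLeftInvariant]
    (K : ℝ × E → E) (hKc : ContDiff ℝ 2 K)
    (hKu : ∀ t, ∀ h ∈ unitary E, Commute q h → K (t, q * h) ∈ unitary E)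
    (P : E → E) (hP : ContDiff ℝ 2 P)
    (hPK : ∀ h ∈ unitary E, Commute q h → P (q * h) = K (1, q * h))
    (y₀ : E) (ε : ℝ) (hε : 0 < ε)
    (hne : ∀ φ : E → ℝ, Continuous φ → (∀ y, 0 ≤ φ y) → 0 < φ y₀ →
      (∀ y, ε ≤ dist y y₀ → φ y = 0) → Int μ φ (Fm q P) ≠ 0) :
    ∃ g ∈ unitary E, ∃ h ∈ unitary E, Commute q h ∧
      star g * (q + (1 - q) * h) * g * K (0, q * h) = y₀ := by
  by_contra hcon
  have hmiss : ∀ γ : Gam q, Fm q (fun x => K (0, x)) γ.val ≠ y₀ := by
    intro γ heq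
    have hγ : (γ.val : E × E) ∈ unitary (E × E) := γ.val.2
    exact hcon ⟨_, unitary_fst hγ, _, unitary_snd hγ, γ.2, heq⟩
  have hcont : Continuous fun γ : Gam q => Fm q (fun x => K (0, x)) γ.val := by
    have hK := hKc.continuous
    have hval : Continuous fun γ : Gam q => (γ.val : E × E) :=
      continuous_subtype_val.comp continuous_subtype_val
    unfold Fm
    fun_prop
  obtain ⟨ε', hε', hball⟩ : ∃ ε' > 0, ∀ γ : Gam q,
      ε' ≤ dist (Fm q (fun x => K (0, x)) γ.val) y₀ := by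
    have hcl : IsClosed (Set.range fun γ : Gam q => Fm q (fun x => K (0, x)) γ.val) :=
      (isCompact_range hcont).isClosed
    have hy : y₀ ∈ (Set.range fun γ : Gam q => Fm q (fun x => K (0, x)) γ.val)ᶜ := by
      rintro ⟨γ, hγ⟩
      exact hmiss γ hγ
    obtain ⟨ε', hε', hsub⟩ := Metric.isOpen_iff.1 hcl.isOpen_compl y₀ hy
    refine ⟨ε', hε', fun γ => ?_⟩
    by_contra hlt
    exact hsub (Metric.mem_ball.2 (not_le.1 hlt)) ⟨γ, rfl⟩
  have hr : 0 < min ε ε' := lt_min hε hε'
  let φ : ContDiffBump y₀ := ⟨min ε ε' / 2, min ε ε', by positivity, by linarith⟩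
  have hφ0 : ∀ y, min ε ε' ≤ dist y y₀ → φ y = 0 := fun y hy => φ.zero_of_le_dist hy
  have hφ1 : φ y₀ = 1 := φ.one_of_mem_closedBall (Metric.mem_closedBall_self φ.rIn_pos.le)
  have hφc : ContDiff ℝ 1 φ := φ.contDiff
  have i0 : Int μ φ (Fm q fun x => K (0, x)) = 0 :=
    int_congr μ φ _ fun γ => hφ0 _ ((min_le_right _ _).trans (hball γ))
  have i1 := h2 E β hβ hβ' q hq μ φ hφc K hKc hKu
  let L : ℝ × E → E := fun a => (1 - a.1) • K (1, a.2) + a.1 • P a.2
  have hLc : ContDiff ℝ 2 L :=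
    ContDiff.add ((contDiff_const.sub contDiff_fst).smul
      (hKc.comp (contDiff_const.prodMk contDiff_snd))) (contDiff_fst.smul (hP.comp contDiff_snd))
  have hLu : ∀ t, ∀ h ∈ unitary E, Commute q h → L (t, q * h) ∈ unitary E := by
    intro t h hu hc
    have e2 : L (t, q * h) = K (1, q * h) := by
      change (1 - t) • K (1, q * h) + t • P (q * h) = _
      rw [hPK h hu hc, ← add_smul, sub_add_cancel, one_smul]
    rw [e2]
    exact hKu 1 h hu hc
  have i2 := h2 E β hβ hβ' q hq μ φ hφc L hLc hLu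
  have l0 : (fun x => L (0, x)) = fun x => K (1, x) := by
    funext x
    simp [L]
  have l1 : (fun x => L (1, x)) = P := by
    funext x
    simp [L]
  rw [l0, l1, ← i1, i0] at i2
  exact hne φ φ.continuous (fun _ => φ.nonneg) (by rw [hφ1]; exact one_pos)
    (fun y hy => hφ0 y ((min_le_left _ _).trans hy)) i2.symm

end DegreeB4

open DegreeB4 in
open scoped Matrix.Norms.Operator in
theorem degree_of (h1 : WordHtp) (h2 : IntHtp) (h3 : IntStd) : Degree := by
  intro ι _ _ m p f₀ f₁ hf e he W hW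
  obtain ⟨k, s, hk, hs, hH⟩ := h1 ι m p f₀ f₁ hf e he W hW
  have hcomp : CompactSpace (Gam (E := Fin m → Matrix ι ι ℂ) fun _ => prj f₀) := compact_Gam _
  have hcs : ContinuousStar (Fin m → Matrix ι ι ℂ) := inferInstance
  obtain ⟨μ, hμ1, hμ2, hμ3⟩ := @exists_haar (Fin m → Matrix ι ι ℂ) _ _ _ _ (by exact hcs)
    (fun _ => prj f₀) (by exact hcomp)
  obtain ⟨y₀, hy₀, ε, hε, hne⟩ := @h3 ι _ _ m p f₀ k hk (by exact hcomp) μ hμ1 (by exact hμ3)
  choose H hHc hHu hH0 hH1 using fun v => hH v (y₀ v) (unitary_apply hy₀ v)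
  have hqp : IsStarProjection (fun _ => prj f₀ : Fin m → Matrix ι ι ℂ) :=
    ⟨funext fun _ => prj_mul_prj f₀, funext fun _ => star_prj f₀⟩
  have hKc : ContDiff ℝ 2 fun (a : ℝ × (Fin m → Matrix ι ι ℂ)) (v : Fin m) =>
      H v (a.1, cmp f₀ a.2) :=
    contDiff_pi.2 fun v => (hHc v).comp (contDiff_fst.prodMk ((contDiff_cmp f₀).comp contDiff_snd))
  have hP : ContDiff ℝ 2 fun x : Fin m → Matrix ι ι ℂ => (x + (1 - fun _ => prj f₀)) ^ k :=
    (contDiff_id.add contDiff_const).pow k
  obtain ⟨g, hg, h, hh, hc, heq⟩ := @abstract h2 (Fin m → Matrix ι ι ℂ) _ _ _ _ (by exact hcs)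
    inferInstance beta beta_comm beta_pos _ hqp (by exact hcomp) μ hμ1 hμ2 _ hKc
    (fun t h hu hc => unitary_of_apply fun v => hHu v t _ (isU_cmp f₀ hu hc)) _ hP
    (fun h hu hc => by
      funext v
      change (prj f₀ * h v + (1 - prj f₀)) ^ k = H v (1, cmp f₀ ((fun _ => prj f₀) * h))
      rw [hH1 v _ (isU_cmp f₀ hu hc), ← blk_compress f₀ (congrFun hc v)]
      rfl) y₀ ε hε hne
  have hU := isU_cmp f₀ hh hc
  refine ⟨s (cmp f₀ ((fun _ => prj f₀) * h)), hs _ hU, fun v => ?_⟩
  have hv : star (g v) * (prj f₀ + (1 - prj f₀) * h v) * g v *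
      H v (0, cmp f₀ ((fun _ => prj f₀) * h)) = y₀ v := congrFun heq v
  rw [hH0 v _ hU] at hv
  obtain ⟨a1, a2, a3⟩ := fixed_of_eq (unitary_apply hg v) (unitary_apply hy₀ v) (prj_proj f₀) hv
  exact ⟨_, a1, a2.trans (prj_trace f₀), a3⟩

end Crest.Agent.R174
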