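import Crest.Agent.R174.Defs

/-!
# Row 174 (S0262): the group algebra with its canonical trace
-/

set_option autoImplicit false

namespace Crest.Agent.R174

open Monoid Matrix MeasureTheory Real

universe u

namespace GroupAlg

variable {G : Type u} [Group G]

/-- The involution `∑ a_g g ↦ ∑ conj(a_g) g⁻¹`. -/
noncomputable def st (a : MonoidAlgebra ℂ G) : MonoidAlgebra ℂ G :=
  MonoidAlgebra.ofCoeff
    (Finsupp.mapRange (starRingEnd ℂ) (map_zero _) (Finsupp.equivMapDomain (Equiv.inv G) a.coeff))

theorem coeff_st (a : MonoidAlgebra ℂ G) (g : G) :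
    (st a).coeff g = starRingEnd ℂ (a.coeff g⁻¹) := by
  simp [st]

theorem st_add (a b : MonoidAlgebra ℂ G) : st (a + b) = st a + st b := by
  ext g
  simp [coeff_st]

theorem st_zero : st (0 : MonoidAlgebra ℂ G) = 0 := by
  ext g
  simp [coeff_st]

theorem st_st (a : MonoidAlgebra ℂ G) : st (st a) = a := by
  ext g
  simp [coeff_st]

theorem st_single (g : G) (c : ℂ) :
    st (MonoidAlgebra.single g c) = MonoidAlgebra.single g⁻¹ (starRingEnd ℂ c) := by
  classical
  ext h
  rw [coeff_st, MonoidAlgebra.coeff_single_apply, MonoidAlgebra.coeff_single_apply]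
  by_cases hh : g = h⁻¹
  · subst hh
    simp
  · have : ¬ g⁻¹ = h := fun h' => hh (by rw [← h', inv_inv])
    simp [hh, this]

theorem st_mul (a b : MonoidAlgebra ℂ G) : st (a * b) = st b * st a := by
  induction a using MonoidAlgebra.induction_linear with
  | zero => simp [st_zero]
  | add a a' ha ha' => rw [add_mul, st_add, st_add, ha, ha', mul_add]
  | single g c =>
    induction b using MonoidAlgebra.induction_linear with
    | zero => simp [st_zero]
    | add b b' hb hb' => rw [mul_add, st_add, st_add, hb, hb', add_mul]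
    | single h d =>
      rw [MonoidAlgebra.single_mul_single, st_single, st_single, st_single,
        MonoidAlgebra.single_mul_single, _root_.mul_inv_rev, map_mul, mul_comm]

theorem st_smul (c : ℂ) (a : MonoidAlgebra ℂ G) : st (c • a) = star c • st a := by
  ext g
  simp [coeff_st]

/-- The star ring structure on the group algebra. -/
@[reducible] noncomputable def starRing (G : Type u) [Group G] : StarRing (MonoidAlgebra ℂ G) where
  star := st
  star_involutive := st_st
  star_mul := st_mul
  star_add := st_add

/-- The coefficient of the identity. -/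
noncomputable def tau (G : Type u) [Group G] : MonoidAlgebra ℂ G →ₗ[ℂ] ℂ where
  toFun a := a.coeff 1
  map_add' a b := by simp
  map_smul' c a := by simp

theorem tau_apply (a : MonoidAlgebra ℂ G) : tau G a = a.coeff 1 := rfl

theorem tau_comm (a b : MonoidAlgebra ℂ G) : tau G (a * b) = tau G (b * a) := by
  classical
  induction a using MonoidAlgebra.induction_linear with
  | zero => simp
  | add a a' ha ha' => rw [add_mul, mul_add, map_add, map_add, ha, ha']
  | single g c =>
    rw [tau_apply, tau_apply, MonoidAlgebra.coeff_single_mul_apply,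
      MonoidAlgebra.coeff_mul_single_apply, mul_one, one_mul, mul_comm]

theorem tau_pos (a : MonoidAlgebra ℂ G) : 0 ≤ (tau G (st a * a)).re := by
  rw [tau_apply, MonoidAlgebra.coeff_mul_apply_right, Finsupp.sum, Complex.re_sum]
  refine Finset.sum_nonneg fun g _ => ?_
  rw [coeff_st, one_mul, inv_inv, Complex.conj_mul']
  rw [← Complex.ofReal_pow, Complex.ofReal_re]
  positivity

theorem tau_st (a : MonoidAlgebra ℂ G) : tau G (st a) = star (tau G a) := by
  rw [tau_apply, tau_apply, coeff_st, inv_one]
  rfl

end GroupAlg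

theorem exists_groupAlgebra (G : Type u) [Group G] :
    ∃ (R : Type u) (_ : Ring R) (_ : StarRing R) (_ : Algebra ℂ R) (_ : StarModule ℂ R) (T : Tr R)
      (lam : G →* unitary R), T.τ 1 = 1 ∧ ∀ g, g ≠ 1 → T.τ (lam g) = 0 := by
  classical
  letI : StarRing (MonoidAlgebra ℂ G) := GroupAlg.starRing G
  have hst : ∀ a : MonoidAlgebra ℂ G, star a = GroupAlg.st a := fun _ => rfl
  haveI : StarModule ℂ (MonoidAlgebra ℂ G) := ⟨fun c a => GroupAlg.st_smul c a⟩
  have hu : ∀ g : G, MonoidAlgebra.single g (1 : ℂ) ∈ unitary (MonoidAlgebra ℂ G) := by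
    intro g
    rw [Unitary.mem_iff, hst, GroupAlg.st_single, MonoidAlgebra.single_mul_single,
      MonoidAlgebra.single_mul_single]
    simp [MonoidAlgebra.one_def]
  let lam : G →* unitary (MonoidAlgebra ℂ G) :=
    { toFun := fun g => ⟨MonoidAlgebra.single g 1, hu g⟩
      map_one' := Subtype.ext rfl
      map_mul' := fun g h => Subtype.ext (by
        simp [MonoidAlgebra.single_mul_single]) }
  refine ⟨MonoidAlgebra ℂ G, inferInstance, inferInstance, inferInstance, inferInstance,
    ⟨GroupAlg.tau G, GroupAlg.tau_comm, GroupAlg.tau_pos, GroupAlg.tau_st⟩, lam, ?_, ?_⟩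
  · change GroupAlg.tau G 1 = 1
    rw [GroupAlg.tau_apply, MonoidAlgebra.one_def, MonoidAlgebra.coeff_single_apply]
    simp
  · intro g hg
    change GroupAlg.tau G (MonoidAlgebra.single g 1) = 0
    rw [GroupAlg.tau_apply, MonoidAlgebra.coeff_single_apply]
    simp [hg]

end Crest.Agent.R174
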