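import Crest.Agent.R174.Defs

/-!
# Row 174: words with value in `G` are generated by the bracket grammar

The proof is van der Waerden's trick: the free product acts on reduced stack states.
-/

set_option autoImplicit false

namespace Crest.Agent.R174

open Monoid

namespace NullP

variable {G : Type*} [Group G] {m : ℕ}

/-- Stack states. -/
abbrev St (G : Type*) (m : ℕ) := G × List ((Fin m × Bool) × G)

/-- Reduced stacks. -/
def Red (s : List ((Fin m × Bool) × G)) : Prop :=
  List.IsChain (fun x y => ¬ (x.2 = 1 ∧ y.1 = (x.1.1, !x.1.2))) s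

open Classical in
/-- The action of a variable letter. -/
noncomputable def push (a : Fin m × Bool) : St G m → St G m
  | (g0, []) => (1, [(a, g0)])
  | (g0, (b, g1) :: s) =>
      if g0 = 1 ∧ b = (a.1, !a.2) then (g1, s) else (1, (a, g0) :: (b, g1) :: s)

theorem anchor_push : type_of% @push.eq_def := @push.eq_def
theorem anchor_push1 : type_of% @push.eq_1 := @push.eq_1
theorem anchor_push2 : type_of% @push.eq_2 := @push.eq_2

lemma push_nil (a : Fin m × Bool) (g0 : G) : push a (g0, []) = (1, [(a, g0)]) := by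
  rw [push]

lemma push_cons_pos (a b : Fin m × Bool) (g0 g1 : G) (s : List ((Fin m × Bool) × G))
    (h : g0 = 1 ∧ b = (a.1, !a.2)) : push a (g0, (b, g1) :: s) = (g1, s) := by
  rw [push, if_pos h]

lemma push_cons_neg (a b : Fin m × Bool) (g0 g1 : G) (s : List ((Fin m × Bool) × G))
    (h : ¬ (g0 = 1 ∧ b = (a.1, !a.2))) :
    push a (g0, (b, g1) :: s) = (1, (a, g0) :: (b, g1) :: s) := by
  rw [push, if_neg h]

lemma red_push (a : Fin m × Bool) (st : St G m) (h : Red st.2) : Red (push a st).2 := by
  obtain ⟨g0, s⟩ := st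
  cases s with
  | nil => rw [push_nil]; exact List.isChain_singleton _
  | cons x s =>
    obtain ⟨b, g1⟩ := x
    by_cases hc : g0 = 1 ∧ b = (a.1, !a.2)
    · rw [push_cons_pos _ _ _ _ _ hc]
      exact List.IsChain.tail h
    · rw [push_cons_neg _ _ _ _ _ hc]
      exact List.isChain_cons_cons.2 ⟨hc, h⟩

lemma push_push (a : Fin m × Bool) (st : St G m) (h : Red st.2) :
    push (a.1, !a.2) (push a st) = st := by
  obtain ⟨g0, s⟩ := st
  cases s with
  | nil => rw [push_nil, push_cons_pos _ _ _ _ _ ⟨rfl, by simp⟩]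
  | cons x s =>
    obtain ⟨b, g1⟩ := x
    by_cases hc : g0 = 1 ∧ b = (a.1, !a.2)
    · rw [push_cons_pos _ _ _ _ _ hc]
      obtain ⟨rfl, rfl⟩ := hc
      cases s with
      | nil => rw [push_nil]
      | cons y s =>
        obtain ⟨c, g2⟩ := y
        have h1 := (List.isChain_cons_cons.1 h).1
        rw [push_cons_neg _ _ _ _ _ h1]
    · rw [push_cons_neg _ _ _ _ _ hc, push_cons_pos _ _ _ _ _ ⟨rfl, by simp⟩]

/-- Reduced states. -/
abbrev RS (G : Type*) [Group G] (m : ℕ) := {st : St G m // Red st.2}

/-- The permutation of reduced states given by a variable. -/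
noncomputable def pushPerm (v : Fin m) : Equiv.Perm (RS G m) where
  toFun st := ⟨push (v, true) st.1, red_push _ _ st.2⟩
  invFun st := ⟨push (v, false) st.1, red_push _ _ st.2⟩
  left_inv st := Subtype.ext (push_push (v, true) st.1 st.2)
  right_inv st := Subtype.ext (push_push (v, false) st.1 st.2)

/-- The action of `G` on reduced states. -/
def mulPerm : G →* Equiv.Perm (RS G m) where
  toFun c :=
    { toFun := fun st => ⟨(c * st.1.1, st.1.2), st.2⟩
      invFun := fun st => ⟨(c⁻¹ * st.1.1, st.1.2), st.2⟩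
      left_inv := fun st => Subtype.ext (by simp)
      right_inv := fun st => Subtype.ext (by simp) }
  map_one' := Equiv.ext fun st => Subtype.ext (by simp)
  map_mul' a b := Equiv.ext fun st => Subtype.ext (by simp [mul_assoc])

/-- The action of the free product on reduced states. -/
noncomputable def act : Coprod G (FreeGroup (Fin m)) →* Equiv.Perm (RS G m) :=
  Coprod.lift mulPerm (FreeGroup.lift pushPerm)

lemma act_inl (c : G) (st : RS G m) : (act (Coprod.inl c) st).1 = (c * st.1.1, st.1.2) := by
  simp [act, mulPerm]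

lemma act_ev_inr (a : Fin m × Bool) (st : RS G m) :
    (act (Lt.ev (G := G) (.inr a)) st).1 = push a st.1 := by
  obtain ⟨v, b⟩ := a
  cases b
  · simp only [act, Lt.ev, Coprod.lift_apply_inr, map_inv, FreeGroup.lift_apply_of]
    rfl
  · simp only [act, Lt.ev, Coprod.lift_apply_inr, FreeGroup.lift_apply_of]
    rfl

/-- A word decomposes along a state. -/
inductive Rep : G → List ((Fin m × Bool) × G) → List (Lt G m) → Prop
  | base (x : G) (l : List (Lt G m)) : Null x l → Rep x [] l
  | step (g0 : G) (l0 : List (Lt G m)) (a : Fin m × Bool) (g1 : G)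
      (s : List ((Fin m × Bool) × G)) (l' : List (Lt G m)) :
      Null g0 l0 → Rep g1 s l' → Rep g0 ((a, g1) :: s) (l0 ++ .inr a :: l')

lemma Rep.cons_inl (c : G) {g : G} {s : List ((Fin m × Bool) × G)} {l : List (Lt G m)}
    (h : Rep g s l) : Rep (c * g) s (.inl c :: l) := by
  cases h with
  | base _ _ h => exact Rep.base _ _ (Null.cons c g l h)
  | step _ l0 a g1 s l' h0 h1 =>
    exact Rep.step _ (.inl c :: l0) a g1 s l' (Null.cons c g l0 h0) h1

lemma Rep.bracket (v : Fin m) (b : Bool) {l0 : List (Lt G m)} (h0 : Null 1 l0) {g : G}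
    {s : List ((Fin m × Bool) × G)} {l : List (Lt G m)} (h : Rep g s l) :
    Rep g s (.inr (v, b) :: (l0 ++ .inr (v, !b) :: l)) := by
  cases h with
  | base _ _ h => exact Rep.base _ _ (Null.br v b g l0 l h0 h)
  | step _ l1 a g1 s l' h1 h2 =>
    have := Rep.step _ _ a g1 s l' (Null.br v b g l0 l1 h0 h1) h2
    simpa using this

lemma Rep.cons_inr (a : Fin m × Bool) {g : G} {s : List ((Fin m × Bool) × G)} {l : List (Lt G m)}
    (h : Rep g s l) : Rep (push a (g, s)).1 (push a (g, s)).2 (.inr a :: l) := by
  cases s with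
  | nil =>
    rw [push_nil]
    exact Rep.step 1 [] a g [] l Null.nil h
  | cons x s =>
    obtain ⟨b, g1⟩ := x
    by_cases hc : g = 1 ∧ b = (a.1, !a.2)
    · rw [push_cons_pos _ _ _ _ _ hc]
      obtain ⟨rfl, rfl⟩ := hc
      cases h with
      | step _ l0 _ _ _ l' h0 h1 => exact Rep.bracket a.1 a.2 h0 h1
    · rw [push_cons_neg _ _ _ _ _ hc]
      exact Rep.step 1 [] a g _ l Null.nil h

/-- The empty state. -/
def st0 : RS G m := ⟨(1, []), List.isChain_nil⟩

lemma rep_act (l : List (Lt G m)) :
    Rep (act (evL l) (st0 : RS G m)).1.1 (act (evL l) (st0 : RS G m)).1.2 l := by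
  induction l with
  | nil =>
    simp only [evL, List.map_nil, List.prod_nil, map_one, Equiv.Perm.coe_one, id]
    exact Rep.base 1 [] Null.nil
  | cons a l ih =>
    have h : evL (a :: l) = a.ev * evL l := by simp [evL]
    rw [h, map_mul, Equiv.Perm.mul_apply]
    cases a with
    | inl c =>
      have h1 := act_inl c (act (evL l) (st0 : RS G m))
      change Rep (act (Coprod.inl c) _).1.1 (act (Coprod.inl c) _).1.2 _
      rw [h1]
      exact ih.cons_inl c
    | inr a =>
      rw [act_ev_inr]
      exact ih.cons_inr a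

end NullP

theorem null_of_evL {G : Type*} [Group G] {m : ℕ} (x : G) (l : List (Lt G m))
    (h : evL l = Coprod.inl x) : Null x l := by
  have h1 := NullP.rep_act l
  rw [h, NullP.act_inl] at h1
  simp only [NullP.st0, mul_one] at h1
  cases h1 with
  | base _ _ h => exact h

end Crest.Agent.R174
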