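import Crest.Agent.R174.Assemble
import Crest.Agent.R174.GroupAlg
import Crest.Agent.R174.Null

/-!
# Row 174, part C: no diagram exists
-/

set_option autoImplicit false

namespace Crest.Agent.R174

open Equiv Monoid Matrix

universe u

section
variable {G : Type*} [Group G] {m : ℕ}

theorem Lt.inv_inv (x : Lt G m) : x.inv.inv = x := by
  rcases x with c | ⟨v, b⟩ <;> simp [Lt.inv]

theorem Lt.ev_inv (x : Lt G m) : x.inv.ev = x.ev⁻¹ := by
  rcases x with c | ⟨v, _ | _⟩ <;> simp [Lt.inv, Lt.ev]

theorem evL_append (l l' : List (Lt G m)) : evL (l ++ l') = evL l * evL l' := by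
  simp [evL]

theorem evL_reverse_inv (l : List (Lt G m)) : evL (l.reverse.map Lt.inv) = (evL l)⁻¹ := by
  induction l with
  | nil => simp [evL]
  | cons a l ih =>
    rw [List.reverse_cons, List.map_append, evL_append, ih]
    simp [evL, Lt.ev_inv]

omit [Group G] in
theorem ex_eq (v : Fin m) (x : Lt G m) : Lt.ex v x = exC v (clL x) := by
  rcases x with c | ⟨v', _ | _⟩
  · simp [Lt.ex, exC, clL]
  · by_cases h : v' = v <;> simp [Lt.ex, exC, clL, h]
  · by_cases h : v' = v <;> simp [Lt.ex, exC, clL, h]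

end

section
variable {ι : Type} [Fintype ι] [DecidableEq ι] {p : ℕ}

theorem pm_mul_emb {σ : Perm ι} {f f' : Fin p ↪ ι} (h : ∀ r, σ (f r) = f' r) :
    pm ℂ σ * emb f = emb f' := by
  ext i r
  simp [pm, emb, Matrix.mul_apply, h]

theorem emb_ct_mul_pm {σ : Perm ι} {f f' : Fin p ↪ ι} (h : ∀ r, σ (f r) = f' r) :
    (emb f')ᴴ * pm ℂ σ = (emb f)ᴴ := by
  ext r i
  simp only [pm, emb, Matrix.mul_apply, conjTranspose_apply, of_apply, mul_ite, mul_one, mul_zero,
    Finset.sum_ite_eq', Finset.mem_univ, if_true, ← h, EmbeddingLike.apply_eq_iff_eq]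

omit [Fintype ι] in
theorem emb_entry {f : Fin p ↪ ι} {X : Matrix (Fin p) (Fin p) ℂ} {i j : ι}
    (h : (emb f * X * (emb f)ᴴ) i j ≠ 0) : ∃ r r', i = f r ∧ j = f r' := by
  rw [Matrix.mul_apply] at h
  obtain ⟨r', -, h1⟩ := Finset.exists_ne_zero_of_sum_ne_zero h
  have h2 := left_ne_zero_of_mul h1
  have h3 := right_ne_zero_of_mul h1
  rw [Matrix.mul_apply] at h2
  obtain ⟨r, -, h4⟩ := Finset.exists_ne_zero_of_sum_ne_zero h2
  have h5 := left_ne_zero_of_mul h4
  refine ⟨r, r', ?_, ?_⟩
  · by_contra h6; simp [emb, h6] at h5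
  · by_contra h6; simp [emb, h6] at h3

end

section
variable {G : Type u} [Group G] {m p : ℕ} {St Dp : Type}

/-- The labels of the positions. -/
def labP (labS : St → Lt G m) (labD : Dp → Lt G m) : Pos St Dp p → Lt G m
  | none => .inl 1
  | some (.inl (s, b)) => if b then labS s else (labS s).inv
  | some (.inr (d, _, b)) => if b then labD d else (labD d).inv

/-- The flip of all positions. -/
def flipP : Perm (Pos St Dp p) :=
  Function.Involutive.toPerm (fun x => match x with
    | none => none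
    | some (.inl (s, b)) => some (.inl (s, !b))
    | some (.inr (d, r, b)) => some (.inr (d, r, !b))) (by
      rintro (_ | ⟨s, b⟩ | ⟨d, r, b⟩) <;> simp)

theorem flipP_none : flipP (none : Pos St Dp p) = none := rfl
theorem flipP_st (s : St) (b : Bool) : flipP (stP p b s : Pos St Dp p) = stP p (!b) s := rfl
theorem flipP_dc (d : Dp) (r : Fin p) (b : Bool) :
    flipP (dcP r b d : Pos St Dp p) = dcP r (!b) d := rfl

theorem pos_cases (x : Pos St Dp p) :
    x = none ∨ (∃ s b, x = stP p b s) ∨ ∃ d r b, x = dcP r b d := by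
  rcases x with _ | ⟨s, b⟩ | ⟨d, r, b⟩
  · exact Or.inl rfl
  · exact Or.inr (Or.inl ⟨s, b, rfl⟩)
  · exact Or.inr (Or.inr ⟨d, r, b, rfl⟩)

theorem evL_seg (labS : St → Lt G m) (labD : Dp → Lt G m) (wl : Fin m → List Dp)
    (sl : Fin m × Fin p × Bool → List St) (k : Fin m × Fin p × Bool) :
    evL ((seg wl sl k).map (labP labS labD)) = evL ((sl k).map labS) *
      (if k.2.2 then evL ((wl k.1).map labD) else (evL ((wl k.1).map labD))⁻¹) *
      (evL ((sl k).map labS))⁻¹ := by
  obtain ⟨j, r, b⟩ := k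
  rw [seg, List.map_append, List.map_append, evL_append, evL_append, ← evL_reverse_inv,
    ← evL_reverse_inv, mul_assoc]
  congr 1
  · simp [List.map_map, Function.comp_def, stP, labP]
  congr 1
  · cases b <;> simp [List.map_map, Function.comp_def, dcP, labP, dl]
  · simp [List.map_map, Function.comp_def, stP, labP]

theorem evL_flatMap {K α : Type*} (F : K → List α) (lab : α → Lt G m) (ord : List K) :
    evL ((ord.flatMap F).map lab) = (ord.map fun k => evL ((F k).map lab)).prod := by
  induction ord with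
  | nil => simp [evL]
  | cons k ord ih => rw [List.flatMap_cons, List.map_append, evL_append, ih]; simp

theorem Idx.absurd_of [Fintype St] [Fintype Dp] [DecidableEq St] [DecidableEq Dp] (hD : Degree)
    (I : Idx St Dp m p) (hm : 1 ≤ m) (g : G) (h3 : g ^ 3 = 1) (h1 : g ≠ 1)
    (labS : St → Lt G m) (labD : Dp → Lt G m)
    (hdet : (Matrix.of fun v j => (((I.wl j).map labD).map (Lt.ex v)).sum).det ≠ 0)
    (hev : evL (I.l.map (labP labS labD)) = Coprod.inl g⁻¹) : False := by
  obtain ⟨R, _, _, _, _, T, lam, hT, hlam⟩ := exists_groupAlgebra G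
  obtain ⟨Y, Z, hY, hc, hZ0, hZs, hZt, hZf⟩ := I.inner
  let A : Finset (Pos St Dp p) := Finset.univ.map
    ⟨fun x : Dp × Fin p × Bool => some (.inr x), fun x y h => by simpa using h⟩
  let f : Dp → (Fin p ↪ Pos St Dp p) := fun d =>
    ⟨fun r => dcP r true d, fun r r' h => by simpa [dcP] using h⟩
  obtain ⟨d₀, -⟩ := List.exists_mem_of_ne_nil _ (I.ne_wl ⟨0, hm⟩)
  let f₁ : Fin p ↪ Pos St Dp p := ⟨fun r => dcP r false d₀, fun r r' h => by simpa [dcP] using h⟩
  refine assemble hT lam g h3 (hlam g h1) (labP labS labD) none rfl I.l I.nodup_l I.mem_l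
    (null_of_evL _ _ hev) Y Z flipP _ hY hc ?_ rfl ?_ ?_ ?_ A ?_ (2 * m * p) ?_ ?_
  · ext1 x
    exact Function.Involutive.toPerm_involutive _ x
  · rintro (_ | ⟨s, b⟩ | ⟨d, r, b⟩) h
    · exact absurd rfl h
    · change stP p (!b) s ≠ stP p b s
      simp [stP]
    · change dcP r (!b) d ≠ dcP r b d
      simp [dcP]
  · rintro (_ | ⟨s, _ | _⟩ | ⟨d, r, _ | _⟩)
    · simp [flipP_none, labP, Lt.inv]
    · exact (Lt.inv_inv _).symm
    · rfl
    · exact (Lt.inv_inv _).symm
    · rfl
  · ext1 x
    simp only [Perm.mul_apply, Perm.one_apply]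
    rcases pos_cases x with rfl | ⟨s, b, rfl⟩ | ⟨d, r, _ | _, rfl⟩ <;>
      simp [flipP_none, flipP_st, flipP_dc, hZ0, hZs, hZt, hZf]
  · intro x
    simp only [Perm.mul_apply]
    rcases pos_cases x with rfl | ⟨s, b, rfl⟩ | ⟨d, r, _ | _, rfl⟩
    · simp [flipP_none, hZ0, A]
    · simp only [flipP_st, hZs, Bool.not_not]
      simp [A, stP]
    · simp only [flipP_dc, Bool.not_false, hZt]
      simp [A, dcP]
    · simp only [flipP_dc, Bool.not_true, hZf]
      simp [A, dcP]
  · simp [A]
    ring
  · intro J' M hJ' hM hJJ hMM hJE hME hJ0 hM0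
    have hf : ∀ d d' r r', f d r = f d' r' → d = d' := by
      intro d d' r r' h
      simp only [f, Function.Embedding.coeFn_mk, dcP] at h
      simp_all
    obtain ⟨σ, hσ, Q, hQ, hQt, hVQ⟩ := exists_fixed I.ty f (fun i => clL (labP labS labD i))
      (fun d => clL (labD d)) (fun d r => rfl) hD hf (f d₀) f₁
      (fun r s => by simp [f, f₁, dcP]) (by
        convert hdet using 3
        funext v j
        rw [List.map_map, ← List.sum_toFinset _ (I.nodup_wl j)]
        refine Finset.sum_congr (by ext d; simp [I.mem_wl]) fun d _ => (ex_eq _ _).symm)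
      hJ' hM hJJ hMM hJE hME hJ0 hM0
    refine ⟨Sig I.ty f Finset.univ σ, (Sig_word I.ty f hf _).mem_unitary hσ, ?_, ?_, Q, hQ, ?_, hVQ⟩
    · have hZf' : ∀ d r, Z (f d r) = f (I.rho d) r := fun d r => hZt d r
      rw [Sig, mul_add, add_mul, mul_one, one_mul, Finset.mul_sum, Finset.sum_mul,
        ← Equiv.sum_comp I.rho]
      congr 1
      conv_lhs => rw [Equiv.sum_comp I.rho fun d =>
        pm ℂ Z * (emb (f d) * (σ (I.ty d) - 1) * (emb (f d))ᴴ)]
      rw [← Equiv.sum_comp I.rho fun d => emb (f d) * (σ (I.ty d) - 1) * (emb (f d))ᴴ * pm ℂ Z]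
      refine Finset.sum_congr rfl fun d _ => ?_
      rw [I.ty_rho, Matrix.mul_assoc _ _ (pm ℂ Z), emb_ct_mul_pm (hZf' d), ← Matrix.mul_assoc,
        ← Matrix.mul_assoc, pm_mul_emb (hZf' d)]
    · intro i j hij
      by_cases h : i = j
      · rw [h]
      · rw [Sig, Matrix.add_apply, Matrix.one_apply_ne h, zero_add, Matrix.sum_apply] at hij
        obtain ⟨d, -, hd⟩ := Finset.exists_ne_zero_of_sum_ne_zero hij
        obtain ⟨r, r', rfl, rfl⟩ := emb_entry hd
        rfl
    · rw [hQt]; push_cast; ring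

end

theorem noDiagram (hD : Degree) : NoDiagram.{u} := by
  intro G _ m p g hm h3 h1 w hdet ord hnd hmem u heq
  have hw : ∀ j, w j ≠ [] := by
    intro j hj
    apply hdet
    exact Matrix.det_eq_zero_of_column_eq_zero j fun i => by simp [hj]
  let I : Idx (Σ k, Fin (u k).length) (Σ j, Fin (w j).length) m p :=
    { ty := Sigma.fst
      wl := fun j => (List.finRange _).map (Sigma.mk j)
      mem_wl := by
        rintro j ⟨j', a⟩
        simp only [List.mem_map, List.mem_finRange, true_and]
        constructor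
        · rintro ⟨a', h⟩; exact (congrArg Sigma.fst h).symm
        · rintro rfl; exact ⟨a, rfl⟩
      nodup_wl := fun j => (List.nodup_finRange _).map sigma_mk_injective
      ne_wl := fun j => by simpa using hw j
      own := Sigma.fst
      sl := fun k => (List.finRange _).map (Sigma.mk k)
      mem_sl := by
        rintro j ⟨j', a⟩
        simp only [List.mem_map, List.mem_finRange, true_and]
        constructor
        · rintro ⟨a', h⟩; exact (congrArg Sigma.fst h).symm
        · rintro rfl; exact ⟨a, rfl⟩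
      nodup_sl := fun j => (List.nodup_finRange _).map sigma_mk_injective
      ord := ord
      nodup_ord := hnd
      mem_ord := hmem }
  have e1 : ∀ j, (I.wl j).map (fun d => (w d.1).get d.2) = w j := by
    intro j
    simp only [I, List.map_map]
    exact List.map_get_finRange (w j)
  have e2 : ∀ k, (I.sl k).map (fun s => (u s.1).get s.2) = u k := by
    intro k
    simp only [I, List.map_map]
    exact List.map_get_finRange (u k)
  refine I.absurd_of hD hm g h3 h1 (fun s => (u s.1).get s.2) (fun d => (w d.1).get d.2) ?_ ?_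
  · simpa only [e1] using hdet
  · rw [Idx.l, evL_flatMap, ← heq]
    simp only [evL_seg, e1, e2]
    rfl

end Crest.Agent.R174
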