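import Crest.Agent.R174.Defs

/-!
# Row 174, part C1: the inner factorisation of the long cycle
-/

set_option autoImplicit false

namespace Crest.Agent.R174

open Equiv

section Generic
variable {ι : Type*} [DecidableEq ι]

/-- The star factorisation of the cycle through `o` and the points of `l`. -/
def cyc (o : ι) (l : List ι) : Perm ι := (l.map (swap o)).prod

@[simp] theorem cyc_nil (o : ι) : cyc o [] = 1 := rfl

theorem cyc_cons (o a : ι) (l : List ι) : cyc o (a :: l) = swap o a * cyc o l := by
  simp [cyc]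

theorem cyc_append (o : ι) (l l' : List ι) : cyc o (l ++ l') = cyc o l * cyc o l' := by
  simp [cyc]

theorem cyc_fix {o y : ι} {l : List ι} (h1 : y ≠ o) (h2 : y ∉ l) : cyc o l y = y := by
  induction l with
  | nil => rfl
  | cons a l ih =>
    rw [List.mem_cons, not_or] at h2
    rw [cyc_cons, Perm.mul_apply, ih h2.2, swap_apply_of_ne_of_ne h1 h2.1]

theorem cyc_mem {o y : ι} {l : List ι} (h : y ∈ o :: l) : cyc o l y ∈ o :: l := by
  by_contra h'
  rw [List.mem_cons, not_or] at h'
  have := cyc_fix h'.1 h'.2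
  have h2 := (cyc o l).injective this
  rw [h2] at h'
  exact (List.mem_cons.1 h).elim h'.1 h'.2

theorem swap_mul_cyc {o d : ι} {t : List ι} (ho : o ∉ t) (hd : d ∉ t) :
    swap o d * cyc o t = cyc d t * swap o d := by
  induction t with
  | nil => simp
  | cons a t ih =>
    rw [List.mem_cons, not_or] at ho hd
    rw [cyc_cons, cyc_cons, mul_assoc, ← ih ho.2 hd.2, ← mul_assoc, ← mul_assoc,
      mul_swap_eq_swap_mul, swap_apply_left, swap_apply_of_ne_of_ne (Ne.symm ho.1) (Ne.symm hd.1)]

theorem cyc_reverse (o : ι) (t : List ι) : cyc o t.reverse = (cyc o t)⁻¹ := by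
  induction t with
  | nil => simp
  | cons a t ih => simp [cyc_append, cyc_cons, ih]

/-- The cyclic rotation of a list. -/
def cycL : List ι → Perm ι
  | [] => 1
  | d :: t => cyc d t

theorem cycL_fix {y : ι} {l : List ι} (h : y ∉ l) : cycL l y = y := by
  cases l with
  | nil => rfl
  | cons d t =>
    rw [List.mem_cons, not_or] at h
    exact cyc_fix h.1 h.2

theorem cycL_mem {y : ι} {l : List ι} (h : y ∈ l) : cycL l y ∈ l := by
  cases l with
  | nil => exact h
  | cons d t => exact cyc_mem h

theorem cycL_concat {a : ι} {t : List ι} (h : (t ++ [a]).Nodup) : cycL (t ++ [a]) = cyc a t := by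
  cases t with
  | nil => rfl
  | cons x t =>
    have hx : x ∉ t := by
      intro hx; simp [hx] at h
    have ha : a ∉ t := by
      intro ha
      simp only [List.cons_append, List.nodup_cons, List.nodup_append] at h
      exact h.2.2.2 a ha a (by simp) rfl
    change cyc x (t ++ [a]) = _
    rw [cyc_append, cyc_cons, cyc_cons, swap_mul_cyc ha hx, swap_comm]
    simp

theorem cycL_reverse {l : List ι} (h : l.Nodup) : cycL l.reverse = (cycL l)⁻¹ := by
  cases l with
  | nil => simp [cycL]
  | cons d t =>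
    rw [List.reverse_cons, cycL_concat (by rw [← List.reverse_cons]; exact List.nodup_reverse.2 h), cyc_reverse]
    rfl

theorem cyc_map {κ : Type*} [DecidableEq κ] {f : κ → ι} (hf : Function.Injective f) (a : κ)
    (t : List κ) (d : κ) : cyc (f a) (t.map f) (f d) = f (cyc a t d) := by
  induction t with
  | nil => rfl
  | cons b t ih =>
    rw [List.map_cons, cyc_cons, cyc_cons, Perm.mul_apply, Perm.mul_apply, ih, hf.swap_apply]

theorem cycL_map {κ : Type*} [DecidableEq κ] {f : κ → ι} (hf : Function.Injective f)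
    (l : List κ) (d : κ) : cycL (l.map f) (f d) = f (cycL l d) := by
  cases l with
  | nil => rfl
  | cons a t => exact cyc_map hf a t d

/-- Products of `n` transpositions. -/
inductive SL : ℕ → Perm ι → Prop
  | one : SL 0 1
  | swap {a b : ι} (h : a ≠ b) {n : ℕ} {π : Perm ι} : SL n π → SL (n + 1) (swap a b * π)

theorem SL.mul {n n' : ℕ} {π π' : Perm ι} (h : SL n π) (h' : SL n' π') :
    SL (n + n') (π * π') := by
  induction h with
  | one => simpa using h'
  | swap hab _ ih =>
    rw [mul_assoc, Nat.add_right_comm]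
    exact SL.swap hab ih

theorem SL.conj {n : ℕ} {π : Perm ι} (h : SL n π) (z : Perm ι) : SL n (z * π * z⁻¹) := by
  induction h with
  | one => simpa using SL.one
  | @swap a b hab n π _ ih =>
    have : z * (Equiv.swap a b * π) * z⁻¹ = Equiv.swap (z a) (z b) * (z * π * z⁻¹) := by
      rw [← mul_assoc, mul_swap_eq_swap_mul]; simp only [mul_assoc]
    rw [this]
    exact SL.swap (z.injective.ne hab) ih

theorem SL.single {a b : ι} (h : a ≠ b) : SL 1 (Equiv.swap a b) := by
  simpa using SL.swap h SL.one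

/-- The product of the transpositions of a list of pairs. -/
def swaps (s : List (ι × ι)) : Perm ι := (s.map fun x => swap x.1 x.2).prod

theorem swaps_cons (x : ι × ι) (s : List (ι × ι)) : swaps (x :: s) = swap x.1 x.2 * swaps s := by
  simp [swaps]

theorem swaps_fix {y : ι} {s : List (ι × ι)} (h1 : y ∉ s.map Prod.fst) (h2 : y ∉ s.map Prod.snd) :
    swaps s y = y := by
  induction s with
  | nil => rfl
  | cons x s ih =>
    rw [List.map_cons, List.mem_cons, not_or] at h1 h2
    rw [swaps_cons, Perm.mul_apply, ih h1.2 h2.2, swap_apply_of_ne_of_ne h1.1 h2.1]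

theorem swap_three {o a b : ι} (hoa : o ≠ a) (hab : a ≠ b) :
    swap o b * swap a b = swap o a * swap o b := by
  rw [mul_swap_eq_swap_mul, swap_apply_of_ne_of_ne hoa.symm hab, swap_apply_right, swap_comm a o]

theorem inner_step (o : ι) (D : List ι) (hD : D ≠ []) (s : List (ι × ι))
    (h : (o :: (s.map Prod.fst ++ (D ++ s.reverse.map Prod.snd))).Nodup) :
    ∃ Y, SL (s.length + 1) Y ∧
      cyc o (s.map Prod.fst ++ (D ++ s.reverse.map Prod.snd)) = Y * (cycL D * swaps s) := by
  induction s with
  | nil =>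
    obtain ⟨d, t, rfl⟩ := List.exists_cons_of_ne_nil hD
    simp only [List.map_nil, List.reverse_nil, List.append_nil, List.nil_append, List.nodup_cons,
      List.mem_cons, not_or] at h ⊢
    refine ⟨cyc d t * swap o d * (cyc d t)⁻¹, (SL.single h.1.1).conj _, ?_⟩
    rw [cyc_cons, swap_mul_cyc h.1.2 h.2.1]
    simp [cycL, swaps]
  | cons x s ih =>
    obtain ⟨a, b⟩ := x
    have e1 : ((a, b) :: s).map Prod.fst ++ (D ++ ((a, b) :: s).reverse.map Prod.snd) =
        a :: ((s.map Prod.fst ++ (D ++ s.reverse.map Prod.snd)) ++ [b]) := by simp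
    rw [e1] at h ⊢
    set l' := s.map Prod.fst ++ (D ++ s.reverse.map Prod.snd) with hl'
    simp only [List.nodup_cons, List.mem_cons, List.mem_append, List.nodup_append, not_or,
      List.not_mem_nil, or_false, forall_eq, ne_eq] at h
    obtain ⟨⟨hoa, hol, hob⟩, ⟨hal, hab⟩, hl, -, hbl⟩ := h
    have hbl' : b ∉ l' := fun hb => hbl b hb rfl
    obtain ⟨Y, hY, hc⟩ := ih (List.nodup_cons.2 ⟨hol, hl⟩)
    have hfix : ∀ y, y ∉ l' → cycL D y = y ∧ swaps s y = y := by
      intro y hy
      simp only [hl', List.mem_append, not_or, List.map_reverse, List.mem_reverse] at hy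
      exact ⟨cycL_fix hy.2.1, swaps_fix hy.1 hy.2.2⟩
    refine ⟨swap o a * Y * (swap o a)⁻¹ * swap o b, (hY.conj _).mul (SL.single hob), ?_⟩
    rw [cyc_cons, cyc_append, hc, cyc_cons, cyc_nil, mul_one, swaps_cons]
    have c1 : cycL D * swaps s * swap o b = swap o b * (cycL D * swaps s) := by
      rw [mul_swap_eq_swap_mul]
      simp only [Perm.mul_apply, (hfix o hol).1, (hfix o hol).2, (hfix b hbl').1, (hfix b hbl').2]
    have c2 : cycL D * swap a b = swap a b * cycL D := by
      rw [mul_swap_eq_swap_mul, (hfix a hal).1, (hfix b hbl').1]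
    have c3 : swap o a * swap o b * swap a b = swap o b := by
      rw [← swap_three hoa hab, mul_assoc, swap_mul_self, mul_one]
    calc swap o a * (Y * (cycL D * swaps s) * swap o b)
        = swap o a * Y * (cycL D * swaps s * swap o b) := by simp only [mul_assoc]
      _ = swap o a * Y * ((swap o a * swap o b * swap a b) * (cycL D * swaps s)) := by
          rw [c1, c3]
      _ = swap o a * Y * (swap o a)⁻¹ * swap o b * ((swap a b * cycL D) * swaps s) := by
          simp only [swap_inv, mul_assoc]
      _ = _ := by rw [← c2]; simp only [mul_assoc]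

theorem inner_prod {K : Type*} (o : ι) (seg : K → List ι) (Z : K → Perm ι) (n : K → ℕ)
    (h : ∀ k, ∃ Y, SL (n k) Y ∧ cyc o (seg k) = Y * Z k) (ord : List K) :
    ∃ Y, SL (ord.map n).sum Y ∧ cyc o (ord.flatMap seg) = Y * (ord.map Z).prod := by
  induction ord with
  | nil => exact ⟨1, SL.one, by simp⟩
  | cons k ord ih =>
    obtain ⟨Y, hY, hc⟩ := ih
    obtain ⟨Y', hY', hc'⟩ := h k
    refine ⟨Y' * (Z k * Y * (Z k)⁻¹), by simpa using hY'.mul (hY.conj _), ?_⟩
    rw [List.flatMap_cons, cyc_append, hc, hc', List.map_cons, List.prod_cons]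
    group

omit [DecidableEq ι] in
theorem prod_apply_own {K : Type*} (Z : K → Perm ι) (own : ι → Option K)
    (hZ : ∀ k x, own x ≠ some k → Z k x = x) (ord : List K) (hord : ord.Nodup) (x : ι) :
    (∀ k, own x = some k → k ∈ ord → (ord.map Z).prod x = Z k x) ∧
      ((∀ k ∈ ord, own x ≠ some k) → (ord.map Z).prod x = x) := by
  have hown : ∀ k y, own y = some k → own (Z k y) = some k := by
    intro k y hy
    by_contra h'
    have := (Z k).injective (hZ k _ h')
    rw [this] at h'
    exact h' hy
  induction ord with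
  | nil => simp
  | cons k ord ih =>
    rw [List.nodup_cons] at hord
    obtain ⟨ih1, ih2⟩ := ih hord.2
    rw [List.map_cons, List.prod_cons, Perm.mul_apply]
    constructor
    · intro k' hk' hmem
      rcases List.mem_cons.1 hmem with rfl | hmem
      · rw [ih2]
        intro k'' hk'' h''
        rw [hk'] at h''
        exact hord.1 ((Option.some.inj h'') ▸ hk'')
      · rw [ih1 k' hk' hmem, hZ]
        rw [hown k' x hk']
        intro h''
        exact hord.1 ((Option.some.inj h'') ▸ hmem)
    · intro hx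
      rw [ih2 fun k' hk' => hx k' (List.mem_cons_of_mem _ hk'), hZ k x (hx k List.mem_cons_self)]

end Generic

section Concrete

/-- Positions: the base point, stem letters, disc letters. -/
abbrev Pos (St Dp : Type) (p : ℕ) := Option ((St × Bool) ⊕ (Dp × Fin p × Bool))

variable {St Dp : Type} {m p : ℕ}

/-- A stem position. -/
def stP (p : ℕ) (b : Bool) (s : St) : Pos St Dp p := some (.inl (s, b))

/-- A disc position. -/
def dcP (r : Fin p) (b : Bool) (d : Dp) : Pos St Dp p := some (.inr (d, r, b))

theorem stP_inj (b : Bool) : Function.Injective (stP p b : St → Pos St Dp p) := by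
  intro s s' h; simpa [stP] using h

theorem dcP_inj (r : Fin p) (b : Bool) : Function.Injective (dcP r b : Dp → Pos St Dp p) := by
  intro s s' h; simpa [dcP] using h

/-- The boundary word of a disc. -/
def dl (wl : Fin m → List Dp) (k : Fin m × Fin p × Bool) : List Dp :=
  if k.2.2 then wl k.1 else (wl k.1).reverse

/-- The positions of one lollipop, in order. -/
def seg (wl : Fin m → List Dp) (sl : Fin m × Fin p × Bool → List St) (k : Fin m × Fin p × Bool) :
    List (Pos St Dp p) :=
  (sl k).map (stP p true) ++ ((dl wl k).map (dcP k.2.1 k.2.2) ++ (sl k).reverse.map (stP p false))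

/-- The lollipop of a position. -/
def ownP (ty : Dp → Fin m) (own : St → Fin m × Fin p × Bool) :
    Pos St Dp p → Option (Fin m × Fin p × Bool)
  | none => none
  | some (.inl (s, _)) => some (own s)
  | some (.inr (d, r, b)) => some (ty d, r, b)

/-- The index data of a diagram. -/
structure Idx (St Dp : Type) (m p : ℕ) where
  ty : Dp → Fin m
  wl : Fin m → List Dp
  mem_wl : ∀ j d, d ∈ wl j ↔ ty d = j
  nodup_wl : ∀ j, (wl j).Nodup
  ne_wl : ∀ j, wl j ≠ []
  own : St → Fin m × Fin p × Bool
  sl : Fin m × Fin p × Bool → List St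
  mem_sl : ∀ k s, s ∈ sl k ↔ own s = k
  nodup_sl : ∀ k, (sl k).Nodup
  ord : List (Fin m × Fin p × Bool)
  nodup_ord : ord.Nodup
  mem_ord : ∀ k, k ∈ ord

namespace Idx
variable (I : Idx St Dp m p)

/-- All positions other than the base point, in order. -/
def l : List (Pos St Dp p) := I.ord.flatMap (seg I.wl I.sl)

theorem mem_dl (k : Fin m × Fin p × Bool) (d : Dp) : d ∈ dl I.wl k ↔ I.ty d = k.1 := by
  unfold dl
  split_ifs <;> simp [I.mem_wl]

theorem nodup_dl (k : Fin m × Fin p × Bool) : (dl I.wl k).Nodup := by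
  unfold dl
  split_ifs <;> simp [I.nodup_wl]

theorem mem_seg (k : Fin m × Fin p × Bool) (x : Pos St Dp p) :
    x ∈ seg I.wl I.sl k ↔ ownP I.ty I.own x = some k := by
  obtain ⟨j, r, b⟩ := k
  rcases x with _ | ⟨s, b'⟩ | ⟨d, r', b'⟩
  · simp [seg, stP, dcP, ownP]
  · cases b' <;> simp [seg, stP, dcP, ownP, I.mem_sl]
  · simp only [seg, stP, dcP, ownP, List.mem_append, List.mem_map, I.mem_dl]
    aesop

theorem nodup_seg (k : Fin m × Fin p × Bool) : (seg I.wl I.sl k).Nodup := by
  simp only [seg, List.nodup_append]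
  refine ⟨(I.nodup_sl k).map (stP_inj _), ⟨(I.nodup_dl k).map (dcP_inj _ _),
    (List.nodup_reverse.2 (I.nodup_sl k)).map (stP_inj _), ?_⟩, ?_⟩
  · simp only [List.mem_map]
    rintro _ ⟨d, -, rfl⟩ _ ⟨s, -, rfl⟩
    simp [stP, dcP]
  · simp only [List.mem_map, List.mem_append]
    rintro _ ⟨d, -, rfl⟩ _ (⟨s, -, rfl⟩ | ⟨s, -, rfl⟩) <;> simp [stP, dcP]

theorem nodup_l : I.l.Nodup := by
  rw [l, List.nodup_flatMap]
  refine ⟨fun k _ => I.nodup_seg k, ?_⟩
  refine List.Pairwise.imp ?_ I.nodup_ord
  intro k k' hk x hx hx'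
  rw [I.mem_seg] at hx hx'
  exact hk (Option.some.inj (hx.symm.trans hx'))

theorem mem_l (x : Pos St Dp p) : x ∈ I.l ↔ x ≠ none := by
  simp only [l, List.mem_flatMap, I.mem_seg, I.mem_ord, true_and]
  rcases x with _ | ⟨s, b'⟩ | ⟨d, r', b'⟩ <;> simp [ownP]

variable [DecidableEq St] [DecidableEq Dp]

/-- The rotation of the disc boundaries. -/
def rho : Perm Dp where
  toFun d := cycL (I.wl (I.ty d)) d
  invFun d := (cycL (I.wl (I.ty d)))⁻¹ d
  left_inv d := by
    have : I.ty (cycL (I.wl (I.ty d)) d) = I.ty d :=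
      (I.mem_wl _ _).1 (cycL_mem ((I.mem_wl _ _).2 rfl))
    simp [this]
  right_inv d := by
    have : I.ty ((cycL (I.wl (I.ty d)))⁻¹ d) = I.ty d := by
      rw [← cycL_reverse (I.nodup_wl _)]
      exact (I.mem_wl _ _).1 (List.mem_reverse.1 (cycL_mem
        (List.mem_reverse.2 ((I.mem_wl _ _).2 rfl))))
    simp only [this]
    simp

omit [DecidableEq St] in
theorem ty_rho (d : Dp) : I.ty (I.rho d) = I.ty d :=
  (I.mem_wl _ _).1 (cycL_mem ((I.mem_wl _ _).2 rfl))

theorem swaps_stem (L : List St) (hL : L.Nodup) (s : St) (hs : s ∈ L) (b : Bool) :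
    swaps (L.map fun s => ((stP p true s, stP p false s) : Pos St Dp p × Pos St Dp p))
      (stP p b s) = stP p (!b) s := by
  induction L with
  | nil => simp at hs
  | cons s' L ih =>
    rw [List.nodup_cons] at hL
    rw [List.map_cons, swaps_cons, Perm.mul_apply]
    rcases List.mem_cons.1 hs with rfl | hs
    · rw [swaps_fix]
      · cases b <;> simp
      · simp only [List.map_map, List.mem_map, Function.comp]
        rintro ⟨s', hs', h⟩
        simp only [stP, Option.some.injEq, Sum.inl.injEq, Prod.mk.injEq] at h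
        exact hL.1 (h.1 ▸ hs')
      · simp only [List.map_map, List.mem_map, Function.comp]
        rintro ⟨s', hs', h⟩
        simp only [stP, Option.some.injEq, Sum.inl.injEq, Prod.mk.injEq] at h
        exact hL.1 (h.1 ▸ hs')
    · have hne : s ≠ s' := fun h => hL.1 (h ▸ hs)
      rw [ih hL.2 hs, swap_apply_of_ne_of_ne] <;> simp [stP, hne]

theorem inner [Fintype St] : ∃ Y Z : Perm (Pos St Dp p),
    SL (Fintype.card St + 2 * m * p) Y ∧ cyc none I.l = Y * Z ∧ Z none = none ∧
      (∀ s b, Z (stP p b s) = stP p (!b) s) ∧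
      (∀ d r, Z (dcP r true d) = dcP r true (I.rho d)) ∧
      (∀ d r, Z (dcP r false d) = dcP r false (I.rho⁻¹ d)) := by
  let pairs : Fin m × Fin p × Bool → List (Pos St Dp p × Pos St Dp p) := fun k =>
    (I.sl k).map fun s => (stP p true s, stP p false s)
  let Zk : Fin m × Fin p × Bool → Perm (Pos St Dp p) := fun k =>
    cycL ((dl I.wl k).map (dcP k.2.1 k.2.2)) * swaps (pairs k)
  have hseg : ∀ k, seg I.wl I.sl k = (pairs k).map Prod.fst ++
      ((dl I.wl k).map (dcP k.2.1 k.2.2) ++ (pairs k).reverse.map Prod.snd) := by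
    intro k
    simp [seg, pairs, Function.comp_def]
  have hstep : ∀ k, ∃ Y, SL ((I.sl k).length + 1) Y ∧ cyc none (seg I.wl I.sl k) = Y * Zk k := by
    intro k
    have hne : (dl I.wl k).map (dcP (St := St) k.2.1 k.2.2) ≠ [] := by
      unfold dl
      split_ifs <;> simp [I.ne_wl]
    have := inner_step none _ hne (pairs k) (by
      rw [← hseg, List.nodup_cons, I.mem_seg]
      exact ⟨by simp [ownP], I.nodup_seg k⟩)
    rw [← hseg] at this
    simpa [pairs] using this
  obtain ⟨Y, hY, hc⟩ := inner_prod none _ Zk _ hstep I.ord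
  have hZ : ∀ k x, ownP I.ty I.own x ≠ some k → Zk k x = x := by
    intro k x hx
    rw [Ne, ← I.mem_seg, hseg] at hx
    simp only [List.mem_append, not_or, List.map_reverse, List.mem_reverse] at hx
    simp only [Zk, Perm.mul_apply]
    rw [swaps_fix hx.1 hx.2.2, cycL_fix hx.2.1]
  have hP := prod_apply_own Zk (ownP I.ty I.own) hZ I.ord I.nodup_ord
  have hdisc : ∀ d r b, (I.ord.map Zk).prod (dcP r b d) =
      dcP r b (cycL (dl I.wl (I.ty d, r, b)) d) := by
    intro d r b
    rw [(hP _).1 (I.ty d, r, b) rfl (I.mem_ord _)]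
    simp only [Zk, Perm.mul_apply]
    rw [swaps_fix, cycL_map (dcP_inj _ _)] <;> simp [pairs, stP, dcP]
  refine ⟨Y, (I.ord.map Zk).prod, ?_, hc, ?_, ?_, ?_, ?_⟩
  · convert hY using 1
    have h1 : I.ord.toFinset = Finset.univ := by ext k; simp [I.mem_ord]
    rw [← List.sum_toFinset _ I.nodup_ord, h1, Finset.sum_add_distrib]
    congr 1
    · rw [← Finset.card_univ, Finset.card_eq_sum_card_fiberwise (f := I.own) (t := Finset.univ)
        (by simp)]
      refine Finset.sum_congr rfl fun k _ => ?_
      rw [← List.toFinset_card_of_nodup (I.nodup_sl k)]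
      congr 1
      ext s; simp [I.mem_sl]
    · simp; ring
  · exact (hP _).2 (by simp [ownP])
  · intro s b
    rw [(hP _).1 (I.own s) rfl (I.mem_ord _)]
    simp only [Zk, Perm.mul_apply, pairs]
    rw [swaps_stem _ (I.nodup_sl _) s ((I.mem_sl _ _).2 rfl), cycL_fix]
    simp [stP, dcP]
  · intro d r
    rw [hdisc]; rfl
  · intro d r
    rw [hdisc]
    simp only [dl, Bool.false_eq_true, if_false]
    rw [cycL_reverse (I.nodup_wl _)]
    rfl

end Idx

end Concrete

end Crest.Agent.R174
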