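import Crest.Agent.R174.IntHtpA

/-!
Step B2: homotopy invariance of the degree integral.
-/

set_option autoImplicit false
set_option linter.unusedSectionVars false

namespace Crest.Agent.R174

open MeasureTheory VectorField Module NormedSpace

namespace IntHtp

variable {E : Type} [NormedRing E] [NormedAlgebra ℝ E] [StarRing E] [StarModule ℝ E]
  [ContinuousStar E] [FiniteDimensional ℝ E] {q : E}

theorem hPart_commute (hq : IsStarProjection q) (ξ : E) : Commute q (hPart q ξ) := by
  have h : q * q = q := hq.isIdempotentElem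
  have h' : ∀ x, q * (q * x) = q * x := fun x => by rw [← mul_assoc, h]
  change q * hPart q ξ = hPart q ξ * q
  simp only [hPart, mul_add, add_mul, mul_sub, sub_mul, mul_one, one_mul, mul_assoc, h, h']
  abel

theorem hPart_of_commute (hq : IsStarProjection q) {ζ : E} (hζ : Commute q ζ) :
    hPart q ζ = ζ := by
  have h : q * q = q := hq.isIdempotentElem
  have h1 : ζ * q = q * ζ := hζ.symm
  have h' : ∀ x, q * (q * x) = q * x := fun x => by rw [← mul_assoc, h]
  simp only [hPart, mul_sub, sub_mul, mul_one, one_mul, mul_assoc, h1, h']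
  abel

theorem star_hPart (hq : IsStarProjection q) (ξ : E) : star (hPart q ξ) = hPart q (star ξ) := by
  have h : star q = q := hq.isSelfAdjoint
  simp only [hPart, star_add, star_mul, star_sub, star_one, h, mul_assoc]

theorem hPart_neg (ξ : E) : hPart q (-ξ) = -hPart q ξ := by
  simp only [hPart]; noncomm_ring

theorem hPart_skew (hq : IsStarProjection q) {ξ : E} (hξ : ξ ∈ skewAdjoint E) :
    hPart q ξ ∈ skewAdjoint E := by
  rw [skewAdjoint.mem_iff] at hξ ⊢
  rw [star_hPart hq, hξ, hPart_neg]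

theorem trace_hPart (β : E →ₗ[ℝ] ℝ) (hβ : ∀ a b, β (a * b) = β (b * a)) (ξ η : E) :
    β (hPart q ξ * η) = β (ξ * hPart q η) := by
  have key : ∀ p : E, β (p * ξ * p * η) = β (ξ * (p * η * p)) := fun p => by
    rw [mul_assoc, mul_assoc, hβ]; simp only [mul_assoc]
  simp only [hPart, add_mul, mul_add, map_add, key]

theorem commute_mul_of_hPart (hq : IsStarProjection q) {ξ η : E} (hξ : hPart q ξ = 0)
    (hη : hPart q η = 0) : Commute q (η * ξ) := by
  have h : q * q = q := hq.isIdempotentElem
  have h' : ∀ x, q * (q * x) = q * x := fun x => by rw [← mul_assoc, h]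
  have key : ∀ ξ : E, hPart q ξ = 0 → q * ξ = ξ - ξ * q := by
    intro ξ hξ
    have h1 : q * (ξ * q) = 0 := by
      have := congrArg (q * ·) hξ
      simp only [hPart, mul_add, mul_sub, sub_mul, mul_one, one_mul, mul_assoc, h', mul_zero] at this
      rw [← this]; abel
    simp only [hPart, mul_sub, sub_mul, mul_one, one_mul, mul_assoc, h1] at hξ
    rw [← sub_eq_zero, ← neg_eq_zero, ← hξ]; abel
  change q * (η * ξ) = η * ξ * q
  rw [← mul_assoc, key η hη, sub_mul, mul_assoc η q, key ξ hξ]
  noncomm_ring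

/-- The inclusion of skew-adjoint elements. -/
def incl : skewAdjoint E →ₗ[ℝ] E where
  toFun := Subtype.val
  map_add' _ _ := rfl
  map_smul' _ _ := rfl

instance : FiniteDimensional ℝ (skewAdjoint E) :=
  FiniteDimensional.of_injective incl Subtype.val_injective

/-- The generator in `E × E`. -/
def til (q ξ : E) : E × E := (ξ - hPart q ξ, hPart q ξ)

theorem fld_eq (ξ : E) (a : E × E) : fld q ξ a = til q ξ * a := rfl

theorem exists_flow (hq : IsStarProjection q) {ξ : E} (hξ : ξ ∈ skewAdjoint E) (s : ℝ) :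
    ∃ e : Gam q, Gam.val e = exp (s • til q ξ) := by
  let +nondep : NormedAlgebra ℚ E := .restrictScalars ℚ ℝ E
  have : CompleteSpace E := FiniteDimensional.complete ℝ E
  have h1 : s • til q ξ ∈ skewAdjoint (E × E) := by
    refine skewAdjoint.smul_mem s ?_
    have h2 := skewAdjoint.mem_iff.1 (hPart_skew hq hξ)
    have h3 := skewAdjoint.mem_iff.1 hξ
    rw [skewAdjoint.mem_iff]
    ext
    · simp [til, h2, h3]; abel
    · simp [til, h2]
  refine ⟨⟨⟨exp (s • til q ξ), exp_mem_unitary_of_mem_skewAdjoint h1⟩, ?_⟩, rfl⟩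
  change Commute q (exp (s • til q ξ)).2
  rw [Prod.snd_exp]
  exact ((hPart_commute hq ξ).smul_right s).exp_right

theorem continuous_val : Continuous (Gam.val : Gam q → E × E) :=
  continuous_subtype_val.comp continuous_subtype_val

theorem hasDerivAt_flow (t : ℝ) (z a : E × E) (s : ℝ) :
    HasDerivAt (fun s : ℝ => (t, exp (s • z) * a)) ((0 : ℝ), z * (exp (s • z) * a)) s := by
  have : CompleteSpace E := FiniteDimensional.complete ℝ E
  rw [← mul_assoc]
  exact (hasDerivAt_const s t).prodMk ((hasDerivAt_exp_smul_const' z s).mul_const a)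

theorem integral_fld_eq_zero (hq : IsStarProjection q) [CompactSpace (Gam q)]
    (μ : Measure (Gam q)) [IsFiniteMeasure μ] [μ.IsMulLeftInvariant] {f : ℝ × (E × E) → ℝ}
    (hf : ContDiff ℝ 1 f) (t : ℝ) {ξ : E} (hξ : ξ ∈ skewAdjoint E) :
    ∫ γ : Gam q, fderiv ℝ f (t, (Gam.val γ)) (0, fld q ξ (Gam.val γ)) ∂μ = 0 := by
  have hc : Continuous fun s : ℝ => exp (s • til q ξ) :=
    continuous_iff_continuousAt.2 fun s => by
      have : CompleteSpace E := FiniteDimensional.complete ℝ E
      exact (hasDerivAt_exp_smul_const' (til q ξ) s).continuousAt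
  have hv := continuous_val (q := q)
  have hfc := hf.continuous
  have hf' := hf.continuous_fderiv one_ne_zero
  have h1 := hasDerivAt_integral_compact μ (fun s γ => f (t, exp (s • til q ξ) * (Gam.val γ)))
    (fun s γ => fderiv ℝ f (t, exp (s • til q ξ) * (Gam.val γ))
      (0, til q ξ * (exp (s • til q ξ) * (Gam.val γ)))) (fun s => by fun_prop) (by
      have h2 : Continuous fun p : ℝ × Gam q => exp (p.1 • til q ξ) * Gam.val p.2 :=
        (hc.comp continuous_fst).mul (hv.comp continuous_snd)
      exact (hf'.comp (continuous_const.prodMk h2)).clm_apply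
        (continuous_const.prodMk (continuous_const.mul h2)))
    (fun s γ => (hf.differentiable one_ne_zero _).hasFDerivAt.comp_hasDerivAt s
      (hasDerivAt_flow t _ _ s)) 0
  have h2 : (fun s : ℝ => ∫ γ : Gam q, f (t, exp (s • til q ξ) * (Gam.val γ)) ∂μ) =
      fun _ => ∫ γ : Gam q, f (t, (Gam.val γ)) ∂μ := by
    funext s
    obtain ⟨e, he⟩ := exists_flow hq hξ s
    rw [← he]
    exact integral_mul_left_eq_self (fun γ : Gam q => f (t, (Gam.val γ))) e
  rw [h2] at h1
  simpa [fld_eq] using h1.unique (hasDerivAt_const _ _)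

theorem skew_of_curve {X : Type*} [NormedAddCommGroup X] [NormedSpace ℝ X] {F : X → E}
    (hF : Differentiable ℝ F) {c : ℝ → X} {w : X} {s : ℝ} (hc : HasDerivAt c w s)
    (hu : ∀ s, F (c s) ∈ unitary E) :
    fderiv ℝ F (c s) w * star (F (c s)) ∈ skewAdjoint E := by
  have h1 : HasDerivAt (fun s => F (c s)) (fderiv ℝ F (c s) w) s :=
    (hF _).hasFDerivAt.comp_hasDerivAt s hc
  have h2 : HasDerivAt (fun s => star (F (c s))) (star (fderiv ℝ F (c s) w)) s :=
    (starL' ℝ : E ≃L[ℝ] E).hasFDerivAt.comp_hasDerivAt s h1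
  have h3 := h1.mul h2
  have h4 : ((fun s => F (c s)) * fun s => star (F (c s))) = fun _ => 1 :=
    funext fun s => (hu s).2
  rw [h4] at h3
  have h5 := h3.unique (hasDerivAt_const _ _)
  rw [skewAdjoint.mem_iff, star_mul, star_star]
  exact eq_neg_of_add_eq_zero_right h5

/-- The homotopy on `ℝ × E × E`. -/
def FF (q : E) (H : ℝ × E → E) (x : ℝ × (E × E)) : E := Fm q (fun y => H (x.1, y)) x.2

theorem contDiff_star : ContDiff ℝ 2 (star : E → E) := (starL' ℝ : E ≃L[ℝ] E).contDiff

theorem contDiff_FF {H : ℝ × E → E} (hH : ContDiff ℝ 2 H) : ContDiff ℝ 2 (FF q H) := by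
  have := contDiff_star (E := E)
  unfold FF Fm
  fun_prop

theorem FF_unitary (hq : IsStarProjection q) {H : ℝ × E → E}
    (hH : ∀ t, ∀ h ∈ unitary E, Commute q h → H (t, q * h) ∈ unitary E) (t : ℝ) (γ : Gam q) :
    FF q H (t, (Gam.val γ)) ∈ unitary E := by
  have hg : (Gam.val γ).1 ∈ unitary E := ⟨congrArg Prod.fst γ.1.2.1, congrArg Prod.fst γ.1.2.2⟩
  have hh : (Gam.val γ).2 ∈ unitary E := ⟨congrArg Prod.snd γ.1.2.1, congrArg Prod.snd γ.1.2.2⟩
  have hc : Commute q (Gam.val γ).2 := γ.2
  refine mul_mem (mul_mem (mul_mem (Unitary.star_mem hg) ?_) hg) (hH t _ hh hc)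
  generalize (Gam.val γ).2 = h at hh hc
  have h0 : q * q = q := hq.isIdempotentElem
  have h0' : ∀ x, q * (q * x) = q * x := fun x => by rw [← mul_assoc, h0]
  have hs : star q = q := hq.isSelfAdjoint
  have h1 : h * q = q * h := hc.symm
  have h1' : ∀ x, h * (q * x) = q * (h * x) := fun x => by rw [← mul_assoc, h1, mul_assoc]
  have h2 : star h * q = q * star h := by
    have := congrArg star h1
    simp only [star_mul, hs] at this
    exact this.symm
  have h2' : ∀ x, star h * (q * x) = q * (star h * x) := fun x => by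
    rw [← mul_assoc, h2, mul_assoc]
  constructor
  · simp only [star_add, star_mul, star_sub, hs, mul_add, add_mul, mul_sub, sub_mul,
      mul_one, one_mul, mul_assoc, h0, h0', h2, h2', hh.1]
    abel
  · simp only [star_add, star_mul, star_sub, hs, mul_add, add_mul, mul_sub, sub_mul,
      mul_one, one_mul, mul_assoc, h0, h0', h1, h1', h2, hh.2]
    abel

/-- Infinitesimal invariance of `FF`. -/
theorem fderiv_FF_inv (hq : IsStarProjection q) {H : ℝ × E → E} (hH : ContDiff ℝ 2 H) (t : ℝ)
    (g h : E) {ζ : E} (hζ : ζ ∈ skewAdjoint E) (hc : Commute q ζ) :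
    fderiv ℝ (FF q H) (t, (g, h)) (0, (ζ * g, (1 - q) * (ζ * h - h * ζ))) = 0 := by
  have h0 : q * q = q := hq.isIdempotentElem
  have h0' : ∀ x, q * (q * x) = q * x := fun x => by rw [← mul_assoc, h0]
  set κ := (1 - q) * (ζ * h - h * ζ) with hκ
  have hqκ : q * κ = 0 := by rw [hκ, ← mul_assoc, mul_sub q 1 q, mul_one, h0, sub_self, zero_mul]
  have c1 : HasDerivAt (fun s : ℝ => g + s • (ζ * g)) (ζ * g) 0 := by
    simpa using ((hasDerivAt_id (0 : ℝ)).smul_const (ζ * g)).const_add g
  have c2 : HasDerivAt (fun s : ℝ => h + s • κ) κ 0 := by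
    simpa using ((hasDerivAt_id (0 : ℝ)).smul_const κ).const_add h
  have c3 : HasDerivAt (fun s : ℝ => star (g + s • (ζ * g))) (star (ζ * g)) 0 :=
    (starL' ℝ : E ≃L[ℝ] E).hasFDerivAt.comp_hasDerivAt 0 c1
  have h1 := ((contDiff_FF (q := q) hH).differentiable (by norm_num) _).hasFDerivAt.comp_hasDerivAt
    (0 : ℝ) ((hasDerivAt_const (0 : ℝ) t).prodMk (c1.prodMk c2))
  have h2 := ((c3.mul ((c2.const_mul (1 - q)).const_add q)).mul c1).mul_const (H (t, q * h))
  have h3 : (FF q H ∘ fun s : ℝ => (t, (g + s • (ζ * g), h + s • κ))) = fun s : ℝ =>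
      (((fun s : ℝ => star (g + s • (ζ * g))) * fun s : ℝ => q + (1 - q) * (h + s • κ)) *
        fun s : ℝ => g + s • (ζ * g)) s * H (t, q * h) := by
    funext s
    simp [FF, Fm, mul_add, hqκ]
  rw [h3] at h1
  have h4 := h1.unique h2
  simp only [zero_smul, add_zero, Pi.mul_apply] at h4
  rw [h4]
  have h5 : ζ * q = q * ζ := hc.symm
  have h5' : ∀ x, ζ * (q * x) = q * (ζ * x) := fun x => by rw [← mul_assoc, h5, mul_assoc]
  rw [star_mul, skewAdjoint.mem_iff.1 hζ, hκ]
  simp only [mul_add, add_mul, mul_sub, sub_mul, one_mul, mul_assoc, h0', h5', mul_neg,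
    neg_mul]
  abel

/-- The vector fields. -/
def VV (q : E) {d : ℕ} (b : Fin d → skewAdjoint E) : Fin (d + 1) → ℝ × (E × E) → ℝ × (E × E) :=
  Fin.cons (fun _ => (1, 0)) (fun i x => (0, til q (b i) * x.2))

theorem contDiff_VV {d : ℕ} (b : Fin d → skewAdjoint E) (i : Fin (d + 1)) :
    ContDiff ℝ 1 (VV q b i) := by
  refine Fin.cases ?_ (fun i => ?_) i
  · exact contDiff_const
  · simp only [VV, Fin.cons_succ]; fun_prop

theorem fderiv_lin (z : E × E) (x w : ℝ × (E × E)) :
    fderiv ℝ (fun x : ℝ × (E × E) => ((0 : ℝ), z * x.2)) x w = (0, z * w.2) := by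
  have := ((hasFDerivAt_const (0 : ℝ) x).prodMk ((hasFDerivAt_snd (𝕜 := ℝ) (p := x)).const_mul z))
  rw [this.fderiv]
  simp

theorem bracket_mem (hq : IsStarProjection q) (β : E →ₗ[ℝ] ℝ)
    (hβ : ∀ a b, β (a * b) = β (b * a)) (hpos : ∀ a, a ≠ 0 → 0 < β (star a * a))
    {H : ℝ × E → E} (hH : ContDiff ℝ 2 H) {d : ℕ} (b : Basis (Fin d) ℝ (skewAdjoint E))
    (hb1 : ∀ i, hPart q (b i) = b i ∨ hPart q (b i : E) = 0)
    (hb2 : ∀ i j, i ≠ j → β (b i * b j) = 0) (t : ℝ) (γ : Gam q) (i j : Fin (d + 1)) :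
    fderiv ℝ (FF q H) (t, (Gam.val γ)) (lieBracket ℝ (VV q b i) (VV q b j) (t, (Gam.val γ))) ∈
      Submodule.span ℝ ((fun k => fderiv ℝ (FF q H) (t, (Gam.val γ)) (VV q b k (t, (Gam.val γ)))) ''
        {k | k ≠ i ∧ k ≠ j}) := by
  have hh : (Gam.val γ).2 ∈ unitary E := ⟨congrArg Prod.snd γ.1.2.1, congrArg Prod.snd γ.1.2.2⟩
  have hc : Commute q (Gam.val γ).2 := γ.2
  generalize (Gam.val γ) = a at hh hc
  obtain ⟨g, h⟩ := a
  simp only at hh hc
  set D := fderiv ℝ (FF q H) (t, (g, h)) with hD
  refine Fin.cases ?_ (fun i => ?_) i <;> refine Fin.cases ?_ (fun j => ?_) j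
  · simp
  · have : lieBracket ℝ (VV q b 0) (VV q b j.succ) (t, (g, h)) = 0 := by
      simp [lieBracket, VV, fderiv_lin]
    rw [this, map_zero]; exact Submodule.zero_mem _
  · have : lieBracket ℝ (VV q b i.succ) (VV q b 0) (t, (g, h)) = 0 := by
      simp [lieBracket, VV, fderiv_lin]
    rw [this, map_zero]; exact Submodule.zero_mem _
  have hbr : lieBracket ℝ (VV q b i.succ) (VV q b j.succ) (t, (g, h)) =
      (0, (til q (b j) * til q (b i) - til q (b i) * til q (b j)) * (g, h)) := by
    simp [lieBracket, VV, fderiv_lin, sub_mul, mul_assoc]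
  let L : skewAdjoint E →ₗ[ℝ] E :=
    { toFun := fun ξ => D (0, til q ξ * (g, h))
      map_add' := fun ξ η => by
        rw [← map_add]; congr 1
        ext <;> simp [til, hPart] <;> noncomm_ring
      map_smul' := fun c ξ => by
        rw [RingHom.id_apply, ← map_smul]; congr 1
        ext <;> simp [til, hPart, smul_sub, smul_add, sub_mul, add_mul] }
  have key : ∀ ζ : skewAdjoint E, β (ζ * b i) = 0 → β (ζ * b j) = 0 → L ζ ∈
      Submodule.span ℝ ((fun k => D (VV q b k (t, (g, h)))) '' {k | k ≠ i.succ ∧ k ≠ j.succ}) := by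
    intro ζ h1 h2
    have h3 := mem_span_of_orth (((LinearMap.mul ℝ E).compr₂ β).compl₁₂ incl incl) b hb2
      (fun k => by
        have h4 := hpos (b k) (fun h => b.ne_zero k (Subtype.ext h))
        rw [skewAdjoint.mem_iff.1 (b k).2, neg_mul, map_neg] at h4
        exact (neg_pos.1 h4).ne) ζ {k | k ≠ i ∧ k ≠ j} (fun k hk => by
        simp only [Set.mem_ofPred_eq, not_and_or, not_not] at hk
        rcases hk with rfl | rfl
        · exact h1
        · exact h2)
    have h4 := Submodule.mem_map_of_mem (f := L) h3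
    rw [Submodule.map_span] at h4
    refine Submodule.span_mono ?_ h4
    rintro _ ⟨_, ⟨k, hk, rfl⟩, rfl⟩
    exact ⟨k.succ, ⟨fun h => hk.1 (Fin.succ_injective _ h), fun h => hk.2 (Fin.succ_injective _ h)⟩,
      rfl⟩
  have hi := skewAdjoint.mem_iff.1 (b i).2
  have hj := skewAdjoint.mem_iff.1 (b j).2
  have hζ : (b j : E) * b i - b i * b j ∈ skewAdjoint E := by
    rw [skewAdjoint.mem_iff, star_sub, star_mul, star_mul, hi, hj]; noncomm_ring
  rw [hbr]
  rcases hb1 i with h1 | h1 <;> rcases hb1 j with h2 | h2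
  · have hcm : Commute q ((b j : E) * b i - b i * b j) := by
      have c1 : Commute q (b i : E) := h1 ▸ hPart_commute hq _
      have c2 : Commute q (b j : E) := h2 ▸ hPart_commute hq _
      exact (c2.mul_right c1).sub_right (c1.mul_right c2)
    have := key ⟨_, hζ⟩ (by
      simp only [sub_mul, map_sub]
      rw [mul_assoc (b i : E) (b j) (b i), hβ (b i : E), sub_self]) (by
      simp only [sub_mul, map_sub]
      rw [mul_assoc (b j : E) (b i) (b j), hβ (b j : E), sub_self])
    convert this using 1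
    simp [L, til, h1, h2, hPart_of_commute hq hcm]
  · have : til q (b j) * til q (b i) - til q (b i) * til q (b j) = 0 := by
      simp [til, h1, h2]
    rw [this, zero_mul, Prod.mk_zero_zero, map_zero]; exact Submodule.zero_mem _
  · have : til q (b j) * til q (b i) - til q (b i) * til q (b j) = 0 := by
      simp [til, h1, h2]
    rw [this, zero_mul, Prod.mk_zero_zero, map_zero]; exact Submodule.zero_mem _
  · have hcm : Commute q ((b j : E) * b i - b i * b j) :=
      (commute_mul_of_hPart hq h1 h2).sub_right (commute_mul_of_hPart hq h2 h1)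
    set ζ := (b j : E) * b i - b i * b j with hζdef
    have hs : star q = q := hq.isSelfAdjoint
    have hc' : Commute q (star h) := by
      have := congrArg star hc.eq
      simp only [star_mul, hs] at this
      exact this.symm
    have hcη : Commute q (h * ζ * star h - ζ) := ((hc.mul_right hcm).mul_right hc').sub_right hcm
    have hc1 : Commute (1 - q) (h * ζ * star h - ζ) := (Commute.one_left _).sub_left hcη
    have hη : (1 - q) * (h * ζ * star h - ζ) ∈ skewAdjoint E := by
      rw [skewAdjoint.mem_iff, star_mul, hc1.eq]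
      simp only [star_sub, star_mul, star_star, star_one, hs, skewAdjoint.mem_iff.1 hζ]
      noncomm_ring
    have hηP : hPart q ((1 - q) * (h * ζ * star h - ζ)) = (1 - q) * (h * ζ * star h - ζ) :=
      hPart_of_commute hq (((Commute.one_right q).sub_right (Commute.refl q)).mul_right hcη)
    have := key ⟨_, hη⟩ (by simp only; rw [← hηP, trace_hPart β hβ, h1, mul_zero, map_zero])
      (by simp only; rw [← hηP, trace_hPart β hβ, h2, mul_zero, map_zero])
    convert this using 1
    have h3 := fderiv_FF_inv hq hH t g h hζ hcm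
    rw [← hD] at h3
    rw [← sub_eq_zero, ← h3]
    simp only [L, LinearMap.coe_mk, AddHom.coe_mk]
    have e1 : til q (b j) * til q (b i) - til q (b i) * til q (b j) = (ζ, 0) := by
      simp [til, h1, h2, hζdef]
    have e2 : til q ((1 - q) * (h * ζ * star h - ζ)) = (0, (1 - q) * (h * ζ * star h - ζ)) := by
      rw [til, hηP, sub_self]
    rw [← map_sub, e1, e2]
    congr 1
    ext
    · simp
    · simp
    · simp only [Prod.snd_sub, Prod.snd_mul, zero_mul, mul_assoc, sub_mul, hh.1, mul_one]
      noncomm_ring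

theorem not_linearIndependent (hq : IsStarProjection q) {H : ℝ × E → E} (hH : ContDiff ℝ 2 H)
    (hU : ∀ t, ∀ h ∈ unitary E, Commute q h → H (t, q * h) ∈ unitary E) {d : ℕ}
    (b : Basis (Fin d) ℝ (skewAdjoint E)) (t : ℝ) (γ : Gam q) :
    ¬ LinearIndependent ℝ fun i => fderiv ℝ (FF q H) (t, (Gam.val γ)) (VV q b i (t, (Gam.val γ))) := by
  have hF := (contDiff_FF (q := q) hH).differentiable (by norm_num)
  have h1 : ∀ i, fderiv ℝ (FF q H) (t, (Gam.val γ)) (VV q b i (t, (Gam.val γ))) * star (FF q H (t, (Gam.val γ))) ∈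
      skewAdjoint E := by
    intro i
    refine Fin.cases ?_ (fun i => ?_) i
    · exact skew_of_curve hF ((hasDerivAt_id t).prodMk (hasDerivAt_const t (Gam.val γ)))
        (fun s => FF_unitary hq hU s γ)
    · have := skew_of_curve hF (hasDerivAt_flow t (til q (b i)) (Gam.val γ) 0) (fun s => by
        obtain ⟨e, he⟩ := exists_flow hq (b i).2 s
        rw [← he]
        exact FF_unitary hq hU t (e * γ))
      simpa [VV] using this
  intro hli
  have h2 : (fun i => fderiv ℝ (FF q H) (t, (Gam.val γ)) (VV q b i (t, (Gam.val γ)))) =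
      ((LinearMap.mulRight ℝ (FF q H (t, (Gam.val γ)))).comp incl) ∘ fun i => ⟨_, h1 i⟩ := by
    funext i
    simp [incl, mul_assoc, (FF_unitary hq hU t γ).1]
  rw [h2] at hli
  have h3 := (LinearIndependent.of_comp _ hli).fintype_card_le_finrank
  rw [finrank_eq_card_basis b] at h3
  simp at h3

end IntHtp

open IntHtp in
theorem intHtp : IntHtp := by
  intro E _ _ _ _ _ _ β hβ hpos q hq _ μ _ _ φ hφ H hH hU
  let P : skewAdjoint E →ₗ[ℝ] skewAdjoint E :=
    { toFun := fun ξ => ⟨hPart q ξ, hPart_skew hq ξ.2⟩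
      map_add' := fun ξ η => by ext; simp [hPart]; noncomm_ring
      map_smul' := fun c ξ => by ext; simp [hPart] }
  obtain ⟨d, b, hb1, hb2⟩ := exists_adapted_basis
    (((LinearMap.mul ℝ E).compr₂ β).compl₁₂ incl incl) (fun x y => hβ x y) P
    (LinearMap.ext fun ξ => Subtype.ext (hPart_of_commute hq (hPart_commute hq ξ)))
    (fun x y => trace_hPart β hβ x y)
  have hb1' : ∀ i, hPart q (b i) = b i ∨ hPart q (b i : E) = 0 := fun i =>
    (hb1 i).imp (congrArg Subtype.val) (congrArg Subtype.val)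
  obtain ⟨ω₀, hω₀⟩ := exists_detForm b (skewAdjointPart ℝ (A := E))
  let R : E →L[ℝ] E →L[ℝ] E :=
    (ContinuousLinearMap.mul ℝ E).flip.comp (starL' ℝ : E ≃L[ℝ] E).toContinuousLinearMap
  let ω : E → E [⋀^Fin d]→L[ℝ] ℝ := fun y => φ y • ω₀.compContinuousLinearMap (R y)
  have hω : ∀ y, DifferentiableAt ℝ ω y := fun y =>
    (hφ.differentiable one_ne_zero y).smul
      ((differentiableAt_const ω₀).continuousAlternatingMapCompContinuousLinearMap
        R.differentiableAt)
  have hωv : ∀ y v, ω y v = φ y * ω₀ (fun j => v j * star y) := fun y v => rfl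
  have hF := contDiff_FF (q := q) hH
  let f : Fin (d + 1) → ℝ × (E × E) → ℝ := fun i y =>
    ω (FF q H y) (fun j => fderiv ℝ (FF q H) y (VV q b (i.succAbove j) y))
  have hf : ∀ i, ContDiff ℝ 1 (f i) := by
    intro i
    have hF1 : ContDiff ℝ 1 (FF q H) := hF.of_le (by norm_num)
    simp only [f, hωv]
    refine (hφ.comp hF1).mul (ω₀.toContinuousMultilinearMap.contDiff.comp
      (contDiff_pi.2 fun j => ?_))
    exact ((hF.fderiv_right (m := 1) (by norm_num)).clm_apply (contDiff_VV b _)).mul
      ((contDiff_star.of_le (by norm_num)).comp hF1)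
  have hsum : ∀ (t : ℝ) (γ : Gam q), ∑ i : Fin (d + 1), (-1 : ℝ) ^ i.val *
      fderiv ℝ (f i) (t, (Gam.val γ)) (VV q b i (t, (Gam.val γ))) = 0 := fun t γ =>
    sum_fderiv_eq_zero (hω _) hF (fun i => (contDiff_VV b i).differentiable one_ne_zero _)
      (not_linearIndependent hq hH hU b t γ)
      (fun i j _ => bracket_mem hq β hβ hpos hH b hb1' hb2 t γ i j)
  have hv := continuous_val (q := q)
  have hder : ∀ t, HasDerivAt (fun t => ∫ γ : Gam q, f 0 (t, (Gam.val γ)) ∂μ) 0 t := by
    intro t
    have hfc := (hf 0).continuous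
    have h1 := hasDerivAt_integral_compact μ (fun s γ => f 0 (s, (Gam.val γ)))
      (fun s γ => fderiv ℝ (f 0) (s, (Gam.val γ)) (1, 0)) (fun s => by fun_prop)
      ((((hf 0).continuous_fderiv one_ne_zero).comp
        (continuous_fst.prodMk (hv.comp continuous_snd))).clm_apply continuous_const)
      (fun s γ => ((hf 0).differentiable one_ne_zero _).hasFDerivAt.comp_hasDerivAt s
        ((hasDerivAt_id s).prodMk (hasDerivAt_const s (Gam.val γ)))) t
    convert h1 using 1
    have h2 : ∀ γ : Gam q, fderiv ℝ (f 0) (t, (Gam.val γ)) (1, 0) = ∑ i : Fin d, (-1 : ℝ) ^ i.val *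
        fderiv ℝ (f i.succ) (t, (Gam.val γ)) (0, fld q (b i) (Gam.val γ)) := by
      intro γ
      have h3 := hsum t γ
      rw [Fin.sum_univ_succ] at h3
      simp only [VV, Fin.cons_zero, Fin.cons_succ, Fin.val_zero, pow_zero, one_mul, Fin.val_succ,
        pow_succ, mul_neg, mul_one, neg_mul, Finset.sum_neg_distrib] at h3
      exact eq_of_add_neg_eq_zero h3
    simp only [h2]
    rw [integral_finsetSum]
    · refine (Finset.sum_eq_zero fun i _ => ?_).symm
      rw [integral_const_mul, integral_fld_eq_zero hq μ (hf _) t (b i).2, mul_zero]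
    · intro i _
      refine Continuous.integrable_of_hasCompactSupport (continuous_const.mul ?_)
        (HasCompactSupport.of_compactSpace _)
      exact (((hf _).continuous_fderiv one_ne_zero).comp (continuous_const.prodMk hv)).clm_apply
        (continuous_const.prodMk ((continuous_const (y := til q (b i))).mul hv))
  have hval : ∀ t, Int μ φ (Fm q fun x => H (t, x)) = ∫ γ : Gam q, f 0 (t, (Gam.val γ)) ∂μ := by
    intro t
    refine integral_congr_ae (Filter.Eventually.of_forall fun γ => ?_)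
    simp only [f, hωv, hω₀]
    congr 1
    have h1 : ∀ v, fderiv ℝ (Fm q fun x => H (t, x)) (Gam.val γ) v = fderiv ℝ (FF q H) (t, (Gam.val γ)) (0, v) := by
      intro v
      have := ((hF.differentiable (by norm_num) (t, (Gam.val γ))).hasFDerivAt.comp (Gam.val γ)
        (hasFDerivAt_prodMk_right (𝕜 := ℝ) t (Gam.val γ))).fderiv
      exact congrArg (· v) this
    have h2 := b.det_comp (Lin q (Fm q fun x => H (t, x)) (Gam.val γ)) b
    rw [Basis.det_self, mul_one] at h2
    refine h2.symm.trans ?_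
    congr 1
    funext j
    simp only [Function.comp_apply, Lin, LinearMap.coe_mk, AddHom.coe_mk, h1]
    rfl
  rw [hval, hval]
  exact is_const_of_deriv_eq_zero (fun t => (hder t).differentiableAt) (fun t => (hder t).deriv) 0 1

end Crest.Agent.R174
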