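import Crest.Agent.R174.Defs

/-!
General lemmas for the homotopy invariance of the degree integral.
-/

set_option autoImplicit false

namespace Crest.Agent.R174.IntHtp

open MeasureTheory VectorField Module

/-- Pointwise divergence identity. -/
theorem sum_fderiv_eq_zero {X Y : Type*} [NormedAddCommGroup X] [NormedSpace ℝ X]
    [NormedAddCommGroup Y] [NormedSpace ℝ Y] {d : ℕ} {ω : Y → Y [⋀^Fin d]→L[ℝ] ℝ} {F : X → Y}
    {V : Fin (d + 1) → X → X} {x : X} (hω : DifferentiableAt ℝ ω (F x)) (hF : ContDiff ℝ 2 F)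
    (hV : ∀ i, DifferentiableAt ℝ (V i) x)
    (hdep : ¬ LinearIndependent ℝ fun i => fderiv ℝ F x (V i x))
    (h0 : ∀ i j, i ≠ j → fderiv ℝ F x (lieBracket ℝ (V i) (V j) x) ∈
      Submodule.span ℝ ((fun k => fderiv ℝ F x (V k x)) '' {k | k ≠ i ∧ k ≠ j})) :
    ∑ i : Fin (d + 1), (-1 : ℝ) ^ i.val *
      fderiv ℝ (fun y => ω (F y) (fun j => fderiv ℝ F y (V (i.succAbove j) y))) x (V i x) = 0 := by
  set Ω : X → X [⋀^Fin d]→L[ℝ] ℝ := fun y => (ω (F y)).compContinuousLinearMap (fderiv ℝ F y)
    with hΩ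
  have hΩd : DifferentiableAt ℝ Ω x :=
    (hω.comp x (hF.differentiable (by norm_num) x)).continuousAlternatingMapCompContinuousLinearMap
      ((hF.fderiv_right (m := 1) (by norm_num)).differentiable (by norm_num) x)
  have h1 : extDeriv Ω x (V · x) = 0 := by
    rw [hΩ, extDeriv_pullback hω hF.contDiffAt (by simp)]
    exact (extDeriv ω (F x)).toAlternatingMap.map_linearDependent _ hdep
  have h2 : extDeriv Ω x (V · x) =
      ∑ i, (-1) ^ i.val • fderiv ℝ (fun x ↦ Ω x (i.removeNth (V · x))) x (V i x) := by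
    cases d with
    | zero =>
      exact extDeriv_apply_vectorField_of_pairwise_commute hΩd hV
        (fun i j hij => absurd (Subsingleton.elim (α := Fin 1) i j) hij)
    | succ n =>
      rw [extDeriv_apply_vectorField hΩd hV, sub_eq_self]
      refine Fintype.sum_eq_zero _ fun i => Finset.sum_eq_zero fun j hj => ?_
      have hj' : i ≤ j := Finset.mem_Ici.1 hj
      have h3 : Ω x (Matrix.vecCons (lieBracket ℝ (V i.castSucc) (V j.succ) x)
          (j.removeNth <| i.castSucc.removeNth (V · x))) = 0 := by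
        refine (ω (F x)).toAlternatingMap.map_linearDependent _ fun hli => ?_
        have e : (fderiv ℝ F x ∘ Matrix.vecCons (lieBracket ℝ (V i.castSucc) (V j.succ) x)
            (j.removeNth <| i.castSucc.removeNth (V · x))) =
            Fin.cons (fderiv ℝ F x (lieBracket ℝ (V i.castSucc) (V j.succ) x))
              (fun k => fderiv ℝ F x (V (i.castSucc.succAbove (j.succAbove k)) x)) := by
          funext k
          refine Fin.cases ?_ (fun k => ?_) k
          · simp
          · simp [Fin.removeNth]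
        have hli' : LinearIndependent ℝ (fderiv ℝ F x ∘
            Matrix.vecCons (lieBracket ℝ (V i.castSucc) (V j.succ) x)
            (j.removeNth <| i.castSucc.removeNth (V · x))) := hli
        rw [e, linearIndependent_finCons] at hli'
        apply hli'.2
        refine Submodule.span_mono ?_ (h0 _ _ (ne_of_lt (by simpa using hj')))
        rintro _ ⟨k, ⟨hk1, hk2⟩, rfl⟩
        obtain ⟨k', rfl⟩ := Fin.exists_succAbove_eq hk1
        have hk3 : k' ≠ j := by
          rintro rfl
          exact hk2 (by simp [Fin.succAbove_of_le_castSucc, hj'])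
        obtain ⟨k'', rfl⟩ := Fin.exists_succAbove_eq hk3
        exact ⟨k'', rfl⟩
      rw [h3, smul_zero]
  rw [h1] at h2
  refine Eq.trans (Finset.sum_congr rfl fun i _ => ?_) h2.symm
  rw [zsmul_eq_mul]
  push_cast
  rfl

/-- Differentiation under the integral sign over a compact space. -/
theorem hasDerivAt_integral_compact {Γ : Type*} [TopologicalSpace Γ] [CompactSpace Γ]
    [MeasurableSpace Γ] [BorelSpace Γ] (μ : Measure Γ) [IsFiniteMeasure μ] (G G' : ℝ → Γ → ℝ)
    (hG : ∀ s, Continuous (G s)) (hG' : Continuous fun p : ℝ × Γ => G' p.1 p.2)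
    (h : ∀ s γ, HasDerivAt (G · γ) (G' s γ) s) (s0 : ℝ) :
    HasDerivAt (fun s => ∫ γ, G s γ ∂μ) (∫ γ, G' s0 γ ∂μ) s0 := by
  obtain ⟨C, hC⟩ := ((isCompact_closedBall s0 1).prod (isCompact_univ (X := Γ))).exists_bound_of_continuousOn
    hG'.continuousOn
  refine (hasDerivAt_integral_of_dominated_loc_of_deriv_le (bound := fun _ => C)
    (Metric.closedBall_mem_nhds s0 one_pos)
    (Filter.Eventually.of_forall fun s => (hG s).aestronglyMeasurable)
    ((hG s0).integrable_of_hasCompactSupport (HasCompactSupport.of_compactSpace _))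
    (hG'.comp (Continuous.prodMk_right s0)).aestronglyMeasurable
    (Filter.Eventually.of_forall fun γ s hs => hC (s, γ) ⟨hs, trivial⟩) (integrable_const C)
    (Filter.Eventually.of_forall fun γ s _ => h s γ)).2

/-- An orthogonal basis of eigenvectors of a symmetric idempotent. -/
theorem exists_adapted_basis {V : Type*} [AddCommGroup V] [Module ℝ V] [FiniteDimensional ℝ V]
    (B : LinearMap.BilinForm ℝ V) (hB : ∀ x y, B x y = B y x) (P : V →ₗ[ℝ] V) (hP : IsIdempotentElem P)
    (hPB : ∀ x y, B (P x) y = B x (P y)) :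
    ∃ (d : ℕ) (b : Basis (Fin d) ℝ V), (∀ i, P (b i) = b i ∨ P (b i) = 0) ∧
      ∀ i j, i ≠ j → B (b i) (b j) = 0 := by
  obtain ⟨b1, h1⟩ := LinearMap.BilinForm.exists_orthogonal_basis
    (B := B.restrict (LinearMap.range P)) ⟨fun x y => hB x y⟩
  obtain ⟨b2, h2⟩ := LinearMap.BilinForm.exists_orthogonal_basis
    (B := B.restrict (LinearMap.ker P)) ⟨fun x y => hB x y⟩
  set b := (b1.prod b2).map (Submodule.prodEquivOfIsCompl _ _ (LinearMap.IsIdempotentElem.isCompl hP)) with hb
  have e1 : ∀ i, b (Sum.inl i) = b1 i := by intro i; simp [hb]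
  have e2 : ∀ i, b (Sum.inr i) = b2 i := by intro i; simp [hb]
  have p1 : ∀ i, P (b1 i) = b1 i := fun i => (LinearMap.IsIdempotentElem.mem_range_iff hP).1 (b1 i).2
  have p2 : ∀ i, P (b2 i) = 0 := fun i => (b2 i).2
  refine ⟨_, b.reindex finSumFinEquiv, fun i => ?_, fun i j hij => ?_⟩
  · rw [Basis.reindex_apply]
    rcases finSumFinEquiv.symm i with k | k
    · left; rw [e1, p1]
    · right; rw [e2, p2]
  · rw [Basis.reindex_apply, Basis.reindex_apply]
    have hne : finSumFinEquiv.symm i ≠ finSumFinEquiv.symm j := fun h =>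
      hij (finSumFinEquiv.symm.injective h)
    revert hne
    rcases finSumFinEquiv.symm i with k | k <;> rcases finSumFinEquiv.symm j with l | l <;>
      intro hne
    · rw [e1, e1]; exact h1 (fun h => hne (congrArg _ h))
    · rw [e1, e2, ← p1, hPB, p2, map_zero]
    · rw [e2, e1, ← p1, ← hPB, p2, map_zero, LinearMap.zero_apply]
    · rw [e2, e2]; exact h2 (fun h => hne (congrArg _ h))

theorem mem_span_of_orth {V : Type*} [AddCommGroup V] [Module ℝ V] {d : ℕ}
    (B : LinearMap.BilinForm ℝ V) (b : Basis (Fin d) ℝ V) (h1 : ∀ i j, i ≠ j → B (b i) (b j) = 0)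
    (h2 : ∀ i, B (b i) (b i) ≠ 0) (ζ : V) (s : Set (Fin d)) (h : ∀ k, k ∉ s → B ζ (b k) = 0) :
    ζ ∈ Submodule.span ℝ (b '' s) := by
  rw [b.mem_span_image]
  intro k hk
  by_contra hks
  have h3 := h k hks
  rw [← b.sum_repr ζ, map_sum, LinearMap.sum_apply, Finset.sum_eq_single k] at h3
  · rw [map_smul, LinearMap.smul_apply, smul_eq_mul] at h3
    exact (Finsupp.mem_support_iff.1 hk) ((mul_eq_zero.1 h3).resolve_right (h2 k))
  · intro j _ hj
    rw [map_smul, LinearMap.smul_apply, h1 j k hj, smul_zero]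
  · simp

theorem exists_detForm {E W : Type*} [NormedAddCommGroup E] [NormedSpace ℝ E]
    [FiniteDimensional ℝ E] [AddCommGroup W] [Module ℝ W] {d : ℕ} (b : Basis (Fin d) ℝ W)
    (π : E →ₗ[ℝ] W) : ∃ ω₀ : E [⋀^Fin d]→L[ℝ] ℝ, ∀ v, ω₀ v = b.det (fun i => π (v i)) := by
  have hc : Continuous fun v : Fin d → E => b.det (fun i => π (v i)) := by
    simp only [Basis.det_apply]
    refine Continuous.matrix_det (continuous_matrix fun i j => ?_)
    exact ((b.coord i).comp π).continuous_of_finiteDimensional.comp (continuous_apply j)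
  exact ⟨{ b.det.compLinearMap π with cont := hc }, fun _ => rfl⟩

end Crest.Agent.R174.IntHtp
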