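import Crest.Agent.R174.Defs

/-!
# Row 174: spectral decomposition of unitary matrices, and paths to the identity
-/

set_option autoImplicit false

namespace Crest.Agent.R174

open Matrix

open scoped Matrix.Norms.L2Operator in
theorem exists_spectral {ι : Type} [Fintype ι] [DecidableEq ι] {g : Matrix ι ι ℂ}
    (hg : g ∈ unitary (Matrix ι ι ℂ)) :
    ∃ (S : Finset ℂ) (P : ℂ → Matrix ι ι ℂ), (∀ z ∈ S, ‖z‖ = 1) ∧ (∀ z, IsStarProjection (P z)) ∧
      (∀ z w, z ≠ w → P z * P w = 0) ∧ ∑ z ∈ S, P z = 1 ∧ ∑ z ∈ S, z • P z = g ∧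
      ∀ a, Commute g a → ∀ z, Commute (P z) a := by
  classical
  have hn : IsStarNormal g := isStarNormal_of_mem_unitary hg
  have hfin : (spectrum ℂ g).Finite := Matrix.finite_spectrum g
  have hc : ∀ f : ℂ → ℂ, ContinuousOn f (spectrum ℂ g) := fun f => hfin.continuousOn f
  let ind : ℂ → ℂ → ℂ := fun z x => if x = z then 1 else 0
  refine ⟨hfin.toFinset, fun z => cfc (ind z) g, ?_, ?_, ?_, ?_, ?_, ?_⟩
  · intro z hz
    exact spectrum.norm_eq_one_of_unitary hg (hfin.mem_toFinset.1 hz)
  · intro z
    constructor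
    · change cfc (ind z) g * cfc (ind z) g = cfc (ind z) g
      rw [← cfc_mul _ _ _ (hc _) (hc _)]
      congr 1
      funext x
      by_cases h : x = z <;> simp [ind, h]
    · change star (cfc (ind z) g) = cfc (ind z) g
      rw [← cfc_star]
      congr 1
      funext x
      by_cases h : x = z <;> simp [ind, h]
  · intro z w hzw
    rw [← cfc_mul _ _ _ (hc _) (hc _)]
    have : (fun x => ind z x * ind w x) = fun _ => 0 := by
      funext x
      by_cases h : x = z
      · have : x ≠ w := h ▸ hzw
        simp [ind, this]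
      · simp [ind, h]
    rw [this, cfc_const_zero]
  · rw [← cfc_sum _ _ _ (fun i _ => hc _), ← cfc_one ℂ g]
    refine cfc_congr fun x hx => ?_
    simp [ind, Finset.sum_apply, hx]
  · have : ∀ z : ℂ, z • cfc (ind z) g = cfc (fun x => z • ind z x) g := fun z =>
      (cfc_smul z _ g (hc _)).symm
    simp_rw [this]
    rw [← cfc_sum _ _ _ (fun i _ => hc _)]
    conv_rhs => rw [← cfc_id' ℂ g]
    refine cfc_congr fun x hx => ?_
    simp [ind, Finset.sum_apply, hx]
  · intro a ha z
    refine Commute.cfc ha ?_ _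
    have h1 : star g * g = 1 := hg.1
    have h2 : g * star g = 1 := hg.2
    change star g * a = a * star g
    calc star g * a = star g * a * (g * star g) := by rw [h2, mul_one]
      _ = star g * (a * g) * star g := by simp only [mul_assoc]
      _ = star g * (g * a) * star g := by rw [ha.eq]
      _ = (star g * g) * a * star g := by simp only [mul_assoc]
      _ = a * star g := by rw [h1, one_mul]

open scoped Matrix.Norms.Operator in
theorem exists_path {ι : Type} [Fintype ι] [DecidableEq ι] {g : Matrix ι ι ℂ}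
    (hg : g ∈ unitary (Matrix ι ι ℂ)) :
    ∃ γ : ℝ → Matrix ι ι ℂ, ContDiff ℝ 2 γ ∧ γ 0 = 1 ∧ γ 1 = g ∧
      (∀ t, γ t ∈ unitary (Matrix ι ι ℂ)) ∧ ∀ a, Commute g a → ∀ t, Commute (γ t) a := by
  obtain ⟨S, P, hS, hP, hO, h1, hg', hC⟩ := exists_spectral hg
  let c : ℝ → ℂ → ℂ := fun t z => Complex.exp ((t : ℂ) * (z.arg * Complex.I))
  have hmul : ∀ a b : ℂ → ℂ, (∑ z ∈ S, a z • P z) * (∑ z ∈ S, b z • P z) =
      ∑ z ∈ S, (a z * b z) • P z := by
    intro a b
    rw [Finset.sum_mul_sum]
    refine Finset.sum_congr rfl fun z hz => ?_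
    rw [Finset.sum_eq_single z]
    · rw [smul_mul_smul_comm, (hP z).isIdempotentElem.eq]
    · intro w _ hw
      rw [smul_mul_smul_comm, hO z w (Ne.symm hw), smul_zero]
    · intro h; exact absurd hz h
  have hstar : ∀ a : ℂ → ℂ, star (∑ z ∈ S, a z • P z) = ∑ z ∈ S, star (a z) • P z := by
    intro a
    rw [star_sum]
    refine Finset.sum_congr rfl fun z _ => ?_
    rw [star_smul, (hP z).isSelfAdjoint.star_eq]
  have hc : ∀ t z, star (c t z) * c t z = 1 := by
    intro t z
    simp only [c, Complex.star_def, ← Complex.exp_conj, ← Complex.exp_add]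
    simp
  refine ⟨fun t => ∑ z ∈ S, c t z • P z, ?_, ?_, ?_, ?_, ?_⟩
  · refine ContDiff.sum fun z _ => ?_
    have h0 : ContDiff ℝ 2 fun t : ℝ => c t z := by
      refine Complex.contDiff_exp.comp ?_
      exact (Complex.ofRealCLM.contDiff).mul contDiff_const
    exact h0.smul contDiff_const
  · simp [c, h1]
  · rw [← hg']
    refine Finset.sum_congr rfl fun z hz => ?_
    congr 1
    have := Complex.norm_mul_exp_arg_mul_I z
    rw [hS z hz] at this
    simpa [c] using this
  · intro t
    constructor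
    · rw [hstar, hmul]; simp only [hc]; simp [h1]
    · rw [hstar, hmul]; simp only [mul_comm (c t _), hc]; simp [h1]
  · intro a ha t
    exact Commute.sum_left _ _ _ fun z _ => (hC a ha z).smul_left _

end Crest.Agent.R174
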