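import Crest.Agent.R174.IntStdA
import Crest.Agent.R174.Spectral

/-!
# Row 174, step B3: the degree integral of the power map does not vanish
-/

set_option autoImplicit false
set_option linter.unusedSectionVars false

namespace Crest.Agent.R174

open Monoid Matrix MeasureTheory

namespace IntStd

theorem scalar {z : ℂ} (hz : z * star z = 1) {k : ℕ} (hk : 1 ≤ k) (h : z = 1 ∨ z ^ k ≠ 1) {s : ℝ}
    (hs : s ∈ Set.Icc (0 : ℝ) 1) :
    (s : ℂ) * (∑ i ∈ Finset.range k, z ^ i) + (1 - (s : ℂ)) ≠ 0 := by
  intro e
  rcases h with rfl | h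
  · simp only [one_pow, Finset.sum_const, Finset.card_range, nsmul_eq_mul, mul_one] at e
    have e' : s * k + (1 - s) = 0 := by exact_mod_cast e
    have : (1 : ℝ) ≤ k := by exact_mod_cast hk
    nlinarith [hs.1, hs.2]
  · have hs0 : s ≠ 0 := by rintro rfl; simp at e
    have hs0' : (s : ℂ) ≠ 0 := by exact_mod_cast hs0
    set r : ℝ := -(1 - s) / s with hr
    have hr0 : r ≤ 0 := div_nonpos_of_nonpos_of_nonneg (by linarith [hs.2]) hs.1
    have hS : ∑ i ∈ Finset.range k, z ^ i = r := by
      rw [hr]; push_cast; field_simp; linear_combination e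
    have h1 : z ^ k = 1 + r * (z - 1) := by
      have := geom_sum_mul z k
      rw [hS] at this
      linear_combination -this
    have h2 : z ^ k * star (z ^ k) = 1 := by rw [star_pow, ← mul_pow, hz, one_pow]
    have h3 : star (z ^ k) = 1 + r * (star z - 1) := by
      rw [h1]; simp
    rw [h3, h1] at h2
    have h4 : (r : ℂ) * (r - 1) * ((z - 1) * star (z - 1)) = 0 := by
      rw [star_sub, star_one]
      linear_combination h2 - (r : ℂ) * hz
    rcases mul_eq_zero.1 h4 with h4 | h4
    · rcases mul_eq_zero.1 h4 with h4 | h4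
      · exact h (by rw [h1, h4]; simp)
      · have : r - 1 = 0 := by exact_mod_cast h4
        linarith
    · have : z - 1 = 0 := by
        rcases mul_eq_zero.1 h4 with h4 | h4
        · exact h4
        · exact star_eq_zero.1 h4
      exact h (by rw [sub_eq_zero.1 this, one_pow])

variable {ι : Type} [Fintype ι] [DecidableEq ι] {p : ℕ}

/-- The indicator of the range. -/
noncomputable def chi (f : Fin p ↪ ι) (i : ι) : ℂ := if ∃ r, f r = i then 1 else 0

theorem prj_eq (f : Fin p ↪ ι) : prj f = diagonal (chi f) := by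
  ext i j
  simp only [prj, emb, mul_apply, conjTranspose_apply, of_apply, diagonal_apply, chi]
  by_cases hi : ∃ r, f r = i
  · obtain ⟨r, rfl⟩ := hi
    rw [Finset.sum_eq_single r]
    · by_cases h : f r = j
      · simp [h.symm]
      · simp [h, Ne.symm h]
    · intro b _ hb
      simp [Ne.symm hb]
    · simp
  · rw [Finset.sum_eq_zero]
    · simp [hi]
    · intro r _
      have : i ≠ f r := fun h => hi ⟨r, h.symm⟩
      simp [this]

theorem chi_mul (f : Fin p ↪ ι) (i : ι) : chi f i * chi f i = chi f i := by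
  unfold chi; split_ifs <;> simp

theorem star_chi (f : Fin p ↪ ι) (i : ι) : star (chi f i) = chi f i := by
  unfold chi; split_ifs <;> simp

theorem prj_proj (f : Fin p ↪ ι) : IsStarProjection (prj f) := by
  rw [prj_eq]
  constructor
  · change diagonal _ * diagonal _ = _
    rw [diagonal_mul_diagonal]; simp only [chi_mul]
  · change star (diagonal _) = _
    rw [star_eq_conjTranspose, diagonal_conjTranspose]
    congr 1; funext i; exact star_chi f i

theorem tr_arg {q g : Matrix ι ι ℂ} (hq : IsStarProjection q) (hg : g ∈ unitary (Matrix ι ι ℂ))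
    (h : (1 - q) * (star g * q * g) = 0) : star g * q * g = q := by
  have hs : star q = q := hq.isSelfAdjoint.star_eq
  have hqq : q * q = q := hq.isIdempotentElem.eq
  set Q := star g * q * g with hQ
  have hQs : star Q = Q := by simp only [hQ, star_mul, star_star, hs, mul_assoc]
  have hQQ : Q * Q = Q := by
    calc Q * Q = star g * (q * (g * star g) * q) * g := by simp only [hQ, mul_assoc]
      _ = Q := by rw [hg.2, mul_one, hqq]
  have h1 : q * Q = Q := by rw [sub_mul, one_mul, sub_eq_zero] at h; exact h.symm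
  have h2 : Q * q = Q := by
    have := congrArg star h1
    rwa [star_mul, hQs, hs] at this
  have h3 : (q - Q)ᴴ * (q - Q) = q - Q := by
    rw [← star_eq_conjTranspose, star_sub, hs, hQs, sub_mul, mul_sub, mul_sub, hqq, h1, h2, hQQ]
    abel
  have h4 : (q - Q).trace = 0 := by
    rw [trace_sub, hQ, trace_mul_comm, ← mul_assoc, hg.2, one_mul, sub_self]
  rw [← h3] at h4
  open ComplexOrder in
  have := trace_conjTranspose_mul_self_eq_zero_iff.1 h4
  exact (sub_eq_zero.1 this).symm

theorem inj_block (f : Fin p ↪ ι) {k : ℕ} (hk : 1 ≤ k) (d : ι → ℂ)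
    (hd : ∀ a b, f a ≠ b → d (f a) ≠ d b) {x : Matrix ι ι ℂ} (hx : x ∈ unitary (Matrix ι ι ℂ))
    (hxk : x ^ k = diagonal d) {s : ℝ} (hs : s ∈ Set.Icc (0 : ℝ) 1) (η : Matrix ι ι ℂ)
    (hη : prj f * η * prj f = η)
    (h : s • (∑ i ∈ Finset.range k, x ^ i * η * star x ^ i) + (1 - s) • η = 0) : η = 0 := by
  have hq := prj_proj f
  have hqs : star (prj f) = prj f := hq.isSelfAdjoint.star_eq
  have hc : x * diagonal d = diagonal d * x := by rw [← hxk, ← pow_succ, ← pow_succ']
  set D : Matrix ι ι ℂ := diagonal fun i => x i i with hD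
  have h1 : x * prj f = D * prj f := by
    ext i j
    rw [prj_eq, mul_diagonal, mul_diagonal, hD, diagonal_apply]
    by_cases hj : ∃ r, f r = j
    · obtain ⟨r, rfl⟩ := hj
      by_cases hi : i = f r
      · simp [hi]
      · have := congrFun (congrFun hc i) (f r)
        rw [mul_diagonal, diagonal_mul] at this
        have h2 : x i (f r) * (d (f r) - d i) = 0 := by linear_combination this
        have h3 := (mul_eq_zero.1 h2).resolve_right (sub_ne_zero.2 (hd r i (Ne.symm hi)))
        simp [hi, h3]
    · simp [chi, hj]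
  have hDq : Commute D (prj f) := by
    rw [prj_eq, hD]; exact commute_diagonal _ _
  have h2 : ∀ i : ℕ, x ^ i * prj f = D ^ i * prj f := by
    intro i
    induction i with
    | zero => simp
    | succ i ih => rw [pow_succ, mul_assoc, h1, hDq.eq, ← mul_assoc, ih, mul_assoc, ← hDq.eq,
        ← mul_assoc, ← pow_succ]
  have h3 : ∀ i : ℕ, x ^ i * η * star x ^ i = D ^ i * η * star D ^ i := by
    intro i
    have h4 : prj f * star x ^ i = prj f * star D ^ i := by
      have := congrArg star (h2 i)
      simpa only [star_mul, star_pow, hqs] using this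
    calc x ^ i * η * star x ^ i = (x ^ i * prj f) * η * (prj f * star x ^ i) := by
          conv_lhs => rw [← hη]
          simp only [mul_assoc]
      _ = D ^ i * (prj f * η * prj f) * star D ^ i := by rw [h2, h4]; simp only [mul_assoc]
      _ = _ := by rw [hη]
  have h5 : ∀ r, x (f r) (f r) * star (x (f r) (f r)) = 1 := by
    intro r
    have e : star (D * prj f) * (D * prj f) = prj f := by
      rw [← h1, star_mul, hqs, mul_assoc, ← mul_assoc (star x), hx.1, one_mul,
        hq.isIdempotentElem.eq]
    rw [prj_eq, hD, diagonal_mul_diagonal, star_eq_conjTranspose, diagonal_conjTranspose,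
      diagonal_mul_diagonal] at e
    have := congrFun (congrFun e (f r)) (f r)
    simp only [diagonal_apply_eq, chi, Pi.star_apply] at this
    rw [if_pos ⟨r, rfl⟩, mul_one] at this
    rw [mul_comm]; exact this
  have h6 : ∀ r, x (f r) (f r) ^ k = d (f r) := by
    intro r
    have e := h2 k
    rw [hxk, prj_eq, hD, diagonal_pow, diagonal_mul_diagonal, diagonal_mul_diagonal] at e
    have := congrFun (congrFun e (f r)) (f r)
    simp only [diagonal_apply_eq, chi, Pi.pow_apply] at this
    rw [if_pos ⟨r, rfl⟩, mul_one, mul_one] at this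
    exact this.symm
  simp only [h3] at h
  ext a b
  have hab : η a b = chi f a * η a b * chi f b := by
    conv_lhs => rw [← hη, prj_eq, mul_diagonal, diagonal_mul]
  by_cases ha : ∃ r, f r = a
  swap
  · rw [hab]; simp [chi, ha]
  by_cases hb : ∃ r, f r = b
  swap
  · rw [hab]; simp [chi, hb]
  obtain ⟨r, rfl⟩ := ha
  obtain ⟨t, rfl⟩ := hb
  have e := congrFun (congrFun h (f r)) (f t)
  simp only [hD, star_eq_conjTranspose, diagonal_conjTranspose, diagonal_pow,
    Matrix.add_apply, Matrix.smul_apply, Matrix.sum_apply, mul_diagonal, diagonal_mul, Pi.pow_apply,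
    Pi.star_apply, Matrix.zero_apply, Complex.real_smul] at e
  set u := x (f r) (f r) with hu
  set w := x (f t) (f t) with hw
  have hz : u * star w * star (u * star w) = 1 := by
    rw [star_mul, star_star]
    linear_combination (w * star w) * h5 r + h5 t
  have hz2 : u * star w = 1 ∨ (u * star w) ^ k ≠ 1 := by
    by_cases hrt : r = t
    · left; subst hrt; exact h5 r
    · right
      intro e1
      apply hd r (f t) (fun h => hrt (f.injective h))
      rw [← h6, ← h6, ← hu, ← hw]
      have e2 : (w * star w) ^ k = 1 := by rw [h5 t, one_pow]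
      rw [mul_pow] at e1 e2
      linear_combination w ^ k * e1 - u ^ k * e2
  have := scalar hz hk hz2 hs
  refine (mul_eq_zero.1 ?_).resolve_left this
  rw [← e, add_mul, mul_assoc, Finset.sum_mul]
  push_cast
  congr 2
  refine Finset.sum_congr rfl fun i _ => ?_
  rw [mul_pow]; ring

/-- The exponent of the root of unity at a coordinate. -/
noncomputable def ex (f : Fin p ↪ ι) (i : ι) : ℕ :=
  if h : ∃ r, f r = i then (h.choose : ℕ) + 1 else 0

theorem ex_apply (f : Fin p ↪ ι) (r : Fin p) : ex f (f r) = r + 1 := by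
  have h : ∃ r', f r' = f r := ⟨r, rfl⟩
  rw [ex, dif_pos h, f.injective h.choose_spec]

theorem ex_lt (f : Fin p ↪ ι) (i : ι) : ex f i < p + 1 := by
  unfold ex; split_ifs with h
  · exact Nat.succ_lt_succ h.choose.2
  · exact Nat.succ_pos _

theorem ex_inj (f : Fin p ↪ ι) (r : Fin p) (b : ι) (h : ex f (f r) = ex f b) : f r = b := by
  by_cases hb : ∃ t, f t = b
  · obtain ⟨t, rfl⟩ := hb
    rw [ex_apply, ex_apply] at h
    rw [Fin.ext (Nat.succ_injective h)]
  · rw [ex_apply, ex, dif_neg hb] at h
    exact absurd h (Nat.succ_ne_zero _)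

end IntStd

open IntStd in
open scoped Matrix.Norms.Operator in
theorem intStd : IntStd := by
  intro ι _ _ m p f k hk hcs μ hfin hop
  have hn : (p + 1) * k ≠ 0 := Nat.mul_ne_zero (Nat.succ_ne_zero _) (by omega)
  obtain ⟨ω, hω⟩ : ∃ ω : ℂ, IsPrimitiveRoot ω ((p + 1) * k) := ⟨_, Complex.isPrimitiveRoot_exp _ hn⟩
  have hω1 : ω * star ω = 1 := by
    have := hω.norm'_eq_one hn
    rw [Complex.star_def, Complex.mul_conj, Complex.normSq_eq_norm_sq, this]; simp
  set X : Matrix ι ι ℂ := diagonal fun i => ω ^ ex f i with hX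
  have hXu : X ∈ unitary (Matrix ι ι ℂ) := by
    rw [Unitary.mem_iff, hX, star_eq_conjTranspose, diagonal_conjTranspose, diagonal_mul_diagonal,
      diagonal_mul_diagonal, ← diagonal_one]
    constructor <;> congr 1 <;> funext i <;> simp only [Pi.star_apply, star_pow, ← mul_pow]
    · rw [mul_comm, hω1, one_pow]
    · rw [hω1, one_pow]
  have hq := prj_proj f
  have comp : ∀ g ∈ unitary (Fin m → Matrix ι ι ℂ), ∀ v, g v ∈ unitary (Matrix ι ι ℂ) :=
    fun g hg v => ⟨congrFun hg.1 v, congrFun hg.2 v⟩
  have hst : Continuous (star : (Fin m → Matrix ι ι ℂ) → Fin m → Matrix ι ι ℂ) := continuous_star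
  refine @abstract (Fin m → Matrix ι ι ℂ) _ _ _ _ ⟨hst⟩ inferInstance _ (fun _ => X)
    ⟨funext fun _ => hq.isIdempotentElem.eq, funext fun _ => hq.isSelfAdjoint.star_eq⟩ k
    ⟨funext fun _ => hXu.1, funext fun _ => hXu.2⟩ (funext fun _ => ?_) (funext fun _ => ?_)
    (fun g hg h => funext fun v => tr_arg hq (comp g hg v) (congrFun h v)) ?_ ?_ hcs μ hfin hop
  · change prj f * X = X * prj f
    rw [prj_eq, hX]; exact commute_diagonal _ _
  · change (1 - prj f) * X = 1 - prj f
    rw [prj_eq, hX, ← diagonal_one, diagonal_sub, diagonal_mul_diagonal]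
    congr 1; funext i
    by_cases hi : ∃ r, f r = i
    · simp [chi, hi]
    · simp [chi, ex, hi]
  · intro g hg hc
    choose γ h1 h2 h3 h4 h5 using fun v => exists_path (comp g hg v)
    refine ⟨fun t v => γ v t, continuous_pi fun v => (h1 v).continuous, funext h2, funext h3,
      fun t => ⟨⟨funext fun v => (h4 v t).1, funext fun v => (h4 v t).2⟩, funext fun v => ?_⟩⟩
    exact (h5 v (prj f) (congrFun hc v : prj f * g v = g v * prj f).symm t).symm.eq
  · intro x hx _ hxk s hs η hη h
    funext v
    refine inj_block f hk (fun i => (ω ^ ex f i) ^ k) ?_ (comp x hx v) ?_ hs (η v) (congrFun hη v) ?_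
    · intro a b hab e
      simp only [← pow_mul] at e
      have hk0 : 0 < k := hk
      have := hω.pow_inj (Nat.mul_lt_mul_of_pos_right (ex_lt f _) hk0)
        (Nat.mul_lt_mul_of_pos_right (ex_lt f _) hk0) e
      exact hab (ex_inj f a b (Nat.eq_of_mul_eq_mul_right hk0 this))
    · have : x v ^ k = X ^ k := congrFun hxk v
      rw [this, hX, diagonal_pow]; rfl
    · have := congrFun h v
      simpa only [Pi.add_apply, Pi.smul_apply, Finset.sum_apply, Pi.mul_apply, Pi.pow_apply,
        Pi.star_apply, Pi.zero_apply] using this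

end Crest.Agent.R174
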