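import Crest.Agent.R174.Defs

/-!
# Row 174, step B3 (abstract part): the degree integral of the power map

Everything here is done in an arbitrary finite dimensional real normed star algebra; the three
facts that need matrices are hypotheses of `abstract`.
-/

set_option autoImplicit false
set_option linter.unusedSectionVars false

namespace Crest.Agent.R174.IntStd

open Monoid Matrix MeasureTheory

variable {E : Type} [NormedRing E] [NormedAlgebra ℝ E] [StarRing E] [StarModule ℝ E]

/-- The inclusion of the skew adjoint elements. -/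
def incl : skewAdjoint E →ₗ[ℝ] E where
  toFun := Subtype.val
  map_add' _ _ := rfl
  map_smul' _ _ := rfl

/-- Compression of a linear map to the skew adjoint elements. -/
noncomputable def res (T : E →ₗ[ℝ] E) : skewAdjoint E →ₗ[ℝ] skewAdjoint E :=
  skewAdjointPart ℝ ∘ₗ T ∘ₗ incl

theorem res_apply (T : E →ₗ[ℝ] E) (ξ : skewAdjoint E) :
    res T ξ = skewAdjointPart ℝ (T ξ) := rfl

theorem skewPart_coe {x : E} (hx : star x = -x) : (skewAdjointPart ℝ x : E) = x := by
  rw [skewAdjointPart_apply_coe, hx, sub_neg_eq_add, ← two_smul ℝ x, smul_smul]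
  simp

theorem skewPart_self (ξ : skewAdjoint E) : skewAdjointPart ℝ (ξ : E) = ξ :=
  Subtype.ext (skewPart_coe ξ.2)

theorem finite_skew [FiniteDimensional ℝ E] : FiniteDimensional ℝ (skewAdjoint E) :=
  FiniteDimensional.of_injective (incl (E := E)) Subtype.val_injective

theorem continuous_det [FiniteDimensional ℝ E] {X : Type*} [TopologicalSpace X]
    (L : X → skewAdjoint E →ₗ[ℝ] skewAdjoint E) (h : ∀ v, Continuous fun x => (L x v : E)) :
    Continuous fun x => LinearMap.det (L x) := by
  classical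
  have := finite_skew (E := E)
  let b := Module.finBasis ℝ (skewAdjoint E)
  have e : (fun x => LinearMap.det (L x)) = fun x => (LinearMap.toMatrix b b (L x)).det := by
    funext x; rw [LinearMap.det_toMatrix]
  rw [e]
  refine Continuous.matrix_det (continuous_matrix fun i j => ?_)
  have e2 : (fun x => LinearMap.toMatrix b b (L x) i j) =
      fun x => (b.coord i ∘ₗ skewAdjointPart ℝ) (L x (b j) : E) := by
    funext x
    simp [LinearMap.toMatrix_apply, skewPart_self]
  rw [e2]
  exact (LinearMap.continuous_of_finiteDimensional _).comp (h _)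

theorem continuous_skewPart [FiniteDimensional ℝ E] :
    Continuous fun x : E => (skewAdjointPart ℝ x : E) :=
  LinearMap.continuous_of_finiteDimensional (incl ∘ₗ skewAdjointPart ℝ)

/-- `ξ ↦ a ξ b`. -/
noncomputable def cj (a b : E) : E →ₗ[ℝ] E := LinearMap.mulLeftRight ℝ (a, b)

@[simp] theorem cj_apply (a b x : E) : cj a b x = a * x * b := by
  simp [cj]

/-- The family of linear maps joining the derivative at a preimage with a fixed map. -/
noncomputable def Tm (q g x : E) (k : ℕ) (s : ℝ) : E →ₗ[ℝ] E :=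
  cj (star g) g ∘ₗ ((-2 : ℝ) • (LinearMap.id - cj q q - cj (1 - q) (1 - q)) + cj (1 - q) (1 - q)) +
    (s • (∑ i ∈ Finset.range k, cj (x ^ i) (star x ^ i)) + (1 - s) • LinearMap.id) ∘ₗ cj q q

theorem Tm_apply (q g x : E) (k : ℕ) (s : ℝ) (ξ : E) :
    Tm q g x k s ξ =
      star g * ((-2 : ℝ) • (ξ - q * ξ * q - (1 - q) * ξ * (1 - q)) + (1 - q) * ξ * (1 - q)) * g +
        (s • (∑ i ∈ Finset.range k, x ^ i * (q * ξ * q) * star x ^ i) + (1 - s) • (q * ξ * q)) := by
  simp [Tm, LinearMap.sum_apply]

theorem star_Tm {q : E} (hq : IsStarProjection q) (g x : E) (k : ℕ) (s : ℝ) (ξ : E) :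
    star (Tm q g x k s ξ) = Tm q g x k s (star ξ) := by
  have h : star q = q := hq.isSelfAdjoint.star_eq
  simp only [Tm_apply, star_add, star_mul, star_smul, star_sub, star_star, star_sum, star_pow,
    star_one, h, star_trivial, mul_assoc]

theorem Tm_inj {q g x : E} (hq : IsStarProjection q) (hg : g ∈ unitary E) (hqg : Commute q g)
    (hqx : Commute q x) {k : ℕ} {s : ℝ}
    (hinj : ∀ η : E, q * η * q = η →
      s • (∑ i ∈ Finset.range k, x ^ i * η * star x ^ i) + (1 - s) • η = 0 → η = 0)
    (ξ : E) (h : Tm q g x k s ξ = 0) : ξ = 0 := by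
  have hs : star q = q := hq.isSelfAdjoint.star_eq
  have hqq : q * q = q := hq.isIdempotentElem.eq
  have hqq' : ∀ y, q * (q * y) = q * y := fun y => by rw [← mul_assoc, hqq]
  have hqg' : Commute q (star g) := by
    have := hqg.star_star; rwa [hs] at this
  have hqx' : Commute q (star x) := by
    have := hqx.star_star; rwa [hs] at this
  set A := q * ξ * q with hA
  set B := (1 - q) * ξ * (1 - q) with hB
  set N := (-2 : ℝ) • (ξ - A - B) + B with hN
  have hAq : q * A * q = A := by simp only [hA, mul_assoc, hqq, hqq']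
  have hBq : q * B * q = 0 := by
    simp only [hB, mul_assoc, hq.one_sub_mul_self, mul_zero]
  have hNq : q * N * q = 0 := by
    rw [hN, mul_add, add_mul, mul_smul_comm, smul_mul_assoc, mul_sub, mul_sub, sub_mul, sub_mul,
      hAq, hBq, ← hA]
    simp
  rw [Tm_apply, ← hA, ← hB, ← hN] at h
  have h1 : q * (star g * N * g) * q = 0 := by
    calc q * (star g * N * g) * q = (q * star g) * N * (g * q) := by simp only [mul_assoc]
      _ = star g * (q * N * q) * g := by rw [hqg'.eq, ← hqg.eq]; simp only [mul_assoc]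
      _ = 0 := by rw [hNq]; simp
  have h2 : ∀ i : ℕ, q * (x ^ i * A * star x ^ i) * q = x ^ i * A * star x ^ i := by
    intro i
    calc q * (x ^ i * A * star x ^ i) * q = (q * x ^ i) * A * (star x ^ i * q) := by
          simp only [mul_assoc]
      _ = x ^ i * (q * A * q) * star x ^ i := by
          rw [(hqx.pow_right i).eq, ← (hqx'.pow_right i).eq]; simp only [mul_assoc]
      _ = _ := by rw [hAq]
  have h3 : s • (∑ i ∈ Finset.range k, x ^ i * A * star x ^ i) + (1 - s) • A = 0 := by
    have := congrArg (fun y => q * y * q) h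
    simp only [mul_zero, zero_mul] at this
    rw [mul_add, add_mul, h1, zero_add] at this
    simpa only [mul_add, add_mul, mul_smul_comm, smul_mul_assoc,
      Finset.mul_sum, Finset.sum_mul, h2, hAq] using this
  have hA0 : A = 0 := hinj A hAq h3
  rw [h3, add_zero] at h
  have hN0 : N = 0 := by
    have e1 : g * star g = 1 := hg.2
    calc N = (g * star g) * N * (g * star g) := by rw [e1]; simp
      _ = g * (star g * N * g) * star g := by simp only [mul_assoc]
      _ = 0 := by rw [h]; simp
  have hp : (1 - q) * (1 - q) = 1 - q := hq.one_sub.isIdempotentElem.eq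
  have hp' : ∀ y, (1 - q) * ((1 - q) * y) = (1 - q) * y := fun y => by rw [← mul_assoc, hp]
  have hBp : (1 - q) * B * (1 - q) = B := by simp only [hB, mul_assoc, hp, hp']
  have hB0 : B = 0 := by
    have := congrArg (fun y => (1 - q) * y * (1 - q)) hN0
    simp only [hN, hA0, sub_zero] at this
    rw [mul_add, add_mul, mul_smul_comm, smul_mul_assoc, mul_sub (1 - q) ξ, sub_mul _ _ (1 - q),
      hBp, ← hB] at this
    simpa using this
  rw [hN, hA0, hB0] at hN0
  simpa using hN0

theorem det_res_ne [FiniteDimensional ℝ E] (T : E →ₗ[ℝ] E) (hs : ∀ ξ, star (T ξ) = T (star ξ))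
    (hi : ∀ ξ, T ξ = 0 → ξ = 0) : LinearMap.det (res T) ≠ 0 := by
  have := finite_skew (E := E)
  rw [Ne, LinearMap.det_eq_zero_iff_ker_ne_bot, not_not, LinearMap.ker_eq_bot']
  intro ξ hξ
  have h1 : star (T ξ) = -T ξ := by
    rw [hs, show star (ξ : E) = -ξ from ξ.2, map_neg]
  have h2 := congrArg Subtype.val hξ
  rw [res_apply, skewPart_coe h1] at h2
  exact Subtype.ext (hi _ h2)

theorem sign_path {d : ℝ → ℝ} (hd : Continuous d) (h : ∀ s ∈ Set.Icc (0 : ℝ) 1, d s ≠ 0) :
    0 < d 1 * d 0 := by
  by_contra hn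
  have hc : ContinuousOn (fun s => d s * d 0) (Set.Icc 0 1) := (hd.mul continuous_const).continuousOn
  obtain ⟨s, hs, e⟩ := intermediate_value_Icc' zero_le_one hc
    (show (0 : ℝ) ∈ Set.Icc (d 1 * d 0) (d 0 * d 0) from ⟨not_lt.1 hn, mul_self_nonneg _⟩)
  rcases mul_eq_zero.1 e with e | e
  · exact h s hs e
  · exact h 0 ⟨le_rfl, zero_le_one⟩ e

theorem star_pow_mul_pow {x : E} (hx : x ∈ unitary E) (k : ℕ) : star x ^ k * x ^ k = 1 := by
  have := (pow_mem hx k).1
  rwa [star_pow] at this

theorem pow_mul_star_pow {x : E} (hx : x ∈ unitary E) (k : ℕ) : x ^ k * star x ^ k = 1 := by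
  have := (pow_mem hx k).2
  rwa [star_pow] at this

theorem hasDerivAt_pow {x η : E} (hx : x ∈ unitary E) {c : ℝ → E} (hc : HasDerivAt c (η * x) 0)
    (h0 : c 0 = x) (k : ℕ) :
    HasDerivAt (fun t => c t ^ k) ((∑ i ∈ Finset.range k, x ^ i * η * star x ^ i) * x ^ k) 0 := by
  induction k with
  | zero => simpa using hasDerivAt_const (0 : ℝ) (1 : E)
  | succ k ih =>
    have := ih.mul hc
    simp only [h0] at this
    convert this using 1
    · funext t; simp [pow_succ]
    · rw [Finset.sum_range_succ, add_mul, pow_succ, ← mul_assoc, ← mul_assoc,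
        mul_assoc _ (star x ^ k), star_pow_mul_pow hx, mul_one, mul_assoc (x ^ k)]

theorem contDiff_F [ContinuousStar E] (q : E) (k : ℕ) :
    ContDiff ℝ 1 (Fm q fun x => (x + (1 - q)) ^ k) := by
  have hs : ContDiff ℝ 1 fun a : E × E => star a.1 :=
    (starL' ℝ : E ≃L[ℝ] E).contDiff.comp contDiff_fst
  unfold Fm
  exact ((hs.mul (contDiff_const.add (contDiff_const.mul contDiff_snd))).mul contDiff_fst).mul
    (((contDiff_const.mul contDiff_snd).add contDiff_const).pow k)

theorem fderiv_F [ContinuousStar E] (q : E) (k : ℕ) (g h g' h' η : E)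
    (hx : q * h + (1 - q) ∈ unitary E) (hη : q * h' = η * (q * h + (1 - q))) :
    fderiv ℝ (Fm q fun x => (x + (1 - q)) ^ k) (g, h) (g', h') =
      (star g' * (q + (1 - q) * h) * g + star g * ((1 - q) * h') * g +
          star g * (q + (1 - q) * h) * g') * (q * h + (1 - q)) ^ k +
        star g * (q + (1 - q) * h) * g *
          ((∑ i ∈ Finset.range k, (q * h + (1 - q)) ^ i * η * star (q * h + (1 - q)) ^ i) *
            (q * h + (1 - q)) ^ k) := by
  have hl : HasDerivAt (fun t : ℝ => ((g, h) : E × E) + t • (g', h')) (g', h') 0 := by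
    simpa using ((hasDerivAt_id (0 : ℝ)).smul_const ((g', h') : E × E)).const_add (g, h)
  have hF := ((contDiff_F q k).differentiable one_ne_zero (g, h)).hasFDerivAt
  have h1 := HasFDerivAt.comp_hasDerivAt_of_eq (0 : ℝ) hF hl (by simp)
  have hg : HasDerivAt (fun t : ℝ => g + t • g') g' 0 := by
    simpa using ((hasDerivAt_id (0 : ℝ)).smul_const g').const_add g
  have hh : HasDerivAt (fun t : ℝ => h + t • h') h' 0 := by
    simpa using ((hasDerivAt_id (0 : ℝ)).smul_const h').const_add h
  have hc : HasDerivAt (fun t : ℝ => q * (h + t • h') + (1 - q)) (η * (q * h + (1 - q))) 0 := by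
    rw [← hη]
    exact (hh.const_mul q).add_const _
  have h2 := ((hg.star.mul ((hh.const_mul (1 - q)).const_add q)).mul hg).mul
    (hasDerivAt_pow hx hc (by simp) k)
  have e : ((Fm q fun x => (x + (1 - q)) ^ k) ∘ fun t : ℝ => ((g, h) : E × E) + t • (g', h')) =
      ((((fun x : ℝ => star (g + x • g')) * fun x : ℝ => q + (1 - q) * (h + x • h')) *
        fun t : ℝ => g + t • g') * fun t : ℝ => (q * (h + t • h') + (1 - q)) ^ k) := by
    funext t; simp [Fm]
  rw [e] at h1
  rw [h1.unique h2]
  simp only [Pi.mul_apply, zero_smul, add_zero]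
  noncomm_ring

theorem x_unitary {q h : E} (hq : IsStarProjection q) (hh : h ∈ unitary E) (hc : Commute q h) :
    q * h + (1 - q) ∈ unitary E := by
  have hs : star q = q := hq.isSelfAdjoint.star_eq
  have hqq : q * q = q := hq.isIdempotentElem.eq
  have hc' : Commute q (star h) := by
    have := hc.star_star; rwa [hs] at this
  have hp : (1 - q) * (1 - q) = 1 - q := hq.one_sub.isIdempotentElem.eq
  have e0 : star (q * h + (1 - q)) = q * star h + (1 - q) := by
    simp only [star_add, star_mul, star_sub, star_one, hs, hc'.eq]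
  have key : ∀ a b : E, Commute q a → Commute q b → a * b = 1 →
      (q * a + (1 - q)) * (q * b + (1 - q)) = 1 := by
    intro a b ha hb hab
    have e1 : q * a * (q * b) = q := by
      rw [mul_assoc, ← mul_assoc a, ← ha.eq, ← mul_assoc, ← mul_assoc, hqq, mul_assoc, hab, mul_one]
    have e2 : q * a * (1 - q) = 0 := by
      rw [ha.eq, mul_assoc, hq.mul_one_sub_self, mul_zero]
    have e3 : (1 - q) * (q * b) = 0 := by rw [← mul_assoc, hq.one_sub_mul_self, zero_mul]
    rw [add_mul, mul_add, mul_add, e1, e2, e3, hp]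
    abel
  rw [Unitary.mem_iff, e0]
  exact ⟨key _ _ hc' hc hh.1, key _ _ hc hc' hh.2⟩

/-- The analysis of the preimages of `θ δ`. -/
theorem preimage {q g h δ : E} (hq : IsStarProjection q) (hg : g ∈ unitary E) (hh : h ∈ unitary E)
    (hc : Commute q h) (hδ : (1 - q) * δ = 1 - q)
    (htr : (1 - q) * (star g * q * g) = 0 → star g * q * g = q) (k : ℕ)
    (e : star g * (q + (1 - q) * h) * g * (q * h + (1 - q)) ^ k = (q - (1 - q)) * δ) :
    Commute q g ∧ (1 - q) * h = -(1 - q) ∧ (q * h + (1 - q)) ^ k = δ := by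
  have hs : star q = q := hq.isSelfAdjoint.star_eq
  have hqq : q * q = q := hq.isIdempotentElem.eq
  have hp : (1 - q) * (1 - q) = 1 - q := hq.one_sub.isIdempotentElem.eq
  have hx := x_unitary hq hh hc
  set x := q * h + (1 - q) with hxd
  set u := q + (1 - q) * h with hu
  have hqx : Commute q x := ((Commute.refl q).mul_right hc).add_right
    ((Commute.one_right q).sub_right (Commute.refl q))
  have hqx' : Commute q (star x) := by
    have := hqx.star_star; rwa [hs] at this
  have hpx : x * (1 - q) = 1 - q := by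
    rw [hxd, add_mul, hc.eq, mul_assoc, hq.mul_one_sub_self, mul_zero, zero_add, hp]
  have hpx' : (1 - q) * star x = 1 - q := by
    have := congrArg star hpx
    simpa only [star_mul, star_sub, star_one, hs] using this
  have hpxk : ∀ i : ℕ, (1 - q) * star x ^ i = 1 - q := by
    intro i
    induction i with
    | zero => simp
    | succ i ih => rw [pow_succ, ← mul_assoc, ih, hpx']
  have hz : star g * u * g = (q - (1 - q)) * δ * star x ^ k := by
    rw [← e, mul_assoc _ (x ^ k), pow_mul_star_pow hx, mul_one]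
  have hpz : (1 - q) * (star g * u * g) = -(1 - q) := by
    rw [hz, ← mul_assoc, ← mul_assoc, mul_sub (1 - q), hq.one_sub_mul_self, hp, zero_sub, neg_mul,
      hδ, neg_mul, hpxk]
  have huq : u * q = q := by
    rw [hu, add_mul, hqq, mul_assoc, ← hc.eq, ← mul_assoc, hq.one_sub_mul_self, zero_mul, add_zero]
  have hzQ : star g * u * g * (star g * q * g) = star g * q * g := by
    calc star g * u * g * (star g * q * g) = star g * (u * (g * star g) * q) * g := by
          simp only [mul_assoc]
      _ = star g * q * g := by rw [hg.2, mul_one, huq]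
  have hQ : (1 - q) * (star g * q * g) = 0 := by
    have e1 : (1 - q) * (star g * q * g) = -((1 - q) * (star g * q * g)) := by
      conv_lhs => rw [← hzQ, ← mul_assoc, hpz, neg_mul]
    have e2 : (2 : ℝ) • ((1 - q) * (star g * q * g)) = 0 := by
      rw [two_smul]; exact eq_neg_iff_add_eq_zero.1 e1
    exact (smul_eq_zero.1 e2).resolve_left two_ne_zero
  have hqg : Commute q g := by
    have := htr hQ
    change q * g = g * q
    conv_rhs => rw [← this, ← mul_assoc, ← mul_assoc, hg.2, one_mul]
  have hqg' : Commute q (star g) := by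
    have := hqg.star_star; rwa [hs] at this
  have hpg : Commute (1 - q) g := (Commute.one_left g).sub_left hqg
  have hpg' : Commute (1 - q) (star g) := (Commute.one_left _).sub_left hqg'
  have hpu : (1 - q) * u = (1 - q) * h := by
    rw [hu, mul_add, hq.one_sub_mul_self, zero_add, ← mul_assoc, hp]
  have h1 : (1 - q) * h = -(1 - q) := by
    calc (1 - q) * h = (g * star g) * ((1 - q) * u) * (g * star g) := by rw [hg.2, hpu]; simp
      _ = g * ((star g * (1 - q)) * u * g) * star g := by simp only [mul_assoc]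
      _ = g * ((1 - q) * (star g * u * g)) * star g := by rw [← hpg'.eq]; simp only [mul_assoc]
      _ = -(1 - q) := by
          rw [hpz, mul_neg, neg_mul, ← hpg.eq, mul_assoc, hg.2, mul_one]
  refine ⟨hqg, h1, ?_⟩
  have hθ : u = q - (1 - q) := by rw [hu, h1, sub_eq_add_neg q]
  have hθg : Commute (q - (1 - q)) g := hqg.sub_left hpg
  have hθθ : (q - (1 - q)) * (q - (1 - q)) = 1 := by
    rw [mul_sub, sub_mul, sub_mul q, hqq, hq.one_sub_mul_self, hq.mul_one_sub_self, hp]; abel
  rw [hθ, mul_assoc (star g), hθg.eq, ← mul_assoc, hg.1, one_mul] at e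
  have := congrArg (fun y => (q - (1 - q)) * y) e
  simpa only [← mul_assoc, hθθ, one_mul] using this

/-- The derivative at a preimage. -/
theorem lin_eq [ContinuousStar E] {q g h : E} (hq : IsStarProjection q) (hg : g ∈ unitary E)
    (hh : h ∈ unitary E) (hc : Commute q h) (hqg : Commute q g) (h1 : (1 - q) * h = -(1 - q))
    (k : ℕ) :
    Lin q (Fm q fun x => (x + (1 - q)) ^ k) (g, h) = res (Tm q g (q * h + (1 - q)) k 1) := by
  have hs : star q = q := hq.isSelfAdjoint.star_eq
  have hqq : q * q = q := hq.isIdempotentElem.eq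
  have hqq' : ∀ y, q * (q * y) = q * y := fun y => by rw [← mul_assoc, hqq]
  have hp : (1 - q) * (1 - q) = 1 - q := hq.one_sub.isIdempotentElem.eq
  have hp' : ∀ y, (1 - q) * ((1 - q) * y) = (1 - q) * y := fun y => by rw [← mul_assoc, hp]
  have hqp : ∀ y, q * ((1 - q) * y) = 0 := fun y => by
    rw [← mul_assoc, hq.mul_one_sub_self, zero_mul]
  have hpq : ∀ y, (1 - q) * (q * y) = 0 := fun y => by
    rw [← mul_assoc, hq.one_sub_mul_self, zero_mul]
  have hx := x_unitary hq hh hc
  ext ξ
  rw [res_apply]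
  change (skewAdjointPart ℝ (fderiv ℝ _ (g, h) (fld q ξ (g, h)) * star (Fm q _ (g, h))) : E) = _
  congr 2
  have hξ : star (ξ : E) = -ξ := ξ.2
  have hη : q * (hPart q ξ * h) = q * ξ * q * (q * h + (1 - q)) := by
    simp only [hPart, mul_add, add_mul, mul_assoc, hqq', hqp, hq.mul_one_sub_self, mul_zero,
      add_zero]
  have hθ : q + (1 - q) * h = q - (1 - q) := by rw [h1, sub_eq_add_neg q]
  rw [fld, fderiv_F q k g h _ _ _ hx hη, Tm_apply]
  simp only [Fm]
  rw [hθ]
  set x := q * h + (1 - q) with hxd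
  have hqx : Commute q x := ((Commute.refl q).mul_right hc).add_right
    ((Commute.one_right q).sub_right (Commute.refl q))
  have hqx' : Commute q (star x) := by
    have := hqx.star_star; rwa [hs] at this
  have hpg : Commute (1 - q) g := (Commute.one_left g).sub_left hqg
  set θ := q - (1 - q) with hθd
  have hθg : Commute θ g := hqg.sub_left hpg
  have hθs : star θ = θ := by simp only [hθd, star_sub, star_one, hs]
  have hθθ : θ * θ = 1 := by
    rw [hθd, mul_sub, sub_mul, sub_mul q, hqq, hq.one_sub_mul_self, hq.mul_one_sub_self, hp]; abel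
  have hz : star g * θ * g = θ := by rw [mul_assoc, hθg.eq, ← mul_assoc, hg.1, one_mul]
  set S := ∑ i ∈ Finset.range k, x ^ i * (q * ξ * q) * star x ^ i with hS
  have hθq : θ * q = q := by rw [hθd, sub_mul, hqq, hq.one_sub_mul_self, sub_zero]
  have hqθ : q * θ = q := by rw [hθd, mul_sub, hqq, hq.mul_one_sub_self, sub_zero]
  have hSθ : θ * S * θ = S := by
    rw [hS, Finset.mul_sum, Finset.sum_mul]
    refine Finset.sum_congr rfl fun i _ => ?_
    calc θ * (x ^ i * (q * ξ * q) * star x ^ i) * θ
        = θ * (x ^ i * q) * ξ * (q * star x ^ i) * θ := by simp only [mul_assoc]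
      _ = (θ * q) * x ^ i * ξ * star x ^ i * (q * θ) := by
          rw [← (hqx.pow_right i).eq, (hqx'.pow_right i).eq]; simp only [mul_assoc]
      _ = (q * x ^ i) * ξ * (star x ^ i * q) := by rw [hθq, hqθ]; simp only [mul_assoc]
      _ = _ := by
          rw [(hqx.pow_right i).eq, ← (hqx'.pow_right i).eq]; simp only [mul_assoc]
  set M := (ξ : E) - hPart q ξ with hM
  have hM' : (ξ : E) - q * ξ * q - (1 - q) * ξ * (1 - q) = M := by rw [hM, hPart]; abel
  have hMs : star M = -M := by
    simp only [hM, hPart, star_sub, star_add, star_mul, star_one, hs, hξ]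
    noncomm_ring
  have hMθ : θ * M * θ = -M := by
    have e1 : M = q * ξ * (1 - q) + (1 - q) * ξ * q := by rw [hM, hPart]; noncomm_ring
    have hθp : θ * (1 - q) = -(1 - q) := by rw [hθd, sub_mul, hq.mul_one_sub_self, hp, zero_sub]
    have hpθ : (1 - q) * θ = -(1 - q) := by rw [hθd, mul_sub, hq.one_sub_mul_self, hp, zero_sub]
    calc θ * M * θ = (θ * q) * ξ * ((1 - q) * θ) + (θ * (1 - q)) * ξ * (q * θ) := by
          rw [e1]; simp only [mul_add, add_mul, mul_assoc]
      _ = -M := by rw [hθq, hqθ, hθp, hpθ, e1]; noncomm_ring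
  have hB : (1 - q) * (hPart q ξ * h) * θ = (1 - q) * ξ * (1 - q) := by
    have hpθ : (1 - q) * θ = -(1 - q) := by rw [hθd, mul_sub, hq.one_sub_mul_self, hp, zero_sub]
    simp only [hPart, mul_add, add_mul, mul_assoc, hp', hpq, zero_add]
    rw [← mul_assoc (1 - q) h, h1, neg_mul, hpθ, neg_neg]
  rw [hM', hz, star_mul, star_mul θ, hθs, star_pow, ← mul_assoc θ S, ← add_mul, mul_assoc,
    ← mul_assoc (x ^ k), pow_mul_star_pow hx, one_mul, add_mul, hSθ, hMs]
  simp only [one_smul, sub_self, zero_smul, add_zero]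
  congr 1
  calc (star g * -M * θ * g + star g * ((1 - q) * (hPart q ξ * h)) * g + star g * θ * (M * g)) * θ
      = star g * (-M * (θ * θ) + (1 - q) * (hPart q ξ * h) * θ + θ * M * θ) * g := by
        simp only [mul_add, add_mul, mul_assoc, ← hθg.eq]
    _ = _ := by
        rw [hθθ, hB, hMθ, mul_one, neg_smul, two_smul]
        congr 2
        abel

theorem abstract [ContinuousStar E] [FiniteDimensional ℝ E] {q x₀ : E} (hq : IsStarProjection q)
    (k : ℕ) (hx₀ : x₀ ∈ unitary E) (hc₀ : Commute q x₀) (hp₀ : (1 - q) * x₀ = 1 - q)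
    (htr : ∀ g ∈ unitary E, (1 - q) * (star g * q * g) = 0 → star g * q * g = q)
    (hpath : ∀ g ∈ unitary E, Commute q g → ∃ γ : ℝ → E, Continuous γ ∧ γ 0 = 1 ∧ γ 1 = g ∧
      ∀ t, γ t ∈ unitary E ∧ Commute q (γ t))
    (hinj : ∀ x ∈ unitary E, Commute q x → x ^ k = x₀ ^ k → ∀ s ∈ Set.Icc (0 : ℝ) 1, ∀ η : E,
      q * η * q = η →
      s • (∑ i ∈ Finset.range k, x ^ i * η * star x ^ i) + (1 - s) • η = 0 → η = 0)
    [CompactSpace (Gam q)] (μ : Measure (Gam q)) [IsFiniteMeasure μ] [μ.IsOpenPosMeasure] :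
    ∃ y₀ ∈ unitary E, ∃ ε > 0, ∀ φ : E → ℝ,
      Continuous φ → (∀ y, 0 ≤ φ y) → 0 < φ y₀ → (∀ y, ε ≤ dist y y₀ → φ y = 0) →
        Int μ φ (Fm q fun x => (x + (1 - q)) ^ k) ≠ 0 := by
  have hs : star q = q := hq.isSelfAdjoint.star_eq
  have hqq : q * q = q := hq.isIdempotentElem.eq
  have hp : (1 - q) * (1 - q) = 1 - q := hq.one_sub.isIdempotentElem.eq
  have hθθ : (q - (1 - q)) * (q - (1 - q)) = 1 := by
    rw [mul_sub, sub_mul, sub_mul q, hqq, hq.one_sub_mul_self, hq.mul_one_sub_self, hp]; abel
  have hθs : star (q - (1 - q)) = q - (1 - q) := by simp only [star_sub, star_one, hs]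
  have hθu : q - (1 - q) ∈ unitary E := by
    rw [Unitary.mem_iff, hθs]; exact ⟨hθθ, hθθ⟩
  have hqθ : Commute q (q - (1 - q)) :=
    (Commute.refl q).sub_right ((Commute.one_right q).sub_right (Commute.refl q))
  have hδ : ∀ i : ℕ, (1 - q) * x₀ ^ i = 1 - q := by
    intro i
    induction i with
    | zero => simp
    | succ i ih => rw [pow_succ, ← mul_assoc, ih, hp₀]
  set F := Fm q fun x => (x + (1 - q)) ^ k with hF
  set y₀ := (q - (1 - q)) * x₀ ^ k with hy₀
  set c := LinearMap.det (res (Tm q 1 1 k 0)) with hc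
  have hFc : ContDiff ℝ 1 F := contDiff_F q k
  have hval : Continuous (Gam.val : Gam q → E × E) :=
    continuous_subtype_val.comp continuous_subtype_val
  -- the sign of the Jacobian at the preimages
  have hsign : ∀ γ : Gam q, F γ.val = y₀ → 0 < Jac q F γ.val * c := by
    rintro ⟨⟨⟨g, h⟩, hu⟩, hch⟩ e
    have hg : g ∈ unitary E := ⟨congrArg Prod.fst hu.1, congrArg Prod.fst hu.2⟩
    have hh : h ∈ unitary E := ⟨congrArg Prod.snd hu.1, congrArg Prod.snd hu.2⟩
    have hch : Commute q h := hch
    obtain ⟨hqg, h1, hxk⟩ :=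
      preimage hq hg hh hch (hδ k) (htr g hg) k e
    obtain ⟨γ, hγc, hγ0, hγ1, hγ⟩ := hpath g hg hqg
    have hx := x_unitary hq hh hch
    have hqx : Commute q (q * h + (1 - q)) := ((Commute.refl q).mul_right hch).add_right
      ((Commute.one_right q).sub_right (Commute.refl q))
    have hd : Continuous fun s => LinearMap.det (res (Tm q (γ s) (q * h + (1 - q)) k s)) := by
      refine continuous_det _ fun v => ?_
      simp only [res_apply, Tm_apply]
      refine continuous_skewPart.comp ?_
      fun_prop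
    have := sign_path hd fun s hs => det_res_ne _ (star_Tm hq _ _ _ _)
      (Tm_inj hq (hγ s).1 (hγ s).2 hqx (hinj _ hx hqx hxk s hs))
    simp only [hγ0, hγ1] at this
    have e0 : Tm q 1 (q * h + (1 - q)) k 0 = Tm q 1 1 k 0 := by simp [Tm]
    rw [e0, ← lin_eq hq hg hh hch hqg h1 k] at this
    exact this
  have hJ : Continuous fun a => Jac q F a := by
    refine continuous_det _ fun v => ?_
    change Continuous fun a => (skewAdjointPart ℝ (fderiv ℝ F a (fld q v a) * star (F a)) : E)
    refine continuous_skewPart.comp ?_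
    refine Continuous.mul (Continuous.clm_apply (hFc.continuous_fderiv one_ne_zero) ?_)
      hFc.continuous.star
    unfold fld
    fun_prop
  have hK : IsClosed ((fun γ : Gam q => F γ.val) '' {γ | Jac q F γ.val * c ≤ 0}) := by
    refine IsCompact.isClosed (IsCompact.image (IsClosed.isCompact ?_) (hFc.continuous.comp hval))
    exact isClosed_le ((hJ.comp hval).mul continuous_const) continuous_const
  have hy : y₀ ∈ ((fun γ : Gam q => F γ.val) '' {γ | Jac q F γ.val * c ≤ 0})ᶜ := by
    rintro ⟨γ, h1, h2⟩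
    exact absurd (hsign γ h2) (not_lt.2 h1)
  obtain ⟨ε, hε, hball⟩ := Metric.isOpen_iff.1 hK.isOpen_compl y₀ hy
  refine ⟨y₀, mul_mem hθu (pow_mem hx₀ k), ε, hε, fun φ hφ h0 hpos hsupp hI => ?_⟩
  -- the preimage
  have hu₀ : ((1 : E), (q - (1 - q)) * x₀) ∈ unitary (E × E) := by
    have := mul_mem hθu hx₀
    exact ⟨Prod.ext (by simp) this.1, Prod.ext (by simp) this.2⟩
  let γ₀ : Gam q := ⟨⟨_, hu₀⟩, hqθ.mul_right hc₀⟩
  have hγ₀ : F γ₀.val = y₀ := by
    change star 1 * (q + (1 - q) * ((q - (1 - q)) * x₀)) * 1 *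
      (q * ((q - (1 - q)) * x₀) + (1 - q)) ^ k = _
    have e1 : (1 - q) * ((q - (1 - q)) * x₀) = -(1 - q) := by
      rw [← mul_assoc, mul_sub (1 - q), hq.one_sub_mul_self, hp, zero_sub, neg_mul, hp₀]
    have e2 : q * ((q - (1 - q)) * x₀) + (1 - q) = x₀ := by
      rw [← mul_assoc, mul_sub q, hqq, hq.mul_one_sub_self, sub_zero]
      conv_lhs => rw [← hp₀]
      noncomm_ring
    rw [e1, e2, star_one, one_mul, mul_one, hy₀, sub_eq_add_neg q]
  have hcont : Continuous fun γ : Gam q => φ (F γ.val) * Jac q F γ.val * c :=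
    ((hφ.comp (hFc.continuous.comp hval)).mul (hJ.comp hval)).mul continuous_const
  have hpos' : 0 < ∫ γ : Gam q, φ (F γ.val) * Jac q F γ.val * c ∂μ := by
    refine hcont.integral_pos_of_hasCompactSupport_nonneg_nonzero
      (HasCompactSupport.of_compactSpace _) (fun γ => ?_) (x := γ₀) ?_
    · by_cases hγ : Jac q F γ.val * c ≤ 0
      · have : ε ≤ dist (F γ.val) y₀ := by
          by_contra hn
          exact hball (Metric.mem_ball.2 (not_le.1 hn)) ⟨γ, hγ, rfl⟩
        simp [hsupp _ this]
      · rw [Pi.zero_apply, mul_assoc]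
        exact mul_nonneg (h0 _) (not_le.1 hγ).le
    · rw [mul_assoc, hγ₀]
      exact (mul_pos hpos (hsign γ₀ hγ₀)).ne'
  rw [integral_mul_const] at hpos'
  rw [Int] at hI
  rw [hI, zero_mul] at hpos'
  exact lt_irrefl _ hpos'

end Crest.Agent.R174.IntStd
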