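import Crest.Agent.R174.CostLemmas
import Crest.Agent.R174.Inner

/-!
# Row 174, part C0: monomial unitaries over a traced star algebra
-/

set_option autoImplicit false

namespace Crest.Agent.R174

open Equiv Matrix Real

section
variable (R : Type*) [Ring R] [StarRing R] {ι : Type} [Fintype ι] [DecidableEq ι]

/-- The matrix of a permutation. -/
def pm (σ : Perm ι) : Matrix ι ι R := Matrix.of fun i j => if i = σ j then 1 else 0

omit [StarRing R] [Fintype ι] in
theorem pm_one : pm R (1 : Perm ι) = 1 := by
  ext i j; simp [pm, Matrix.one_apply]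

omit [StarRing R] in
theorem pm_mul (σ τ : Perm ι) : pm R (σ * τ) = pm R σ * pm R τ := by
  ext i j
  simp [pm, Matrix.mul_apply]

omit [Fintype ι] in
theorem star_pm (σ : Perm ι) : star (pm R σ) = pm R σ⁻¹ := by
  ext i j
  simp only [pm, Matrix.star_apply, Matrix.of_apply]
  by_cases h : j = σ i
  · subst h; simp
  · have : ¬ i = σ⁻¹ j := fun h' => h (by rw [h']; simp)
    rw [if_neg h, if_neg this, star_zero]

/-- Permutation unitaries. -/
def PM : Perm ι →* unitary (Matrix ι ι R) where
  toFun σ := ⟨pm R σ, by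
    constructor
    · rw [star_pm, ← pm_mul, inv_mul_cancel, pm_one]
    · rw [star_pm, ← pm_mul, mul_inv_cancel, pm_one]⟩
  map_one' := Subtype.ext (pm_one R)
  map_mul' σ τ := Subtype.ext (pm_mul R σ τ)

theorem PM_val (σ : Perm ι) : ((PM R σ : unitary (Matrix ι ι R)) : Matrix ι ι R) = pm R σ := rfl

variable {R}

/-- Diagonal unitaries. -/
def DG : (ι → unitary R) →* unitary (Matrix ι ι R) where
  toFun β := ⟨diagonal fun i => (β i : R), by
    constructor
    · rw [star_eq_conjTranspose, diagonal_conjTranspose, diagonal_mul_diagonal, ← diagonal_one]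
      congr 1; funext i; exact (β i).2.1
    · rw [star_eq_conjTranspose, diagonal_conjTranspose, diagonal_mul_diagonal, ← diagonal_one]
      congr 1; funext i; exact (β i).2.2⟩
  map_one' := Subtype.ext (by simp)
  map_mul' β β' := Subtype.ext (by simp [diagonal_mul_diagonal])

theorem DG_val (β : ι → unitary R) :
    ((DG β : unitary (Matrix ι ι R)) : Matrix ι ι R) = diagonal fun i => (β i : R) := rfl

omit [StarRing R] in
theorem pm_mul_diagonal (σ : Perm ι) (δ : ι → R) :
    pm R σ * diagonal δ = diagonal (fun i => δ (σ⁻¹ i)) * pm R σ := by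
  ext i j
  simp only [pm, mul_diagonal, diagonal_mul, Matrix.of_apply]
  split_ifs with h
  · subst h; simp
  · simp

theorem PM_mul_DG (σ : Perm ι) (β : ι → unitary R) :
    PM R σ * DG β = DG (fun i => β (σ⁻¹ i)) * PM R σ :=
  Subtype.ext (pm_mul_diagonal σ _)

theorem PM_mul_DG_single (σ : Perm ι) (a : ι) (y : unitary R) :
    PM R σ * DG (Pi.mulSingle a y) = DG (Pi.mulSingle (σ a) y) * PM R σ := by
  rw [PM_mul_DG]
  congr 2
  funext i
  by_cases h : i = σ a
  · subst h; simp
  · have : σ⁻¹ i ≠ a := fun h' => h (by rw [← h']; simp)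
    rw [Pi.mulSingle_eq_of_ne h, Pi.mulSingle_eq_of_ne this]

theorem commute_PM_DG {σ : Perm ι} {β : ι → unitary R} (h : ∀ i, σ i = i ∨ β i = 1) :
    Commute (PM R σ) (DG β) := by
  change _ = _
  rw [PM_mul_DG]
  congr 2
  funext i
  by_cases hi : σ i = i
  · have : σ⁻¹ i = i := by rw [Perm.inv_eq_iff_eq, hi]
    rw [this]
  · have h2 : σ (σ⁻¹ i) ≠ σ⁻¹ i := by
      intro h'
      apply hi
      have h3 : σ⁻¹ i = i := by rw [← h']; simp
      rwa [h3] at h'
    rw [(h _).resolve_left hi, (h _).resolve_left h2]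

theorem commute_PM_PM {σ τ : Perm ι} (h : ∀ i, σ i = i ∨ τ i = i) :
    Commute (PM R σ) (PM R τ) :=
  (Perm.Disjoint.commute h).map _

theorem commute_DG_DG {β β' : ι → unitary R} (h : ∀ i, β i = 1 ∨ β' i = 1) :
    Commute (DG β) (DG β') := by
  refine Commute.map ?_ _
  funext i
  rcases h i with h | h <;> simp [h]

end

section
variable (R : Type*) [Ring R] [StarRing R] [Algebra ℂ R] [StarModule ℂ R]

/-- Scalar unitaries. -/
noncomputable def sc : Circle →* unitary R where
  toFun z := ⟨(z : ℂ) • (1 : R), by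
    constructor
    · rw [star_smul, star_one, smul_mul_smul_comm, mul_one, Complex.star_def,
        ← Circle.coe_inv_eq_conj, ← Circle.coe_mul]
      simp
    · rw [star_smul, star_one, smul_mul_smul_comm, mul_one, Complex.star_def,
        ← Circle.coe_inv_eq_conj, ← Circle.coe_mul]
      simp⟩
  map_one' := Subtype.ext (by simp)
  map_mul' z w := Subtype.ext (by simp [smul_smul, mul_comm])

theorem sc_val (z : Circle) : ((sc R z : unitary R) : R) = (z : ℂ) • (1 : R) := rfl

variable {R}

theorem sc_comm (z : Circle) (y : unitary R) : sc R z * y = y * sc R z :=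
  Subtype.ext (by simp [sc_val])

variable {ι : Type} [Fintype ι] [DecidableEq ι] (T : Tr R)

/-- The cost of a unitary matrix. -/
def CostU (u : unitary (Matrix ι ι R)) (c : ℝ) : Prop := Cost (T.matrix ι) (u : Matrix ι ι R) c

variable {T}

omit [StarModule ℂ R] in
theorem CostU.one : CostU T (1 : unitary (Matrix ι ι R)) 0 := Cost.one

omit [StarModule ℂ R] in
theorem CostU.mul {u v : unitary (Matrix ι ι R)} {c d : ℝ} (hu : CostU T u c) (hv : CostU T v d) :
    CostU T (u * v) (c + d) := Cost.mul hu hv

omit [StarModule ℂ R] in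
theorem CostU.conj {u : unitary (Matrix ι ι R)} {c : ℝ} (hu : CostU T u c)
    (v : unitary (Matrix ι ι R)) : CostU T (v * u * v⁻¹) c := Cost.conj hu v.2

theorem CostU.invol (hT : T.τ 1 = 1) {s : unitary (Matrix ι ι R)} (h : s * s = 1) (A : Finset ι)
    (h1 : ∀ i ∈ A, (s : Matrix ι ι R) i i = 0) (h2 : ∀ i ∉ A, (s : Matrix ι ι R) i i = 1) :
    CostU T s (π * A.card / 2) := by
  have hs : (s : Matrix ι ι R) * s = 1 := congrArg Subtype.val h
  have hsa : IsSelfAdjoint (s : Matrix ι ι R) := by
    have h3 : star (s : Matrix ι ι R) * s = 1 := s.2.1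
    change star _ = _
    calc star (s : Matrix ι ι R) = star (s : Matrix ι ι R) * ((s : Matrix ι ι R) * s) := by
          rw [hs, mul_one]
      _ = s := by rw [← mul_assoc, h3, one_mul]
  have := Cost.invol (T := T.matrix ι) hsa hs
  unfold CostU
  convert this using 3
  rw [Tr.matrix_τ, Tr.matrix_τ, ← Complex.sub_re, ← Finset.sum_sub_distrib,
    ← Finset.sum_subset (Finset.subset_univ A)]
  · rw [Finset.sum_congr rfl (g := fun _ => (1 : ℂ))]
    · simp
    · intro i hi
      simp [h1 i hi, hT]
  · intro i _ hi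
    simp [h2 i hi]

theorem CostU.swp (hT : T.τ 1 = 1) {a b : ι} (h : a ≠ b) :
    CostU T (PM R (Equiv.swap a b)) π := by
  have := CostU.invol hT (s := PM R (Equiv.swap a b))
    (by rw [← map_mul, Equiv.swap_mul_self, map_one]) {a, b} ?_ ?_
  · convert this using 1
    rw [Finset.card_pair h]; push_cast; ring
  · intro i hi
    simp only [Finset.mem_insert, Finset.mem_singleton] at hi
    rcases hi with rfl | rfl <;> simp [PM_val, pm, h, h.symm]
  · intro i hi
    simp only [Finset.mem_insert, Finset.mem_singleton, not_or] at hi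
    simp [PM_val, pm, swap_apply_of_ne_of_ne hi.1 hi.2]

theorem CostU.of_SL (hT : T.τ 1 = 1) {n : ℕ} {σ : Perm ι} (h : SL n σ) :
    CostU T (PM R σ) (π * n) := by
  induction h with
  | one => simpa using CostU.one
  | swap hab _ ih =>
    rw [map_mul]
    convert (CostU.swp hT hab).mul ih using 1
    push_cast; ring

end

end Crest.Agent.R174
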