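import Crest.Agent.R174.Mono

/-!
# Row 174, part C2: the outer factorisation of the long cycle
-/

set_option autoImplicit false

namespace Crest.Agent.R174

open Equiv Real

variable {G : Type*} [Group G] {m : ℕ}
variable {R : Type*} [Ring R] [StarRing R] [Algebra ℂ R] [StarModule ℂ R]
variable {ι : Type} [Fintype ι] [DecidableEq ι] {T : Tr R}

/-- The unitary carried by a letter. -/
def labU (lam : G →* unitary R) : Lt G m → unitary R
  | .inl c => lam c
  | .inr _ => 1

/-- The number of transpositions charged to a letter. -/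
noncomputable def wt : Lt G m → ℝ
  | .inl _ => 1
  | .inr _ => 1 / 2

omit [Fintype ι] [DecidableEq ι] in
theorem perm_mem {μ : Perm ι} {l : List ι} (h : ∀ i, i ∉ l → μ i = i) {i : ι} (hi : i ∈ l) :
    μ i ∈ l := by
  by_contra h'
  have := μ.injective (h _ h')
  rw [this] at h'
  exact h' hi

omit [Algebra ℂ R] [StarModule ℂ R] in
theorem DG_single_mul (o : ι) (y y' : unitary R) :
    DG (Pi.mulSingle o y) * DG (Pi.mulSingle o y') = DG (Pi.mulSingle o (y * y')) := by
  rw [← map_mul, ← Pi.mulSingle_mul]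

theorem outer (hT : T.τ 1 = 1) (lam : G →* unitary R) (lab : ι → Lt G m) (ω : Circle) (o : ι)
    {x : G} {L : List (Lt G m)} (h : Null x L) :
    ∀ (l : List ι), l.map lab = L → l.Nodup → o ∉ l →
    ∃ (μ : Perm ι) (z : ι → Circle) (Y : unitary (Matrix ι ι R)),
      μ * μ = 1 ∧ (∀ i, i ∉ l → μ i = i ∧ z i = 1) ∧
      (∀ i c, lab i = .inl c → μ i = i ∧ z i = 1) ∧
      (∀ i ∈ l, ∀ v b, lab i = .inr (v, b) → lab (μ i) = .inr (v, !b)) ∧
      (∀ i, z (μ i) * z i = 1) ∧ CostU T Y (π * (L.map wt).sum) ∧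
      Y * (PM R (cyc o l) * (PM R μ *
        DG fun i => if i ∈ l then sc R (ω * z i) * labU lam (lab i) else 1)) =
        DG (Pi.mulSingle o (sc R (ω ^ l.length) * lam x)) := by
  induction h with
  | nil =>
    intro l hl _ _
    obtain rfl := List.map_eq_nil_iff.1 hl
    refine ⟨1, 1, 1, by simp, by simp, by simp, by simp, by simp, by simpa using CostU.one, ?_⟩
    simp only [cyc_nil, map_one, one_mul, List.not_mem_nil, if_false, List.length_nil, pow_zero,
      Pi.mulSingle_one]
    exact map_one DG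
  | cons c x L _ ih =>
    intro l hl hnd ho
    obtain ⟨a, l', rfl, ha, hl'⟩ := List.map_eq_cons_iff.1 hl
    rw [List.nodup_cons] at hnd
    rw [List.mem_cons, not_or] at ho
    obtain ⟨μ, z, Y, h1, h2, h3, h4, h5, h6, h7⟩ := ih l' hl' hnd.2 ho.2
    set y : unitary R := sc R ω * lam c with hy
    refine ⟨μ, z, DG (Pi.mulSingle o y) * (Y * PM R (swap o a)) * (DG (Pi.mulSingle o y))⁻¹,
      h1, fun i hi => h2 i fun h => hi (List.mem_cons_of_mem _ h), h3, ?_, h5, ?_, ?_⟩
    · intro i hi v b hlab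
      rcases List.mem_cons.1 hi with rfl | hi
      · rw [ha] at hlab; cases hlab
      · exact h4 i hi v b hlab
    · convert (h6.mul (CostU.swp hT ho.1)).conj _ using 1
      simp [wt]; ring
    · have hβ : (fun i => if i ∈ a :: l' then sc R (ω * z i) * labU lam (lab i) else 1) =
          Pi.mulSingle a y * fun i => if i ∈ l' then sc R (ω * z i) * labU lam (lab i) else 1 := by
        funext i
        by_cases hi : i = a
        · subst hi
          simp [hnd.1, (h2 i hnd.1).2, ha, labU, hy]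
        · simp [hi]
      have c1 : PM R μ * DG (Pi.mulSingle a y) = DG (Pi.mulSingle a y) * PM R μ := by
        rw [PM_mul_DG_single, (h2 a hnd.1).1]
      have c2 : PM R (cyc o l') * DG (Pi.mulSingle a y) = DG (Pi.mulSingle a y) * PM R (cyc o l') := by
        rw [PM_mul_DG_single, cyc_fix (Ne.symm ho.1) hnd.1]
      have c3 : PM R (swap o a) * DG (Pi.mulSingle a y) = DG (Pi.mulSingle o y) * PM R (swap o a) := by
        rw [PM_mul_DG_single, swap_apply_right]
      have c4 : PM R (swap o a) * PM R (swap o a) = 1 := by rw [← map_mul, swap_mul_self, map_one]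
      have c5 : y * (sc R (ω ^ l'.length) * lam x) = sc R (ω ^ (a :: l').length) * lam (c * x) := by
        rw [hy, List.length_cons, pow_succ', map_mul, map_mul, mul_assoc, ← mul_assoc (lam c),
          ← sc_comm]
        simp only [mul_assoc]
      rw [hβ, map_mul, cyc_cons, map_mul, ← c5, ← DG_single_mul o y, ← h7]
      generalize DG (fun i => if i ∈ l' then sc R (ω * z i) * labU lam (lab i) else 1) = B at *
      generalize DG (Pi.mulSingle a y) = Da at *
      generalize DG (Pi.mulSingle o y) = Do at *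
      generalize PM R (swap o a) = s at *
      generalize PM R (cyc o l') = C at *
      generalize PM R μ = M at *
      calc Do * (Y * s) * Do⁻¹ * (s * C * (M * (Da * B)))
          = Do * (Y * s) * Do⁻¹ * (s * C * ((M * Da) * B)) := by simp only [mul_assoc]
        _ = Do * (Y * s) * Do⁻¹ * (s * (C * Da) * (M * B)) := by rw [c1]; simp only [mul_assoc]
        _ = Do * (Y * s) * Do⁻¹ * ((s * Da) * C * (M * B)) := by rw [c2]; simp only [mul_assoc]
        _ = Do * (Y * (s * s) * C * (M * B)) := by rw [c3]; group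
        _ = _ := by rw [c4]; simp only [mul_assoc, mul_one]
  | br v b x L₁ L₂ _ _ ih₁ ih₂ =>
    intro l hl hnd ho
    obtain ⟨a, l', rfl, ha, hl'⟩ := List.map_eq_cons_iff.1 hl
    obtain ⟨l₁, l'', rfl, hl₁, hl''⟩ := List.map_eq_append_iff.1 hl'
    obtain ⟨a', l₂, rfl, ha', hl₂⟩ := List.map_eq_cons_iff.1 hl''
    simp only [List.nodup_cons, List.nodup_append, List.mem_append, List.mem_cons, not_or,
      forall_eq_or_imp] at hnd ho
    obtain ⟨⟨ha1, haa', ha2⟩, hn1, ⟨ha'2, hn2⟩, h12⟩ := hnd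
    obtain ⟨hoa, ho1, hoa', ho2⟩ := ho
    have ha'1 : a' ∉ l₁ := fun h => (h12 a' h).1 rfl
    have h12' : ∀ i ∈ l₁, i ∉ l₂ := fun i h h' => (h12 i h).2 i h' rfl
    obtain ⟨μ₁, z₁, Y₁, p1, p2, p3, p4, p5, p6, p7⟩ := ih₁ l₁ hl₁ hn1 ho1
    obtain ⟨μ₂, z₂, Y₂, q1, q2, q3, q4, q5, q6, q7⟩ := ih₂ l₂ hl₂ hn2 ho2
    set α : Circle := ω ^ (l₁.length + 1) with hα
    set μ : Perm ι := swap a a' * μ₁ * μ₂ with hμ
    set z : ι → Circle := Pi.mulSingle a α⁻¹ * Pi.mulSingle a' α * z₁ * z₂ with hz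
    have m1 : ∀ i ∈ l₁, μ₁ i ∈ l₁ := fun i hi => perm_mem (fun j hj => (p2 j hj).1) hi
    have m2 : ∀ i ∈ l₂, μ₂ i ∈ l₂ := fun i hi => perm_mem (fun j hj => (q2 j hj).1) hi
    have e1 : ∀ i ∈ l₁, μ i = μ₁ i ∧ z i = z₁ i := by
      intro i hi
      have hia : i ≠ a := fun h => ha1 (h ▸ hi)
      have hia' : i ≠ a' := fun h => ha'1 (h ▸ hi)
      constructor
      · rw [hμ, Perm.mul_apply, Perm.mul_apply, (q2 i (h12' i hi)).1, swap_apply_of_ne_of_ne]
        · exact fun h => ha1 (h ▸ m1 i hi)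
        · exact fun h => ha'1 (h ▸ m1 i hi)
      · simp [hz, hia, hia', (q2 i (h12' i hi)).2]
    have e2 : ∀ i ∈ l₂, μ i = μ₂ i ∧ z i = z₂ i := by
      intro i hi
      have hia : i ≠ a := fun h => ha2 (h ▸ hi)
      have hia' : i ≠ a' := fun h => ha'2 (h ▸ hi)
      constructor
      · rw [hμ, Perm.mul_apply, Perm.mul_apply, (p2 _ fun h => h12' _ h (m2 i hi)).1,
          swap_apply_of_ne_of_ne]
        · exact fun h => ha2 (h ▸ m2 i hi)
        · exact fun h => ha'2 (h ▸ m2 i hi)
      · simp [hz, hia, hia', (p2 i fun h => h12' i h hi).2]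
    have e3 : μ a = a' ∧ z a = α⁻¹ := by
      constructor
      · rw [hμ, Perm.mul_apply, Perm.mul_apply, (q2 a ha2).1, (p2 a ha1).1, swap_apply_left]
      · simp [hz, haa', (q2 a ha2).2, (p2 a ha1).2]
    have e4 : μ a' = a ∧ z a' = α := by
      constructor
      · rw [hμ, Perm.mul_apply, Perm.mul_apply, (q2 a' ha'2).1, (p2 a' ha'1).1, swap_apply_right]
      · simp [hz, Ne.symm haa', (q2 a' ha'2).2, (p2 a' ha'1).2]
    have e5 : ∀ i, i ≠ a → i ∉ l₁ → i ≠ a' → i ∉ l₂ → μ i = i ∧ z i = 1 := by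
      intro i h1 h2 h3 h4
      constructor
      · rw [hμ, Perm.mul_apply, Perm.mul_apply, (q2 i h4).1, (p2 i h2).1,
          swap_apply_of_ne_of_ne h1 h3]
      · simp [hz, h1, h3, (q2 i h4).2, (p2 i h2).2]
    have cases : ∀ i, i = a ∨ i ∈ l₁ ∨ i = a' ∨ i ∈ l₂ ∨ (i ≠ a ∧ i ∉ l₁ ∧ i ≠ a' ∧ i ∉ l₂) := by
      intro i; tauto
    set y : unitary R := sc R (ω * α) with hy
    refine ⟨μ, z, DG (Pi.mulSingle o y) * (Y₂ * PM R (swap o a')) * (DG (Pi.mulSingle o y))⁻¹ *
      (PM R (swap o a) * Y₁ * (PM R (swap o a))⁻¹), ?_, ?_, ?_, ?_, ?_, ?_, ?_⟩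
    · ext i
      rw [Perm.mul_apply, Perm.one_apply]
      rcases cases i with rfl | hi | rfl | hi | ⟨h1, h2, h3, h4⟩
      · rw [e3.1, e4.1]
      · rw [(e1 i hi).1, (e1 _ (m1 i hi)).1, ← Perm.mul_apply, p1, Perm.one_apply]
      · rw [e4.1, e3.1]
      · rw [(e2 i hi).1, (e2 _ (m2 i hi)).1, ← Perm.mul_apply, q1, Perm.one_apply]
      · rw [(e5 i h1 h2 h3 h4).1, (e5 i h1 h2 h3 h4).1]
    · intro i hi
      simp only [List.mem_append, List.mem_cons, not_or] at hi
      exact e5 i hi.1 hi.2.1 hi.2.2.1 hi.2.2.2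
    · intro i c hc
      rcases cases i with rfl | hi | rfl | hi | ⟨h1, h2, h3, h4⟩
      · rw [ha] at hc; cases hc
      · rw [(e1 i hi).1, (e1 i hi).2]; exact p3 i c hc
      · rw [ha'] at hc; cases hc
      · rw [(e2 i hi).1, (e2 i hi).2]; exact q3 i c hc
      · exact e5 i h1 h2 h3 h4
    · intro i hi v' b' hc
      simp only [List.mem_append, List.mem_cons] at hi
      rcases hi with rfl | hi | rfl | hi
      · rw [ha] at hc; cases hc; rw [e3.1, ha']
      · rw [(e1 i hi).1]; exact p4 i hi v' b' hc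
      · rw [ha'] at hc; cases hc; rw [e4.1, ha, Bool.not_not]
      · rw [(e2 i hi).1]; exact q4 i hi v' b' hc
    · intro i
      rcases cases i with rfl | hi | rfl | hi | ⟨h1, h2, h3, h4⟩
      · rw [e3.1, e4.2, e3.2, mul_inv_cancel]
      · rw [(e1 i hi).1, (e1 _ (m1 i hi)).2, (e1 i hi).2, p5]
      · rw [e4.1, e4.2, e3.2, inv_mul_cancel]
      · rw [(e2 i hi).1, (e2 _ (m2 i hi)).2, (e2 i hi).2, q5]
      · rw [(e5 i h1 h2 h3 h4).1, (e5 i h1 h2 h3 h4).2, mul_one]
    · convert ((q6.mul (CostU.swp hT hoa')).conj _).mul (p6.conj _) using 1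
      simp [wt]; ring
    · set β₁ : ι → unitary R :=
        fun i => if i ∈ l₁ then sc R (ω * z₁ i) * labU lam (lab i) else 1 with hβ₁
      set β₂ : ι → unitary R :=
        fun i => if i ∈ l₂ then sc R (ω * z₂ i) * labU lam (lab i) else 1 with hβ₂
      set ya : unitary R := sc R (ω * α⁻¹) with hya
      have hβ : (fun i => if i ∈ a :: (l₁ ++ a' :: l₂) then sc R (ω * z i) * labU lam (lab i)
          else 1) = Pi.mulSingle a ya * Pi.mulSingle a' y * β₁ * β₂ := by
        funext i
        rcases cases i with rfl | hi | rfl | hi | ⟨h1, h2, h3, h4⟩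
        · simp [hβ₁, hβ₂, ha1, ha2, haa', e3.2, ha, labU, hya]
        · have hia : i ≠ a := fun h => ha1 (h ▸ hi)
          have hia' : i ≠ a' := fun h => ha'1 (h ▸ hi)
          simp [hβ₁, hβ₂, hi, hia, hia', h12' i hi, (e1 i hi).2]
        · simp [hβ₁, hβ₂, ha'1, ha'2, Ne.symm haa', e4.2, ha', labU, hy]
        · have hia : i ≠ a := fun h => ha2 (h ▸ hi)
          have hia' : i ≠ a' := fun h => ha'2 (h ▸ hi)
          have hi1 : i ∉ l₁ := fun h => h12' i h hi
          simp [hβ₁, hβ₂, hi, hia, hia', hi1, (e2 i hi).2]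
        · simp [hβ₁, hβ₂, h1, h2, h3, h4]
      have b1 : ∀ i, i ∉ l₁ → β₁ i = 1 := fun i hi => by simp [hβ₁, hi]
      -- permutations that fix `l₁` pointwise commute with the `l₁` data
      have k1 : ∀ σ : Perm ι, (∀ i ∈ l₁, σ i = i) →
          Commute (PM R σ) (PM R μ₁) ∧ Commute (PM R σ) (DG β₁) := by
        intro σ hσ
        refine ⟨commute_PM_PM fun i => ?_, commute_PM_DG fun i => ?_⟩
        · by_cases hi : i ∈ l₁
          · exact Or.inl (hσ i hi)
          · exact Or.inr (p2 i hi).1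
        · by_cases hi : i ∈ l₁
          · exact Or.inl (hσ i hi)
          · exact Or.inr (b1 i hi)
      have ks : ∀ (σ : Perm ι) (j : ι) (w : unitary R), σ j = j →
          Commute (PM R σ) (DG (Pi.mulSingle j w)) := by
        intro σ j w hj
        change _ = _
        rw [PM_mul_DG_single, hj]
      have kd : ∀ (j : ι) (w : unitary R), j ∉ l₁ → Commute (DG (Pi.mulSingle j w)) (DG β₁) := by
        intro j w hj
        refine commute_DG_DG fun i => ?_
        by_cases hi : i = j
        · exact Or.inr (b1 i (hi ▸ hj))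
        · exact Or.inl (Pi.mulSingle_eq_of_ne hi _)
      have k2 := k1 μ₂ fun i hi => (q2 i (h12' i hi)).1
      have k3 := k1 (swap o a') fun i hi =>
        swap_apply_of_ne_of_ne (fun h => ho1 (h ▸ hi)) (fun h => ha'1 (h ▸ hi))
      have k4 := k1 (swap a a') fun i hi =>
        swap_apply_of_ne_of_ne (fun h => ha1 (h ▸ hi)) (fun h => ha'1 (h ▸ hi))
      have k5 := k1 (cyc o l₂) fun i hi => cyc_fix (fun h => ho1 (h ▸ hi)) (h12' i hi)
      have k6 := ks μ₁ a ya (p2 a ha1).1
      have k7 := ks μ₁ a' y (p2 a' ha'1).1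
      have k8 := ks μ₂ a ya (q2 a ha2).1
      have k9 := ks μ₂ a' y (q2 a' ha'2).1
      have k10 := ks (cyc o l₂) a ya (cyc_fix (Ne.symm hoa) ha2)
      have k11 := ks (cyc o l₂) a' y (cyc_fix (Ne.symm hoa') ha'2)
      have k12 : Commute (PM R (cyc o l₂)) (PM R (swap a a')) := by
        refine Commute.map ?_ _
        change _ = _
        rw [mul_swap_eq_swap_mul, cyc_fix (Ne.symm hoa) ha2, cyc_fix (Ne.symm hoa') ha'2]
      have k13 := kd a ya ha1
      have k14 := kd a' y ha'1
      have k15 := ks (swap o a') a ya (swap_apply_of_ne_of_ne (Ne.symm hoa) haa')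
      have c1 : PM R (swap o a') * PM R (swap a a') = PM R (swap o a) * PM R (swap o a') := by
        rw [← map_mul, ← map_mul, swap_three hoa haa']
      have c2 : DG (Pi.mulSingle o (sc R (ω ^ l₁.length) * lam 1)) * PM R (swap o a) *
          DG (Pi.mulSingle a ya) = PM R (swap o a) := by
        rw [mul_assoc, PM_mul_DG_single, swap_apply_right, ← mul_assoc, DG_single_mul, map_one,
          mul_one, hya, ← map_mul, hα]
        have : ω ^ l₁.length * (ω * (ω ^ (l₁.length + 1))⁻¹) = 1 := by group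
        simp [this]
      have c3 : PM R (swap o a') * DG (Pi.mulSingle a' y) =
          DG (Pi.mulSingle o y) * PM R (swap o a') := by
        rw [PM_mul_DG_single, swap_apply_right]
      have c4 : PM R (swap o a) * PM R (swap o a) = 1 := by rw [← map_mul, swap_mul_self, map_one]
      have c4' : PM R (swap o a') * PM R (swap o a') = 1 := by
        rw [← map_mul, swap_mul_self, map_one]
      have c5 : y * (sc R (ω ^ l₂.length) * lam x) =
          sc R (ω ^ (a :: (l₁ ++ a' :: l₂)).length) * lam x := by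
        rw [hy, ← mul_assoc, ← map_mul, hα]
        congr 2
        simp only [List.length_cons, List.length_append]
        group
      rw [hβ, hμ, cyc_cons, cyc_append, cyc_cons, ← c5, ← DG_single_mul o y, ← q7]
      simp only [map_mul]
      rw [← p7] at c2
      generalize DG β₁ = B₁ at *
      generalize DG β₂ = B₂ at *
      generalize DG (Pi.mulSingle a ya) = Da at *
      generalize DG (Pi.mulSingle a' y) = Db at *
      generalize DG (Pi.mulSingle o y) = Do at *
      generalize PM R (swap o a) = s at *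
      generalize PM R (swap o a') = s' at *
      generalize PM R (swap a a') = t at *
      generalize PM R (cyc o l₁) = C₁ at *
      generalize PM R (cyc o l₂) = C₂ at *
      generalize PM R μ₁ = M₁ at *
      generalize PM R μ₂ = M₂ at *
      have r1 : M₁ * M₂ * (Da * Db * B₁ * B₂) = M₁ * B₁ * (Da * Db * (M₂ * B₂)) := by
        have : M₂ * (Da * Db * B₁) = B₁ * (Da * Db * M₂) := by
          rw [((k8.mul_right k9).mul_right k2.2).eq, ((k13.mul_left k14).eq)]
          simp only [mul_assoc]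
        calc M₁ * M₂ * (Da * Db * B₁ * B₂) = M₁ * (M₂ * (Da * Db * B₁)) * B₂ := by
              simp only [mul_assoc]
          _ = _ := by rw [this]; simp only [mul_assoc]
      have r2 : s' * C₂ * t * (M₁ * B₁) = M₁ * B₁ * (s' * t * C₂) := by
        rw [(((k3.1.mul_right k3.2).mul_left (k5.1.mul_right k5.2)).mul_left
          (k4.1.mul_right k4.2)).eq, mul_assoc s', k12.eq, mul_assoc s']
      have r3 : C₂ * (Da * Db) = Da * Db * C₂ := (k10.mul_right k11).eq
      have hs : s⁻¹ = s := inv_eq_of_mul_eq_one_right c4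
      calc Do * (Y₂ * s') * Do⁻¹ * (s * Y₁ * s⁻¹) *
            (s * (C₁ * (s' * C₂)) * (t * M₁ * M₂ * (Da * Db * B₁ * B₂)))
          = Do * (Y₂ * s') * Do⁻¹ * (s * Y₁) *
            (C₁ * (s' * C₂ * t) * (M₁ * M₂ * (Da * Db * B₁ * B₂))) := by group
        _ = Do * (Y₂ * s') * Do⁻¹ * (s * Y₁) *
            (C₁ * (s' * C₂ * t * (M₁ * B₁)) * (Da * Db * (M₂ * B₂))) := by
          rw [r1]; simp only [mul_assoc]
        _ = Do * (Y₂ * s') * Do⁻¹ * (s * Y₁) *
            (C₁ * (M₁ * B₁) * (s' * t) * (C₂ * (Da * Db)) * (M₂ * B₂)) := by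
          rw [r2]; simp only [mul_assoc]
        _ = Do * (Y₂ * s') * Do⁻¹ * s *
            (Y₁ * (C₁ * (M₁ * B₁)) * s * (s' * Da) * Db * C₂ * (M₂ * B₂)) := by
          rw [r3, c1]; simp only [mul_assoc]
        _ = Do * (Y₂ * s') * Do⁻¹ * s *
            ((Y₁ * (C₁ * (M₁ * B₁)) * s * Da) * (s' * Db) * C₂ * (M₂ * B₂)) := by
          rw [k15.eq]; simp only [mul_assoc]
        _ = Do * (Y₂ * s') * Do⁻¹ * (s * s) * (Do * s' * C₂ * (M₂ * B₂)) := by
          rw [c2, c3]; simp only [mul_assoc]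
        _ = Do * (Y₂ * (s' * s') * C₂ * (M₂ * B₂)) := by rw [c4]; group
        _ = _ := by rw [c4']; simp only [mul_assoc, mul_one]

end Crest.Agent.R174
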