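import Crest.Agent.R174.Defs

/-!
# Row 174 (S0262): reduction of the statement to `NoDiagram`
-/

set_option autoImplicit false

namespace Crest.Agent.R174

open Monoid Matrix MeasureTheory Real

universe u

namespace Reduce

/-- The exponent homomorphism. -/
def expH (G : Type*) [Group G] (m : ℕ) :
    Coprod G (FreeGroup (Fin m)) →* Multiplicative (Fin m → ℤ) :=
  Coprod.lift (1 : G →* Multiplicative (Fin m → ℤ))
    (FreeGroup.lift fun k => Multiplicative.ofAdd (Pi.single k 1))

section
variable {G : Type*} [Group G] {m : ℕ}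

theorem expH_inl (g : G) : expH G m (Coprod.inl g) = 1 := by
  simp [expH]

theorem expH_of (k : Fin m) :
    expH G m (Coprod.inr (FreeGroup.of k)) = Multiplicative.ofAdd (Pi.single k 1) := by
  simp [expH]

theorem evL_nil : evL ([] : List (Lt G m)) = 1 := rfl

theorem evL_cons (a : Lt G m) (l : List (Lt G m)) : evL (a :: l) = Lt.ev a * evL l := by
  simp [evL]

theorem evL_append (l l' : List (Lt G m)) : evL (l ++ l') = evL l * evL l' := by
  simp [evL]

theorem expH_ev (a : Lt G m) (v : Fin m) :
    Multiplicative.toAdd (expH G m (Lt.ev a)) v = Lt.ex v a := by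
  rcases a with g | ⟨k, b⟩
  · simp [Lt.ev, Lt.ex, expH_inl]
  · cases b
    · have : Lt.ev (G := G) (Sum.inr (k, false)) = (Coprod.inr (FreeGroup.of k))⁻¹ := by
        simp [Lt.ev]
      rw [this, map_inv, expH_of]
      by_cases h : k = v
      · subst h; simp [Lt.ex]
      · simp [Lt.ex, h, Ne.symm h]
    · have : Lt.ev (G := G) (Sum.inr (k, true)) = Coprod.inr (FreeGroup.of k) := rfl
      rw [this, expH_of]
      by_cases h : k = v
      · subst h; simp [Lt.ex]
      · simp [Lt.ex, h, Ne.symm h]

theorem expH_evL (l : List (Lt G m)) (v : Fin m) :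
    Multiplicative.toAdd (expH G m (evL l)) v = (l.map (Lt.ex v)).sum := by
  induction l with
  | nil => simp [evL_nil]
  | cons a l ih =>
    rw [evL_cons, map_mul, toAdd_mul, Pi.add_apply, ih, expH_ev, List.map_cons, List.sum_cons]

theorem evL_surj (x : Coprod G (FreeGroup (Fin m))) : ∃ l : List (Lt G m), evL l = x := by
  induction x using Coprod.induction_on with
  | inl g => exact ⟨[Sum.inl g], by simp [evL, Lt.ev]⟩
  | inr y =>
    induction y using FreeGroup.induction_on with
    | C1 => exact ⟨[], by simp [evL]⟩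
    | of k => exact ⟨[Sum.inr (k, true)], by simp [evL, Lt.ev]⟩
    | inv_of k _ => exact ⟨[Sum.inr (k, false)], by simp [evL, Lt.ev]⟩
    | mul y z hy hz =>
      obtain ⟨l, hl⟩ := hy
      obtain ⟨l', hl'⟩ := hz
      exact ⟨l ++ l', by rw [evL_append, hl, hl', map_mul]⟩
  | mul x y hx hy =>
    obtain ⟨l, hl⟩ := hx
    obtain ⟨l', hl'⟩ := hy
    exact ⟨l ++ l', by rw [evL_append, hl, hl']⟩

end

/-- A matrix of full row rank has a nonzero maximal minor. -/
theorem exists_minor {m n : ℕ} (A : Matrix (Fin m) (Fin n) ℚ) (h : A.rank = m) :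
    ∃ c : Fin m → Fin n, Function.Injective c ∧ (A.submatrix id c).det ≠ 0 := by
  obtain ⟨κ, a, ha, hsp, hli⟩ := exists_linearIndependent' ℚ A.col
  have : Finite κ := Finite.of_injective a ha
  let _ : Fintype κ := Fintype.ofFinite κ
  have hcard : Fintype.card κ = m := by
    rw [← finrank_span_eq_card hli, hsp, ← Matrix.rank_eq_finrank_span_cols, h]
  let e : Fin m ≃ κ := (Fintype.equivFinOfCardEq hcard).symm
  refine ⟨a ∘ e, ha.comp e.injective, ?_⟩
  have hli' : LinearIndependent ℚ (A.submatrix id (a ∘ e)).col :=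
    hli.comp e e.injective
  have hu := Matrix.linearIndependent_cols_iff_isUnit.1 hli'
  rw [Matrix.isUnit_iff_isUnit_det] at hu
  exact hu.ne_zero

section Closure
variable {H : Type*} [Group H] {ι : Type*}

/-- A conjugate of a relator or of its inverse. -/
def cj (w : ι → H) (x : H × ι × Bool) : H :=
  x.1 * (if x.2.2 then w x.2.1 else (w x.2.1)⁻¹) * x.1⁻¹

theorem cj_flip (w : ι → H) (x : H × ι × Bool) :
    cj w (x.1, x.2.1, !x.2.2) = (cj w x)⁻¹ := by
  rcases x with ⟨a, j, b⟩
  cases b <;> simp [cj, mul_assoc]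

theorem exists_list (w : ι → H) (x : H) (hx : x ∈ Subgroup.normalClosure (Set.range w)) :
    ∃ L : List (H × ι × Bool), (L.map (cj w)).prod = x := by
  unfold Subgroup.normalClosure at hx
  induction hx using Subgroup.closure_induction with
  | mem x hx =>
    obtain ⟨a, ⟨j, rfl⟩, hc⟩ := Group.mem_conjugatesOfSet_iff.1 hx
    obtain ⟨c, hc⟩ := isConj_iff.1 hc
    exact ⟨[(c, j, true)], by simpa [cj] using hc⟩
  | one => exact ⟨[], rfl⟩
  | mul x y _ _ hx hy =>
    obtain ⟨L, rfl⟩ := hx
    obtain ⟨L', rfl⟩ := hy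
    exact ⟨L ++ L', by simp⟩
  | inv x _ hx =>
    obtain ⟨L, rfl⟩ := hx
    refine ⟨(L.map fun x => (x.1, x.2.1, !x.2.2)).reverse, ?_⟩
    rw [List.prod_inv_reverse, List.map_reverse, List.map_map, List.map_map]
    congr 2
    exact List.map_congr_left fun x _ => cj_flip w x

/-- The number of factors of a given type. -/
def cnt [DecidableEq ι] (c : ι × Bool) (L : List (H × ι × Bool)) : ℕ :=
  (L.map fun x => if x.2 = c then 1 else 0).sum

omit [Group H] in
theorem cnt_append [DecidableEq ι] (c : ι × Bool) (L L' : List (H × ι × Bool)) :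
    cnt c (L ++ L') = cnt c L + cnt c L' := by
  simp [cnt]

omit [Group H] in
theorem cnt_cons [DecidableEq ι] (c : ι × Bool) (x : H × ι × Bool) (L : List (H × ι × Bool)) :
    cnt c (x :: L) = (if x.2 = c then 1 else 0) + cnt c L := by
  simp [cnt]

omit [Group H] in
theorem cnt_le [DecidableEq ι] (c : ι × Bool) (L : List (H × ι × Bool)) :
    cnt c L ≤ L.length := by
  induction L with
  | nil => simp [cnt]
  | cons x L ih =>
    rw [cnt_cons, List.length_cons]
    split_ifs <;> omega

theorem exists_pad [DecidableEq ι] (w : ι → H) (D : List ι) :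
    ∃ L : List (H × ι × Bool), (L.map (cj w)).prod = 1 ∧ ∀ j b, cnt (j, b) L = D.count j := by
  induction D with
  | nil => exact ⟨[], rfl, fun _ _ => rfl⟩
  | cons i D ih =>
    obtain ⟨L, h1, h2⟩ := ih
    refine ⟨(1, i, true) :: (1, i, false) :: L, by simp [cj, h1], fun j b => ?_⟩
    rw [cnt_cons, cnt_cons, h2, List.count_cons]
    by_cases h : i = j
    · subst h
      cases b <;> simp <;> omega
    · simp [h]

theorem exists_balanced [Fintype ι] [DecidableEq ι] (w : ι → H) (L : List (H × ι × Bool))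
    (h : ∀ j, cnt (j, true) L = cnt (j, false) L) :
    ∃ (p : ℕ) (L' : List (H × ι × Bool)), (L'.map (cj w)).prod = (L.map (cj w)).prod ∧
      ∀ c, cnt c L' = p := by
  let d : ι → ℕ := fun j => L.length - cnt (j, true) L
  let D : List ι := (Finsupp.toMultiset (Finsupp.equivFunOnFinite.symm d)).toList
  have hD : ∀ j, D.count j = d j := by
    intro j
    rw [← Multiset.coe_count, Multiset.coe_toList, Finsupp.count_toMultiset]
    simp
  obtain ⟨P, h1, h2⟩ := exists_pad w D
  refine ⟨L.length, L ++ P, by simp [h1], ?_⟩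
  rintro ⟨j, b⟩
  rw [cnt_append, h2, hD]
  have h3 := cnt_le (j, true) L
  have h4 := h j
  cases b <;> simp only [d] <;> omega

omit [Group H] in
theorem exists_equiv [Fintype ι] [DecidableEq ι] (p : ℕ) (L : List (H × ι × Bool))
    (h : ∀ c, cnt c L = p) :
    ∃ e : Fin L.length ≃ ι × Fin p × Bool, ∀ i, ((e i).1, (e i).2.2) = (L.get i).2 := by
  have hc : ∀ c : ι × Bool, Fintype.card {i : Fin L.length // (L.get i).2 = c} =
      Fintype.card {k : ι × Fin p × Bool // (k.1, k.2.2) = c} := by
    intro c
    have h1 : Fintype.card {i : Fin L.length // (L.get i).2 = c} = cnt c L := by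
      rw [Fintype.card_subtype, Finset.card_filter, cnt, ← List.sum_ofFn]
      conv_rhs => rw [← List.ofFn_get L, List.map_ofFn]
      rfl
    have h2 : Fintype.card {k : ι × Fin p × Bool // (k.1, k.2.2) = c} = Fintype.card (Fin p) := by
      refine Fintype.card_congr ⟨fun k => k.1.2.1, fun r => ⟨(c.1, r, c.2), rfl⟩, ?_, ?_⟩
      · rintro ⟨⟨j, r, b⟩, rfl⟩
        rfl
      · intro r
        rfl
    rw [h1, h2, h, Fintype.card_fin]
  refine ⟨Equiv.ofFiberEquiv (f := fun i => (L.get i).2) (g := fun k => (k.1, k.2.2))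
    fun c => Fintype.equivOfCardEq (hc c), fun i => ?_⟩
  exact Equiv.ofFiberEquiv_map (f := fun i => (L.get i).2)
    (g := fun k : ι × Fin p × Bool => (k.1, k.2.2)) _ i

theorem hom_prod [Fintype ι] [DecidableEq ι] {A : Type*} [AddCommGroup A]
    (f : H →* Multiplicative A) (w : ι → H) (L : List (H × ι × Bool)) :
    Multiplicative.toAdd (f (L.map (cj w)).prod) =
      ∑ j, ((cnt (j, true) L : ℤ) - cnt (j, false) L) • Multiplicative.toAdd (f (w j)) := by
  induction L with
  | nil => simp [cnt]
  | cons x L ih =>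
    rcases x with ⟨a, i, b⟩
    rw [List.map_cons, List.prod_cons, map_mul, toAdd_mul, ih]
    have h1 : Multiplicative.toAdd (f (cj w (a, i, b))) =
        ∑ j, (((if (i, b) = (j, true) then 1 else 0 : ℕ) : ℤ) -
          ((if (i, b) = (j, false) then 1 else 0 : ℕ) : ℤ)) • Multiplicative.toAdd (f (w j)) := by
      rw [Finset.sum_eq_single i]
      · cases b <;> simp [cj]
      · intro j _ hj
        simp [Ne.symm hj]
      · simp
    rw [h1, ← Finset.sum_add_distrib]
    refine Finset.sum_congr rfl fun j _ => ?_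
    rw [← add_smul, cnt_cons, cnt_cons]
    congr 1
    push_cast
    ring

end Closure

/-- The square case with an element of order three. -/
theorem square (hN : NoDiagram.{u}) (G : Type u) [Group G] (m : ℕ) (hm : 1 ≤ m)
    (w : Fin m → Coprod G (FreeGroup (Fin m)))
    (hdet : (Matrix.of fun (v j : Fin m) => Multiplicative.toAdd (expH G m (w j)) v).det ≠ 0)
    (g : G) (hg3 : g ^ 3 = 1) (hg : g ≠ 1) :
    Coprod.inl g⁻¹ ∉ Subgroup.normalClosure (Set.range w) := by
  intro hmem
  obtain ⟨L, hL⟩ := exists_list w _ hmem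
  have hbal : ∀ j, cnt (j, true) L = cnt (j, false) L := by
    have h1 := hom_prod (expH G m) w L
    rw [hL, expH_inl, toAdd_one] at h1
    have h2 : (Matrix.of fun (v j : Fin m) => Multiplicative.toAdd (expH G m (w j)) v) *ᵥ
        (fun j => (cnt (j, true) L : ℤ) - cnt (j, false) L) = 0 := by
      funext v
      have := congrFun h1 v
      rw [Finset.sum_apply] at this
      simp only [Matrix.mulVec, dotProduct, Matrix.of_apply]
      rw [this]
      exact Finset.sum_congr rfl fun j _ => by simp [mul_comm]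
    have h3 := Matrix.eq_zero_of_mulVec_eq_zero hdet h2
    intro j
    have := congrFun h3 j
    simp only [Pi.zero_apply] at this
    omega
  obtain ⟨p, L', hL', hp⟩ := exists_balanced w L hbal
  obtain ⟨e, he⟩ := exists_equiv p L' hp
  choose s hs using (evL_surj : ∀ x : Coprod G (FreeGroup (Fin m)), _)
  refine hN G m p g hm hg3 hg (fun j => s (w j)) ?_ (List.ofFn e)
    (List.nodup_ofFn.2 e.injective) (fun k => List.mem_ofFn.2 ⟨e.symm k, by simp⟩)
    (fun k => s (L'.get (e.symm k)).1) ?_
  · have : (Matrix.of fun v j => ((s (w j)).map (Lt.ex v)).sum) =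
        Matrix.of fun (v j : Fin m) => Multiplicative.toAdd (expH G m (w j)) v := by
      ext v j
      rw [Matrix.of_apply, Matrix.of_apply, ← expH_evL, hs]
    rw [this]
    exact hdet
  · rw [← hL, ← hL']
    congr 1
    conv_rhs => rw [← List.ofFn_get L', List.map_ofFn]
    rw [List.map_ofFn]
    congr 1
    funext i
    have h1 := congrArg Prod.fst (he i)
    have h2 := congrArg Prod.snd (he i)
    simp only at h1 h2
    simp only [Function.comp_apply, hs, Equiv.symm_apply_apply, cj, h1, h2]

/-- Left multiplication on `Option G`. -/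
def lm (G : Type u) [Group G] : G →* Equiv.Perm (Option G) where
  toFun g := (Equiv.mulLeft g).optionCongr
  map_one' := by
    ext x : 1
    cases x <;> simp
  map_mul' a b := by
    ext x : 1
    cases x <;> simp [mul_assoc]

theorem swap_cube {α : Type*} [DecidableEq α] {a b c : α} (ab : a ≠ b) (ac : a ≠ c) (bc : b ≠ c) :
    (Equiv.swap a b * Equiv.swap a c) ^ 3 = 1 := by
  have h1 : (Equiv.swap a b * Equiv.swap a c) a = c := by
    rw [Equiv.Perm.mul_apply, Equiv.swap_apply_left, Equiv.swap_apply_of_ne_of_ne ac.symm bc.symm]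
  have h2 : (Equiv.swap a b * Equiv.swap a c) c = b := by
    rw [Equiv.Perm.mul_apply, Equiv.swap_apply_right, Equiv.swap_apply_left]
  have h3 : (Equiv.swap a b * Equiv.swap a c) b = a := by
    rw [Equiv.Perm.mul_apply, Equiv.swap_apply_of_ne_of_ne ab.symm bc, Equiv.swap_apply_right]
  ext x
  rw [pow_succ, pow_two, Equiv.Perm.mul_apply, Equiv.Perm.mul_apply (_ * _), Equiv.Perm.one_apply]
  by_cases ha : x = a
  · rw [ha, h1, h2, h3]
  by_cases hb : x = b
  · rw [hb, h3, h1, h2]
  by_cases hc : x = c
  · rw [hc, h2, h3, h1]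
  have h4 : (Equiv.swap a b * Equiv.swap a c) x = x := by
    rw [Equiv.Perm.mul_apply, Equiv.swap_apply_of_ne_of_ne ha hc,
      Equiv.swap_apply_of_ne_of_ne ha hb]
  rw [h4, h4, h4]

theorem exists_three {G : Type u} [Group G] (g : G) (hg : g ≠ 1) :
    ∃ s : Equiv.Perm (Option G), (lm G g * s * (lm G g)⁻¹ * s⁻¹) ^ 3 = 1 ∧
      lm G g * s * (lm G g)⁻¹ * s⁻¹ ≠ 1 := by
  classical
  refine ⟨Equiv.swap none (some 1), ?_⟩
  have h : lm G g * Equiv.swap none (some 1) * (lm G g)⁻¹ * (Equiv.swap none (some 1))⁻¹ =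
      Equiv.swap none (some g) * Equiv.swap none (some 1) := by
    rw [← Equiv.swap_apply_apply, Equiv.swap_inv]
    simp [lm]
  rw [h]
  refine ⟨swap_cube (by simp) (by simp) (by simpa using hg), fun h1 => ?_⟩
  have := congrArg (fun f : Equiv.Perm (Option G) => f none) h1
  simp [Equiv.swap_apply_def, Ne.symm hg] at this

end Reduce

open Reduce in
theorem reduce (hN : NoDiagram.{u}) (G : Type u) [Group G] (n m : ℕ) (hm : 1 ≤ m) (hmn : m ≤ n) (w : Fin m → Coprod G (FreeGroup (Fin n))) (hrank : (Matrix.of fun (i : Fin m) (j : Fin n) => ((Multiplicative.toAdd (Coprod.lift (1 : G →* Multiplicative (Fin n → ℤ)) (FreeGroup.lift fun k => Multiplicative.ofAdd (Pi.single k 1)) (w i)) j : ℤ) : ℚ)).rank = m) : Function.Injective ((QuotientGroup.mk' (Subgroup.normalClosure (Set.range w))).comp (Coprod.inl : G →* Coprod G (FreeGroup (Fin n)))) := by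
  classical
  have _ := hmn
  rw [injective_iff_map_eq_one]
  intro g hg
  by_contra hg1
  have hmem : Coprod.inl g ∈ Subgroup.normalClosure (Set.range w) :=
    (QuotientGroup.eq_one_iff _).1 hg
  obtain ⟨c, hc, hdet⟩ := exists_minor _ hrank
  let ψ : FreeGroup (Fin n) →* FreeGroup (Fin m) :=
    FreeGroup.lift (Function.extend c FreeGroup.of fun _ => 1)
  let κ : Coprod G (FreeGroup (Fin n)) →* Coprod (Equiv.Perm (Option G)) (FreeGroup (Fin m)) :=
    Coprod.map (lm G) ψ
  have hκ : ∀ x v, Multiplicative.toAdd (expH _ m (κ x)) v =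
      Multiplicative.toAdd (expH G n x) (c v) := by
    intro x v
    obtain ⟨l, rfl⟩ := evL_surj x
    have hof : ∀ k, Multiplicative.toAdd (expH _ m (κ (Coprod.inr (FreeGroup.of k)))) v =
        Multiplicative.toAdd (expH G n (Coprod.inr (FreeGroup.of k))) (c v) := by
      intro k
      have h1 : κ (Coprod.inr (FreeGroup.of k)) =
          Coprod.inr (Function.extend c FreeGroup.of (fun _ => 1) k) := by
        simp [κ, ψ]
      rw [h1, expH_of]
      by_cases hk : ∃ j, c j = k
      · obtain ⟨j, rfl⟩ := hk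
        rw [hc.extend_apply, expH_of]
        simp [Pi.single_apply, hc.eq_iff]
      · rw [Function.extend_apply' _ _ _ hk, map_one, map_one]
        have : c v ≠ k := fun h => hk ⟨v, h⟩
        simp [this]
    induction l with
    | nil => simp [evL_nil]
    | cons a l ih =>
      rw [evL_cons, map_mul κ, map_mul (expH _ m), map_mul (expH G n), toAdd_mul, toAdd_mul,
        Pi.add_apply, Pi.add_apply, ih]
      congr 1
      rcases a with x | ⟨k, b⟩
      · have h1 : κ (Lt.ev (Sum.inl x)) = Coprod.inl (lm G x) := by simp [κ, Lt.ev]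
        have h2 : Lt.ev (m := n) (Sum.inl x) = Coprod.inl x := rfl
        rw [h1, h2, expH_inl, expH_inl]
        rfl
      · cases b
        · have h2 : Lt.ev (G := G) (Sum.inr (k, false)) = (Coprod.inr (FreeGroup.of k))⁻¹ := by
            simp [Lt.ev]
          rw [h2, map_inv κ, map_inv (expH _ m), map_inv (expH G n), toAdd_inv, toAdd_inv,
            Pi.neg_apply, Pi.neg_apply, hof]
        · exact hof k
  obtain ⟨s, hs3, hs1⟩ := exists_three g hg1
  have hN1 : Coprod.inl (lm G g) ∈ Subgroup.normalClosure (Set.range (κ ∘ w)) := by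
    have h1 : Subgroup.normalClosure (Set.range w) ≤
        (Subgroup.normalClosure (Set.range (κ ∘ w))).comap κ := by
      apply Subgroup.normalClosure_le_normal
      rintro _ ⟨j, rfl⟩
      exact Subgroup.subset_normalClosure ⟨j, rfl⟩
    simpa [κ] using h1 hmem
  refine square hN (Equiv.Perm (Option G)) m hm (κ ∘ w) ?_ _ hs3 hs1 ?_
  · intro h0
    apply hdet
    have h1 := congrArg (Int.castRingHom ℚ) h0
    rw [RingHom.map_det, ← Matrix.det_transpose, map_zero] at h1
    rw [← h1]
    congr 1
    ext i j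
    have h2 := hκ (w i) j
    simp only [Matrix.submatrix_apply, Matrix.of_apply, id, Matrix.transpose_apply,
      RingHom.mapMatrix_apply, Matrix.map_apply, Function.comp_apply, h2]
    rfl
  · rw [map_inv]
    apply Subgroup.inv_mem
    have h1 := (Subgroup.normalClosure_normal (s := Set.range (κ ∘ w))).conj_mem _
      (Subgroup.inv_mem _ hN1) (Coprod.inl s)
    have h2 := Subgroup.mul_mem _ hN1 h1
    simpa [mul_assoc] using h2

end Crest.Agent.R174
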