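import Crest.Agent.R174.Spectral

/-!
# Row 174, step B1: words are homotopic to a power map
-/

set_option autoImplicit false

namespace Crest.Agent.R174

open Matrix
open scoped Matrix.Norms.Operator

namespace WordHtp

variable {ι : Type} [Fintype ι] [DecidableEq ι] {m p : ℕ}

/-! ### Blocks -/

theorem emb_ct_mul_emb (f : Fin p ↪ ι) : (emb f)ᴴ * emb f = 1 := by
  ext r s
  simp only [emb, mul_apply, conjTranspose_apply, of_apply, one_apply]
  rw [Finset.sum_eq_single (f r)]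
  · simp
  · intro i _ hi
    simp [hi]
  · simp

theorem emb_ct_mul_emb_of_ne {f₀ f₁ : Fin p ↪ ι} (h : ∀ r s, f₀ r ≠ f₁ s) :
    (emb f₀)ᴴ * emb f₁ = 0 := by
  ext r s
  simp only [emb, mul_apply, conjTranspose_apply, of_apply, Matrix.zero_apply]
  refine Finset.sum_eq_zero fun i _ => ?_
  by_cases hi : i = f₀ r
  · subst hi
    simp [h r s]
  · simp [hi]

omit [Fintype ι] in
theorem blk_one (f : Fin p ↪ ι) : blk f 1 = 1 := by simp [blk]

theorem blk_mul (f : Fin p ↪ ι) (σ τ : Matrix (Fin p) (Fin p) ℂ) :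
    blk f (σ * τ) = blk f σ * blk f τ := by
  have h : emb f * (σ - 1) * (emb f)ᴴ * (emb f * (τ - 1) * (emb f)ᴴ) =
      emb f * ((σ - 1) * (τ - 1)) * (emb f)ᴴ := by
    calc _ = emb f * (σ - 1) * ((emb f)ᴴ * emb f) * (τ - 1) * (emb f)ᴴ := by
          simp only [Matrix.mul_assoc]
      _ = _ := by rw [emb_ct_mul_emb, Matrix.mul_one]; simp only [Matrix.mul_assoc]
  have h2 : σ * τ - 1 = (τ - 1) + (σ - 1) + (σ - 1) * (τ - 1) := by noncomm_ring
  simp only [blk, mul_add, add_mul, one_mul, mul_one, h]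
  rw [h2]
  simp only [Matrix.mul_add, Matrix.add_mul]
  abel

theorem star_blk (f : Fin p ↪ ι) (σ : Matrix (Fin p) (Fin p) ℂ) :
    star (blk f σ) = blk f (star σ) := by
  simp [blk, star_eq_conjTranspose, conjTranspose_mul, Matrix.mul_assoc]

theorem blk_pow (f : Fin p ↪ ι) (σ : Matrix (Fin p) (Fin p) ℂ) (k : ℕ) :
    blk f (σ ^ k) = blk f σ ^ k := by
  induction k with
  | zero => simp [blk_one]
  | succ k ih => rw [pow_succ, pow_succ, blk_mul, ih]

theorem blk_mem (f : Fin p ↪ ι) {σ : Matrix (Fin p) (Fin p) ℂ}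
    (h : σ ∈ unitary (Matrix (Fin p) (Fin p) ℂ)) : blk f σ ∈ unitary (Matrix ι ι ℂ) := by
  refine ⟨?_, ?_⟩
  · rw [star_blk, ← blk_mul, h.1, blk_one]
  · rw [star_blk, ← blk_mul, h.2, blk_one]

theorem blk_comm {f₀ f₁ : Fin p ↪ ι} (h : ∀ r s, f₀ r ≠ f₁ s) (σ τ : Matrix (Fin p) (Fin p) ℂ) :
    blk f₀ σ * blk f₁ τ = blk f₁ τ * blk f₀ σ := by
  have h1 : ∀ {f₀ f₁ : Fin p ↪ ι}, (∀ r s, f₀ r ≠ f₁ s) → ∀ a b : Matrix (Fin p) (Fin p) ℂ,
      emb f₀ * a * (emb f₀)ᴴ * (emb f₁ * b * (emb f₁)ᴴ) = 0 := by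
    intro f₀ f₁ h a b
    calc _ = emb f₀ * a * ((emb f₀)ᴴ * emb f₁) * b * (emb f₁)ᴴ := by
          simp only [Matrix.mul_assoc]
      _ = 0 := by rw [emb_ct_mul_emb_of_ne h]; simp
  simp only [blk, mul_add, add_mul, one_mul, mul_one, h1 h, h1 fun r s => (h s r).symm]
  abel

theorem exists_conj (f₀ f : Fin p ↪ ι) : ∃ U ∈ unitary (Matrix ι ι ℂ),
    ∀ σ, blk f σ = U * blk f₀ σ * star U := by
  obtain ⟨π, hπ⟩ := Equiv.Perm.exists_extending_pair f₀ f f₀.injective f.injective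
  let U : Matrix ι ι ℂ := Matrix.of fun i j => if i = π j then 1 else 0
  have h1 : star U * U = 1 := by
    ext j k
    simp only [U, mul_apply, star_apply, of_apply, one_apply]
    rw [Finset.sum_eq_single (π j)]
    · simp
    · intro i _ hi
      simp [hi]
    · simp
  have h2 : U * star U = 1 := mul_eq_one_comm.1 h1
  have h3 : U * emb f₀ = emb f := by
    ext i r
    simp only [U, emb, mul_apply, of_apply]
    rw [Finset.sum_eq_single (f₀ r)]
    · simp [hπ]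
    · intro j _ hj
      simp [hj]
    · simp
  refine ⟨U, ⟨h1, h2⟩, fun σ => ?_⟩
  simp only [blk, mul_add, add_mul, mul_one, h2]
  rw [← h3, conjTranspose_mul, star_eq_conjTranspose]
  simp only [Matrix.mul_assoc]

/-! ### Smoothness -/

theorem contDiff_star {n : Type} [Fintype n] [DecidableEq n] {E : Type} [NormedAddCommGroup E]
    [NormedSpace ℝ E] {F : E → Matrix n n ℂ} (hF : ContDiff ℝ 2 F) :
    ContDiff ℝ 2 fun x => star (F x) :=
  (starL' ℝ : Matrix n n ℂ ≃L[ℝ] Matrix n n ℂ).contDiff.comp hF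

/-- The linear part of `blk`. -/
noncomputable def blkL (f : Fin p ↪ ι) : Matrix (Fin p) (Fin p) ℂ →ₗ[ℝ] Matrix ι ι ℂ where
  toFun x := emb f * x * (emb f)ᴴ
  map_add' x y := by simp only [Matrix.mul_add, Matrix.add_mul]
  map_smul' c x := by simp only [Matrix.mul_smul, Matrix.smul_mul, RingHom.id_apply]

theorem contDiff_blk (f : Fin p ↪ ι) {E : Type} [NormedAddCommGroup E]
    [NormedSpace ℝ E] {F : E → Matrix (Fin p) (Fin p) ℂ} (hF : ContDiff ℝ 2 F) :
    ContDiff ℝ 2 fun x => blk f (F x) :=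
  contDiff_const.add
    ((LinearMap.toContinuousLinearMap (blkL f)).contDiff.comp (hF.sub contDiff_const))

/-! ### Homotopies -/

variable {W W' W'' V V' : Sp m p → Matrix ι ι ℂ}

theorem htp_refl (hW : ContDiff ℝ 2 W) (hu : ∀ σ, IsU σ → W σ ∈ unitary (Matrix ι ι ℂ)) :
    Htp W W :=
  ⟨fun x => W x.2, hW.comp contDiff_snd, fun _ σ h => hu σ h, fun _ _ => rfl, fun _ _ => rfl⟩

theorem htp_congr (h : Htp W W') (h1 : ∀ σ, IsU σ → W σ = V σ) (h2 : ∀ σ, IsU σ → W' σ = V' σ) :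
    Htp V V' := by
  obtain ⟨H, hH, hu, h0, h1'⟩ := h
  exact ⟨H, hH, hu, fun σ hσ => (h0 σ hσ).trans (h1 σ hσ), fun σ hσ => (h1' σ hσ).trans (h2 σ hσ)⟩

theorem htp_symm (h : Htp W W') : Htp W' W := by
  obtain ⟨H, hH, hu, h0, h1⟩ := h
  refine ⟨fun x => H (1 - x.1, x.2), hH.comp ((contDiff_const.sub contDiff_fst).prodMk
    contDiff_snd), fun t σ hσ => hu _ σ hσ, fun σ hσ => ?_, fun σ hσ => ?_⟩
  · simpa using h1 σ hσ
  · simpa using h0 σ hσ

theorem htp_mul (h : Htp W W') (h' : Htp V V') :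
    Htp (fun σ => W σ * V σ) (fun σ => W' σ * V' σ) := by
  obtain ⟨H, hH, hu, h0, h1⟩ := h
  obtain ⟨H', hH', hu', h0', h1'⟩ := h'
  refine ⟨fun x => H x * H' x, hH.mul hH', fun t σ hσ => mul_mem (hu t σ hσ) (hu' t σ hσ),
    fun σ hσ => ?_, fun σ hσ => ?_⟩
  · simp only [h0 σ hσ, h0' σ hσ]
  · simp only [h1 σ hσ, h1' σ hσ]

theorem htp_star (h : Htp W W') : Htp (fun σ => star (W σ)) (fun σ => star (W' σ)) := by
  obtain ⟨H, hH, hu, h0, h1⟩ := h
  refine ⟨fun x => star (H x), contDiff_star hH, fun t σ hσ => Unitary.star_mem (hu t σ hσ),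
    fun σ hσ => ?_, fun σ hσ => ?_⟩
  · simp only [h0 σ hσ]
  · simp only [h1 σ hσ]

theorem htp_trans (h : Htp W W') (h' : Htp W' W'') : Htp W W'' := by
  obtain ⟨H, hH, hu, h0, h1⟩ := h
  obtain ⟨H', hH', hu', h0', h1'⟩ := h'
  refine ⟨fun x => H x * star (H (1, x.2)) * H' x,
    (hH.mul (contDiff_star (hH.comp (contDiff_const.prodMk contDiff_snd)))).mul hH',
    fun t σ hσ => mul_mem (mul_mem (hu t σ hσ) (Unitary.star_mem (hu 1 σ hσ))) (hu' t σ hσ),
    fun σ hσ => ?_, fun σ hσ => ?_⟩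
  · have := (hu 1 σ hσ).1
    simp only [h0 σ hσ, h0' σ hσ, ← h1 σ hσ, mul_assoc, this, mul_one]
  · have := (hu 1 σ hσ).2
    simp only [h1' σ hσ, this, one_mul]

theorem htp_const {a : Matrix ι ι ℂ} (ha : a ∈ unitary (Matrix ι ι ℂ)) :
    Htp (fun _ : Sp m p => a) (fun _ => 1) := by
  obtain ⟨γ, hγ, h0, h1, hu, -⟩ := exists_path ha
  exact htp_symm ⟨fun x => γ x.1, hγ.comp contDiff_fst, fun t _ _ => hu t, fun _ _ => h0,
    fun _ _ => h1⟩

/-! ### The group of classes -/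

/-- `C²` maps that are unitary on unitary tuples. -/
def Sm (m p : ℕ) : Submonoid (Sp m p → Matrix (Fin p) (Fin p) ℂ) where
  carrier := {a | ContDiff ℝ 2 a ∧ ∀ σ, IsU σ → a σ ∈ unitary (Matrix (Fin p) (Fin p) ℂ)}
  one_mem' := ⟨contDiff_const, fun _ _ => one_mem _⟩
  mul_mem' ha hb := ⟨ha.1.mul hb.1, fun σ hσ => mul_mem (ha.2 σ hσ) (hb.2 σ hσ)⟩

/-- The adjoint of such a map. -/
def Sm.st (a : Sm m p) : Sm m p :=
  ⟨fun σ => star (a.1 σ), contDiff_star a.2.1, fun σ hσ => Unitary.star_mem (a.2.2 σ hσ)⟩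

/-- The coordinate maps. -/
def Sm.crd (j : Fin m) : Sm m p := ⟨fun σ => σ j, contDiff_apply ℝ _ j, fun _ hσ => hσ j⟩

theorem htp_blk_refl (f : Fin p ↪ ι) (a : Sm m p) :
    Htp (fun σ => blk f (a.1 σ)) (fun σ => blk f (a.1 σ)) :=
  htp_refl (contDiff_blk f a.2.1) fun σ hσ => blk_mem f (a.2.2 σ hσ)

theorem htp_blk (f₀ f : Fin p ↪ ι) (a : Sm m p) :
    Htp (fun σ => blk f (a.1 σ)) (fun σ => blk f₀ (a.1 σ)) := by
  obtain ⟨U, hU, h⟩ := exists_conj f₀ f
  refine htp_congr (htp_mul (htp_mul (htp_const hU) (htp_blk_refl f₀ a))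
    (htp_const (Unitary.star_mem hU))) (fun σ _ => (h _).symm) (fun σ _ => ?_)
  simp

/-- Homotopy of the blocks, as a congruence. -/
def con (f : Fin p ↪ ι) (m : ℕ) : Con (Sm m p) where
  r a b := Htp (fun σ => blk f (a.1 σ)) (fun σ => blk f (b.1 σ))
  iseqv := ⟨htp_blk_refl f, htp_symm, htp_trans⟩
  mul' h h' := htp_congr (htp_mul h h') (fun _ _ => (blk_mul _ _ _).symm)
    (fun _ _ => (blk_mul _ _ _).symm)

theorem con_comm {f₀ f₁ : Fin p ↪ ι} (h : ∀ r s, f₀ r ≠ f₁ s) (a b : Sm m p) :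
    con f₀ m (a * b) (b * a) := by
  have h1 := htp_mul (htp_blk_refl f₀ a) (htp_blk f₁ f₀ b)
  have h2 := htp_mul (htp_blk f₀ f₁ b) (htp_blk_refl f₀ a)
  exact htp_congr (htp_trans h1 (htp_congr h2 (fun σ _ => (blk_comm h _ _).symm) fun _ _ => rfl))
    (fun _ _ => (blk_mul _ _ _).symm) (fun _ _ => (blk_mul _ _ _).symm)

theorem con_st_mul (f : Fin p ↪ ι) (a : Sm m p) : con f m ((Sm.st a) * a) 1 :=
  htp_congr (htp_blk_refl f 1) (fun σ hσ => congrArg (blk f) (a.2.2 σ hσ).1.symm) fun _ _ => rfl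

theorem key {K : Type} [CommGroup K] (f : Fin p ↪ ι) (φ : Sm m p →* K)
    (hst : ∀ a, φ (Sm.st a) = (φ a)⁻¹) (s : Fin m → Sm m p) {e : Fin m → ℤ}
    {W : Sp m p → Matrix ι ι ℂ} (hW : Word e W) :
    ∃ a : Sm m p, Htp (fun σ => W fun j => (s j).1 σ) (fun σ => blk f (a.1 σ)) ∧
      φ a = ∏ j, φ (s j) ^ e j := by
  induction hW with
  | const a ha =>
    exact ⟨1, htp_congr (htp_const ha) (fun _ _ => rfl) (fun _ _ => (blk_one f).symm), by simp⟩
  | gen j f' =>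
    refine ⟨s j, htp_blk f f' (s j), ?_⟩
    rw [Finset.prod_eq_single j]
    · simp
    · intro i _ hi
      simp [hi]
    · simp
  | mul _ _ ih ih' =>
    obtain ⟨a, ha, ha'⟩ := ih
    obtain ⟨b, hb, hb'⟩ := ih'
    refine ⟨a * b, htp_congr (htp_mul ha hb) (fun _ _ => rfl)
      (fun _ _ => (blk_mul _ _ _).symm), ?_⟩
    simp only [map_mul, ha', hb', Pi.add_apply, _root_.zpow_add, Finset.prod_mul_distrib]
  | star _ ih =>
    obtain ⟨a, ha, ha'⟩ := ih
    refine ⟨(Sm.st a), htp_congr (htp_star ha) (fun _ _ => rfl) (fun _ _ => star_blk _ _), ?_⟩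
    simp only [hst, ha', Pi.neg_apply, _root_.zpow_neg, Finset.prod_inv_distrib]

theorem zpow_sum {K α : Type} [CommGroup K] (x : K) (s : Finset α) (n : α → ℤ) :
    x ^ (∑ a ∈ s, n a) = ∏ a ∈ s, x ^ n a := by
  classical
  induction s using Finset.induction_on with
  | empty => simp
  | insert a s ha ih => rw [Finset.sum_insert ha, Finset.prod_insert ha, _root_.zpow_add, ih]

end WordHtp

open WordHtp in
theorem wordHtp : WordHtp := by
  intro ι _ _ m p f₀ f₁ hf e he W hW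
  let K := (con f₀ m).Quotient
  let φ₀ : Sm m p →* K := (con f₀ m).mk'
  have hsurj : Function.Surjective φ₀ := (con f₀ m).mk'_surjective
  have heq : ∀ a b, φ₀ a = φ₀ b ↔ con f₀ m a b := fun a b => (con f₀ m).eq
  let : CommMonoid K :=
    { (inferInstance : Monoid K) with
      mul_comm := fun x y => by
        obtain ⟨a, rfl⟩ := hsurj x
        obtain ⟨b, rfl⟩ := hsurj y
        rw [← map_mul, ← map_mul, heq]
        exact con_comm hf a b }
  have hinv : ∀ a : Sm m p, φ₀ (Sm.st a) * φ₀ a = 1 := fun a => by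
    rw [← map_mul, ← map_one φ₀, heq]
    exact con_st_mul f₀ a
  let : CommGroup K := commGroupOfIsUnit fun x => by
    obtain ⟨a, rfl⟩ := hsurj x
    exact IsUnit.of_mul_eq_one_right _ (hinv a)
  have hst : ∀ a : Sm m p, φ₀ (Sm.st a) = (φ₀ a)⁻¹ := fun a => eq_inv_of_mul_eq_one_left (hinv a)
  let A : Matrix (Fin m) (Fin m) ℤ := (-e.det.sign) • e.adjugate
  have hA : e * A = (-(e.det.natAbs : ℤ)) • (1 : Matrix (Fin m) (Fin m) ℤ) := by
    simp only [A, Matrix.mul_smul, mul_adjugate, smul_smul, neg_mul, Int.sign_mul_self_eq_natAbs]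
  choose s hs using fun j => hsurj (∏ i, φ₀ (Sm.crd i) ^ A j i)
  refine ⟨e.det.natAbs, fun σ j => (s j).1 σ, Int.natAbs_pos.2 he,
    fun σ hσ j => (s j).2.2 σ hσ, fun v y hy => ?_⟩
  obtain ⟨a, ha, ha'⟩ := key f₀ φ₀ hst s (hW v)
  have h1 : φ₀ a = (φ₀ (Sm.crd v) ^ e.det.natAbs)⁻¹ := by
    rw [ha']
    simp only [hs, ← Finset.prod_zpow, ← _root_.zpow_mul]
    rw [Finset.prod_comm]
    simp only [← WordHtp.zpow_sum]
    have h2 : ∀ i, ∑ j, A j i * e v j = if v = i then -(e.det.natAbs : ℤ) else 0 := by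
      intro i
      have := congrFun (congrFun hA v) i
      simp only [mul_apply, Matrix.smul_apply, one_apply, smul_eq_mul, mul_ite, mul_one,
        mul_zero] at this
      rw [← this]
      exact Finset.sum_congr rfl fun j _ => mul_comm _ _
    simp only [h2]
    rw [Finset.prod_eq_single v]
    · rw [if_pos rfl, _root_.zpow_neg, _root_.zpow_natCast]
    · intro i _ hi
      rw [if_neg hi.symm, _root_.zpow_zero]
    · simp
  have h2 : con f₀ m (Sm.st a) (Sm.crd v ^ e.det.natAbs) := by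
    rw [← heq, hst, h1, inv_inv, map_pow]
  refine htp_trans (htp_mul (htp_star ha) (htp_const hy)) (htp_congr h2 (fun σ _ => ?_)
    fun σ _ => ?_)
  · rw [mul_one, star_blk]
    rfl
  · rw [← blk_pow]
    rfl

end Crest.Agent.R174
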